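import Vale.Agent.P308.Model
import Vale.Agent.P328.Algo

/-! The counting algorithm (definitions). -/

namespace Vale.Agent.P308

open Finset P317 P317.Prog P328

def BB (n e : ℕ) : ℕ := 8 * n * e
def TT (n e : ℕ) : ℕ := 3000 * n ^ 5 * e
def GG (n e : ℕ) : ℕ := 64 * TT n e * e
def NN (n e : ℕ) : ℕ := 60 * n ^ 2 * TT n e * GG n e ^ 2
def bet (n e : ℕ) : ℕ := TT n e + BB n e + 1
/-- the length of the walks -/
def LL (n e : ℕ) : ℕ := 4 * CC n * (n * (n + 2 * bet n e) + 2 * GG n e)

def cent (c : List (List ℚ)) (i j : ℕ) : ℚ := (c.getD i []).getD j 0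
def kent (k : List (List ℕ)) (i j : ℕ) : ℕ := (k.getD i []).getD j 0
def aent (G : List (List Bool)) (i j : ℕ) : ℚ :=
  if (G.getD i []).getD j false = true then 1 else 0

def kap (n : ℕ) : ℚ := 1 + 1 / (8 * n)

/-- the virtual weight with exponent `k` -/
def bq (n e k : ℕ) : ℚ := BB n e * kap n ^ min k (2 * TT n e) / kap n ^ TT n e

def aM (G : List (List Bool)) : List (List ℚ) := tab G.length G.length (aent G)

def cM (G : List (List Bool)) (e : ℕ) (k : List (List ℕ)) : List (List ℚ) :=
  tab G.length G.length fun i j => aent G i j + bq G.length e (kent k i j)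

def wt (c : List (List ℚ)) (X : List ℕ) : ℚ :=
  ∏ v ∈ range X.length, if v < X.getD v 0 then cent c v (X.getD v 0) else 1

def sw (p q v : ℕ) : ℕ := if v = p then q else if v = q then p else v

def cjL (p q : ℕ) (X : List ℕ) : List ℕ :=
  (List.range X.length).map fun v => min X.length (sw p q (X.getD (sw p q v) 0))

def start (n : ℕ) : List ℕ := (List.range n).map fun v => if v % 2 = 0 then v + 1 else v - 1

def stepP (c : List (List ℚ)) (X : List ℕ) : Prog Unit (List ℕ) :=
  bind (coinP (1 / 2)) fun z => if z = true then .ret X else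
    bind (unifP X.length) fun p => bind (unifP X.length) fun q =>
      bind (unifP X.length) fun r => bind (unifP X.length) fun s =>
        bind (coinP (wt c (cjL p q (cjL r s X)) / wt c X)) fun b =>
          .ret (if b = true then cjL p q (cjL r s X) else X)

def walkP (n : ℕ) (c : List (List ℚ)) (L : ℕ) : Prog Unit (List ℕ) :=
  foldP (List.range L) (fun X _ => stepP c X) (start n)

/-- the count is about `N / 2` times the ratio of the partition functions -/
def ratP (n : ℕ) (c c' : List (List ℚ)) (L N : ℕ) : Prog Unit ℕ :=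
  bind (rep N (bind (walkP n c L) fun X => coinP (wt c' X / (2 * wt c X)))) fun bs =>
    .ret (bs.countP fun b => b)

/-- the estimate of the probability that `i j` is a virtual edge -/
def phat (G : List (List Bool)) (e : ℕ) (k : List (List ℕ)) (Xs : List (List ℕ)) (i j : ℕ) : ℚ :=
  ((Xs.countP fun X => decide (X.getD (min i j) 0 = max i j) : ℕ) : ℚ) / NN G.length e *
    (bq G.length e (kent k i j) / (aent G i j + bq G.length e (kent k i j)))

def low (G : List (List Bool)) (e : ℕ) (k : List (List ℕ)) (Xs : List (List ℕ)) (i j : ℕ) : Bool :=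
  decide (i ≠ j) && decide (phat G e k Xs i j < 1 / (10 * (G.length : ℚ) ^ 2))

def high (G : List (List Bool)) (e : ℕ) (k : List (List ℕ)) (Xs : List (List ℕ)) (i j : ℕ) : Bool :=
  decide (i ≠ j) && decide (4 / (10 * (G.length : ℚ) ^ 2) < phat G e k Xs i j)

def anyP (n : ℕ) (f : ℕ → ℕ → Bool) : Bool :=
  (List.range n).any fun i => (List.range n).any fun j => f i j

def upd (G : List (List Bool)) (e : ℕ) (k : List (List ℕ)) (Xs : List (List ℕ)) : List (List ℕ) :=
  if anyP G.length (low G e k Xs) = true then
    tab G.length G.length fun i j => if low G e k Xs i j = true then kent k i j + 1 else kent k i j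
  else
    tab G.length G.length fun i j => if high G e k Xs i j = true then kent k i j - 1 else kent k i j

/-- the state: exponents, product of the counts, and a flag -/
abbrev St : Type := List (List ℕ) × ℕ × Bool

def nxt (G : List (List Bool)) (e : ℕ) (s : St) (Xs : List (List ℕ)) : List (List ℕ) :=
  if s.2.2 = true then s.1 else upd G e s.1 Xs

def roundP (G : List (List Bool)) (e L : ℕ) (s : St) : Prog Unit St :=
  bind (rep (NN G.length e) (walkP G.length (cM G e s.1) L)) fun Xs =>
    bind (ratP G.length (cM G e s.1) (cM G e (nxt G e s Xs)) L (NN G.length e)) fun r =>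
      .ret (nxt G e s Xs, s.2.1 * r,
        s.2.2 || (!anyP G.length (low G e s.1 Xs) && !anyP G.length (high G e s.1 Xs)))

def s0 (n e : ℕ) : St := (tab n n fun _ _ => TT n e, 1, false)

def Z0 (n e : ℕ) : ℕ := ∏ i ∈ range (n / 2), BB n e * (2 * i + 1)

def runP (G : List (List Bool)) (e L : ℕ) : Prog Unit ℚ :=
  bind (foldP (List.range (TT G.length e)) (fun s _ => roundP G e L s) (s0 G.length e)) fun s =>
    bind (ratP G.length (cM G e s.1) (aM G) L (NN G.length e)) fun r =>
      .ret (((Z0 G.length e * (s.2.1 * r) : ℕ) : ℚ) *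
        (2 / (NN G.length e : ℚ)) ^ (TT G.length e + 1))

def mainP (G : List (List Bool)) (e l L : ℕ) : Prog Unit ℚ :=
  if G.length = 0 then .ret 1 else if G.length % 2 = 1 then .ret 0 else
    bind (rep (l + 1) (runP G e L)) fun vs => .ret (median vs)

/-- the matrix as a kernel -/
noncomputable def ker (n : ℕ) (c : List (List ℚ)) (u v : Fin n) : ℝ := ((cent c u v : ℚ) : ℝ)

def enc {n : ℕ} (X : Fin n → Fin n) : List ℕ := List.ofFn fun v => (X v : ℕ)

/-- the virtual weights as a kernel -/
noncomputable def bK (n e : ℕ) (k : List (List ℕ)) (u v : Fin n) : ℝ :=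
  ((bq n e (kent k u v) : ℚ) : ℝ)

end Vale.Agent.P308
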