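import Vale.Agent.P308.Algo

/-! The counting algorithm with colliding copies (definitions). -/

namespace Vale.Agent.P308

open Finset P317 P317.Prog P328

def KK (n : ℕ) : ℕ := n ^ 800
def RR (n e : ℕ) : ℕ := 1000 * KK n * TT n e * GG n e
/-- the number of copies -/
def NP (n e : ℕ) : ℕ := RR n e ^ 2
/-- the number of small steps in a round -/
def JJ (n e : ℕ) : ℕ := 16 * NP n e ^ 2 * TT n e * GG n e
def LS (n e : ℕ) : ℕ := NP n e ^ 5
/-- the length of the first walks -/
def L0 (n e : ℕ) : ℕ := 4 * (8 * n ^ 18) * (n * (n + 2 * bet n e) + 2 * (GG n e + NP n e))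

def orbS (X Y : List ℕ) (S : List Bool) : List Bool :=
  (List.range X.length).map fun v =>
    S.getD v false || S.getD (X.getD v 0) false || S.getD (Y.getD v 0) false

/-- the indicator of the alternating cycle through `k` -/
def orbL (k : ℕ) (X Y : List ℕ) : List Bool :=
  (orbS X Y)^[X.length] ((List.range X.length).map fun v => decide (v = k))

def mixL (S : List Bool) (X Y : List ℕ) : List ℕ :=
  (List.range X.length).map fun v =>
    min X.length (if S.getD v false = true then Y.getD v 0 else X.getD v 0)

def mvL (b : Bool) (k p q : ℕ) (X Y : List ℕ) : List ℕ × List ℕ :=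
  if b = true then (cjL p q X, Y) else
    (mixL (orbL k X (cjL p q Y)) X (cjL p q Y), cjL p q (mixL (orbL k X (cjL p q Y)) (cjL p q Y) X))

def accP (c : List (List ℚ)) (xs : List (List ℕ)) (i j : ℕ) (z : List ℕ × List ℕ) :
    Prog Unit (List (List ℕ)) :=
  bind (coinP (wt c z.1 * wt c z.2 / (wt c (xs.getD i []) * wt c (xs.getD j [])))) fun a =>
    .ret (if a = true then (xs.set i z.1).set j z.2 else xs)

/-- one step of the system of copies -/
def colP (n : ℕ) (c : List (List ℚ)) (xs : List (List ℕ)) : Prog Unit (List (List ℕ)) :=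
  bind (unifP xs.length) fun i => bind (unifP xs.length) fun j => bind (coinP (1 / 2)) fun b =>
    bind (unifP n) fun k => bind (unifP n) fun p => bind (unifP n) fun q =>
      if i = j then .ret xs else accP c xs i j (mvL b k p q (xs.getD i []) (xs.getD j []))

def cesP (n : ℕ) (c : List (List ℚ)) (L : ℕ) (xs : List (List ℕ)) : Prog Unit (List (List ℕ)) :=
  bind (unifP L) fun l => foldP (List.range (min l L)) (fun xs _ => colP n c xs) xs

def midM (n : ℕ) (c c' : List (List ℚ)) (J j : ℕ) : List (List ℚ) :=
  tab n n fun u v => cent c u v + (j : ℚ) / J * (cent c' u v - cent c u v)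

/-- the weights move slowly from `c` to `c'` -/
def slowP (n : ℕ) (c c' : List (List ℚ)) (J L : ℕ) (xs : List (List ℕ)) :
    Prog Unit (List (List ℕ)) :=
  foldP (List.range J) (fun xs j => cesP n (midM n c c' J (j + 1)) L xs) xs

/-- the history of the tables of exponents -/
abbrev Hs : Type := List (List (List ℕ) × List (List ℕ))

def histP (G : List (List Bool)) (e : ℕ) (hs : Hs) : Prog Unit (List (List ℕ)) :=
  bind (rep (NP G.length e) (walkP G.length (cM G e (s0 G.length e).1) (L0 G.length e))) fun xs =>
    foldP hs (fun xs z =>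
      slowP G.length (cM G e z.1) (cM G e z.2) (JJ G.length e) (LS G.length e) xs) xs

def sampP (G : List (List Bool)) (e : ℕ) (hs : Hs) : Prog Unit (List ℕ) :=
  bind (histP G e hs) fun xs => .ret (xs.getD 0 [])

def ratQ (p : Prog Unit (List ℕ)) (c c' : List (List ℚ)) (N : ℕ) : Prog Unit ℕ :=
  bind (rep N (bind p fun X => coinP (wt c' X / (2 * wt c X)))) fun bs =>
    .ret (bs.countP fun b => b)

def round2 (G : List (List Bool)) (e : ℕ) (s : St × Hs) : Prog Unit (St × Hs) :=
  bind (rep (NN G.length e) (sampP G e s.2)) fun Xs =>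
    bind (ratQ (sampP G e s.2) (cM G e s.1.1) (cM G e (nxt G e s.1 Xs)) (NN G.length e)) fun r =>
      .ret ((nxt G e s.1 Xs, s.1.2.1 * r,
        s.1.2.2 || (!anyP G.length (low G e s.1.1 Xs) && !anyP G.length (high G e s.1.1 Xs))),
        s.2 ++ [(s.1.1, nxt G e s.1 Xs)])

def run2 (G : List (List Bool)) (e : ℕ) : Prog Unit ℚ :=
  bind (foldP (List.range (TT G.length e)) (fun s _ => round2 G e s) (s0 G.length e, [])) fun s =>
    bind (ratQ (sampP G e s.2) (cM G e s.1.1) (aM G) (NN G.length e)) fun r =>
      .ret (if 8 * r < NN G.length e then 0 else ((Z0 G.length e * (s.1.2.1 * r) : ℕ) : ℚ) *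
        (2 / (NN G.length e : ℚ)) ^ (TT G.length e + 1))

def main2 (G : List (List Bool)) (e l : ℕ) : Prog Unit ℚ :=
  if G.length = 0 then .ret 1 else if G.length % 2 = 1 then .ret 0 else
    bind (rep (l + 1) (run2 G e)) fun vs => .ret (median vs)

end Vale.Agent.P308
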