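import Vale.Agent.P308.Algo
import Vale.Agent.P328.AlgoPP

/-! The algorithm is a polynomial-time program (job AlgoPP). -/

namespace Vale.Agent.P308

open P317 P317.Prog Vale.Agent.PT

attribute [local irreducible] PTime PB

namespace AlgoPP

open P328 (tab unifP)
open P328.AlgoPP (pp_unifP)

variable {α : Type} [TEnc α] {G : α → List (List Bool)} {c c' : α → List (List ℚ)}
  {k Xs : α → List (List ℕ)} {X : α → List ℕ} {n e i j p q L N : α → ℕ} {s : α → St}
  {u w : α → List Unit}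

lemma pt_tab {β : Type} [TEnc β] {F : α → ℕ → ℕ → β} (hn : PTime n) (hn' : PB n)
    (hF : PTime fun z : (α × ℕ) × ℕ => F z.1.1 z.1.2 z.2) :
    PTime fun a => tab (n a) (n a) (F a) := by
  unfold tab
  refine PTime.map (by fun_prop) ?_
  exact PTime.map (f := fun (z : α × ℕ) j => F z.1 z.2 j)
    ((PTime.range hn hn').comp PTime.fst_id) hF

@[fun_prop] lemma pb_div2 (hn : PB n) : PB fun a => n a / 2 :=
  hn.of_le fun _ => Nat.div_le_self _ _

@[fun_prop] lemma pt_BB (hn : PTime n) (he : PTime e) : PTime fun a => BB (n a) (e a) := by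
  unfold BB; fun_prop

@[fun_prop] lemma pt_TT (hn : PTime n) (he : PTime e) : PTime fun a => TT (n a) (e a) := by
  unfold TT; fun_prop

@[fun_prop] lemma pb_TT (hn : PB n) (he : PB e) : PB fun a => TT (n a) (e a) := by
  unfold TT; fun_prop

@[fun_prop] lemma pt_GG (hn : PTime n) (he : PTime e) : PTime fun a => GG (n a) (e a) := by
  unfold GG; fun_prop

@[fun_prop] lemma pb_GG (hn : PB n) (he : PB e) : PB fun a => GG (n a) (e a) := by
  unfold GG; fun_prop

@[fun_prop] lemma pt_NN (hn : PTime n) (he : PTime e) : PTime fun a => NN (n a) (e a) := by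
  unfold NN; fun_prop

@[fun_prop] lemma pb_NN (hn : PB n) (he : PB e) : PB fun a => NN (n a) (e a) := by
  unfold NN; fun_prop

@[fun_prop] lemma pt_cent (hc : PTime c) (hi : PTime i) (hj : PTime j) :
    PTime fun a => cent (c a) (i a) (j a) := by
  unfold cent; fun_prop

@[fun_prop] lemma pt_kent (hk : PTime k) (hi : PTime i) (hj : PTime j) :
    PTime fun a => kent (k a) (i a) (j a) := by
  unfold kent; fun_prop

@[fun_prop] lemma pt_aent (hG : PTime G) (hi : PTime i) (hj : PTime j) :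
    PTime fun a => aent (G a) (i a) (j a) := by
  unfold aent; fun_prop

@[fun_prop] lemma pt_kap (hn : PTime n) : PTime fun a => kap (n a) := by
  unfold kap; fun_prop

@[fun_prop] lemma pt_bq (hn : PTime n) (hn' : PB n) (he : PTime e) (he' : PB e) (hi : PTime i) :
    PTime fun a => bq (n a) (e a) (i a) := by
  unfold bq; fun_prop

lemma pt_aM (hG : PTime G) : PTime fun a => aM (G a) := by
  unfold aM
  refine pt_tab ?_ ?_ ?_ <;> fun_prop

lemma pt_cM (hG : PTime G) (he : PTime u) (hk : PTime k) :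
    PTime fun a => cM (G a) (u a).length (k a) := by
  unfold cM
  refine pt_tab ?_ ?_ ?_ <;> fun_prop

@[fun_prop] lemma pt_wt (hc : PTime c) (hX : PTime X) : PTime fun a => wt (c a) (X a) := by
  unfold wt; fun_prop

@[fun_prop] lemma pt_sw (hp : PTime p) (hq : PTime q) (hi : PTime i) :
    PTime fun a => sw (p a) (q a) (i a) := by
  unfold sw; fun_prop

@[fun_prop] lemma pt_cjL (hp : PTime p) (hq : PTime q) (hX : PTime X) :
    PTime fun a => cjL (p a) (q a) (X a) := by
  unfold cjL; fun_prop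

lemma pt_start (hn : PTime n) (hn' : PB n) : PTime fun a => start (n a) := by
  unfold start; fun_prop

lemma pp_stepP (hc : PTime c) (hX : PTime X) : PP fun a => stepP (c a) (X a) := by
  unfold stepP
  refine PP.bind (PP.coinP ?_) (PP.ite ?_ (PP.ret ?_) (PP.bind (pp_unifP ?_) (PP.bind (pp_unifP ?_)
    (PP.bind (pp_unifP ?_) (PP.bind (pp_unifP ?_) (PP.bind (PP.coinP ?_) (PP.ret ?_))))))) <;>
    fun_prop

/-- the shape of the states of the walk -/
def Sh (n : ℕ) (X : List ℕ) : Prop := X.length = n ∧ ∀ x ∈ X, x ≤ n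

lemma sh_cjL {n : ℕ} {X : List ℕ} (h : X.length = n) (p q : ℕ) : Sh n (cjL p q X) := by
  refine ⟨by simp [cjL, h], fun x hx => ?_⟩
  obtain ⟨v, -, rfl⟩ := List.mem_map.1 hx
  exact h ▸ min_le_left _ _

lemma sh_start (n : ℕ) : Sh n (start n) := by
  refine ⟨by simp [start], fun x hx => ?_⟩
  obtain ⟨v, hv, rfl⟩ := List.mem_map.1 hx
  have := List.mem_range.1 hv
  split_ifs <;> omega

lemma all_stepP {n : ℕ} (c : List (List ℚ)) {X : List ℕ} (h : Sh n X) :
    All (Sh n) (stepP c X) := by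
  refine All.bind' _ fun z => ?_
  split_ifs
  · exact h
  · refine All.bind' _ fun p => All.bind' _ fun q => All.bind' _ fun r => All.bind' _ fun s =>
      All.bind' _ fun b => ?_
    rw [All_ret]
    split_ifs
    · exact sh_cjL (sh_cjL h.1 r s).1 p q
    · exact h

lemma sz_row {m b : ℕ} {X : List ℕ} (h : X.length ≤ m) (hb : ∀ x ∈ X, x ≤ b) :
    sz X ≤ m * (4 * b + 1 + 1) + 1 := by
  have h1 := sz_list_le X (B := 4 * b + 1) fun x hx =>
    (sz_nat_le_self x).trans (by have := hb x hx; omega)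
  exact h1.trans (by gcongr)

lemma pp_walkP (hn : PTime n) (hn' : PB n) (hc : PTime c) (hL : PTime L) (hL' : PB L) :
    PP fun a => walkP (n a) (c a) (L a) := by
  unfold walkP
  refine PP.foldP (PTime.range hL hL') (pt_start hn hn') (pp_stepP ?_ ?_)
    (fun a _ X => Sh (n a) X) (fun a => n a * (4 * n a + 1 + 1) + 1) ?_
    (fun a => sh_start _) (fun a k X _ _ hX => all_stepP _ hX)
    fun a k X _ hX => sz_row hX.1.le hX.2
  all_goals fun_prop

lemma pp_ratP (hn : PTime n) (hn' : PB n) (hc : PTime c) (hc' : PTime c') (hL : PTime L)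
    (hL' : PB L) (hN : PTime N) (hN' : PB N) :
    PP fun a => ratP (n a) (c a) (c' a) (L a) (N a) := by
  unfold ratP
  refine PP.bind (PP.rep hN hN' (PP.bind (pp_walkP hn hn' hc hL hL') (PP.coinP ?_))) (PP.ret ?_) <;>
    fun_prop

lemma all_ratP (n : ℕ) (c c' : List (List ℚ)) (L N : ℕ) :
    All (fun r => r ≤ N) (ratP n c c' L N) := by
  refine (All_rep_length N _).bind fun bs hbs => ?_
  rw [All_ret]
  exact hbs ▸ List.countP_le_length

@[fun_prop] lemma pt_phat (hG : PTime G) (he : PTime u) (hk : PTime k)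
    (hX : PTime Xs) (hi : PTime i) (hj : PTime j) :
    PTime fun a => phat (G a) (u a).length (k a) (Xs a) (i a) (j a) := by
  unfold phat; fun_prop

@[fun_prop] lemma pt_low (hG : PTime G) (he : PTime u) (hk : PTime k)
    (hX : PTime Xs) (hi : PTime i) (hj : PTime j) :
    PTime fun a => low (G a) (u a).length (k a) (Xs a) (i a) (j a) := by
  unfold low; fun_prop

@[fun_prop] lemma pt_high (hG : PTime G) (he : PTime u) (hk : PTime k)
    (hX : PTime Xs) (hi : PTime i) (hj : PTime j) :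
    PTime fun a => high (G a) (u a).length (k a) (Xs a) (i a) (j a) := by
  unfold high; fun_prop

lemma pt_anyP {f : α → ℕ → ℕ → Bool} (hn : PTime n) (hn' : PB n)
    (hf : PTime fun z : (α × ℕ) × ℕ => f z.1.1 z.1.2 z.2) : PTime fun a => anyP (n a) (f a) := by
  unfold anyP
  refine PTime.any (by fun_prop) ?_
  exact PTime.any (f := fun (z : α × ℕ) j => f z.1 z.2 j)
    ((PTime.range hn hn').comp PTime.fst_id) hf

lemma pt_anyL (hG : PTime G) (he : PTime u) (hk : PTime k) (hX : PTime Xs) :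
    PTime fun a => anyP (G a).length (low (G a) (u a).length (k a) (Xs a)) := by
  refine pt_anyP ?_ ?_ ?_ <;> fun_prop

lemma pt_anyH (hG : PTime G) (he : PTime u) (hk : PTime k) (hX : PTime Xs) :
    PTime fun a => anyP (G a).length (high (G a) (u a).length (k a) (Xs a)) := by
  refine pt_anyP ?_ ?_ ?_ <;> fun_prop

lemma pt_upd (hG : PTime G) (he : PTime u) (hk : PTime k) (hX : PTime Xs) :
    PTime fun a => upd (G a) (u a).length (k a) (Xs a) := by
  unfold upd
  refine PTime.ite (pt_anyL hG he hk hX).decide_eq_true (pt_tab ?_ ?_ ?_) (pt_tab ?_ ?_ ?_) <;>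
    fun_prop

lemma pt_nxt (hG : PTime G) (he : PTime u) (hs : PTime s) (hX : PTime Xs) :
    PTime fun a => nxt (G a) (u a).length (s a) (Xs a) := by
  unfold nxt
  refine PTime.ite ?_ ?_ (pt_upd hG he ?_ hX) <;> fun_prop

lemma pp_roundP (hG : PTime G) (he : PTime u) (hL : PTime w)
    (hs : PTime s) : PP fun a => roundP (G a) (u a).length (w a).length (s a) := by
  unfold roundP
  refine PP.bind (PP.rep ?_ ?_ (pp_walkP ?_ ?_ (pt_cM hG he ?_) ?_ ?_))
    (PP.bind (pp_ratP ?_ ?_ (pt_cM ?_ ?_ ?_) (pt_cM ?_ ?_ (pt_nxt ?_ ?_ ?_ ?_)) ?_ ?_ ?_ ?_)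
      (PP.ret (PTime.prodMk (pt_nxt ?_ ?_ ?_ ?_) (PTime.prodMk ?_ (PTime.or ?_
        (PTime.and (pt_anyL ?_ ?_ ?_ ?_).not (pt_anyH ?_ ?_ ?_ ?_).not)))))) <;>
    fun_prop

/-- the shape of the tables of exponents -/
def Tb (n b : ℕ) (k : List (List ℕ)) : Prop :=
  k.length ≤ n ∧ ∀ row ∈ k, row.length ≤ n ∧ ∀ x ∈ row, x ≤ b

lemma tb_tab {n b : ℕ} {F : ℕ → ℕ → ℕ} (h : ∀ i j, F i j ≤ b) : Tb n b (tab n n F) := by
  refine ⟨by simp [tab], fun row hrow => ?_⟩
  obtain ⟨i, -, rfl⟩ := List.mem_map.1 hrow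
  refine ⟨by simp, fun x hx => ?_⟩
  obtain ⟨j, -, rfl⟩ := List.mem_map.1 hx
  exact h i j

lemma Tb.kent {n b : ℕ} {k : List (List ℕ)} (h : Tb n b k) (i j : ℕ) : kent k i j ≤ b := by
  unfold P308.kent
  rcases lt_or_ge i k.length with hi | hi
  · rw [List.getD_eq_getElem _ _ hi]
    rcases lt_or_ge j k[i].length with hj | hj
    · rw [List.getD_eq_getElem _ _ hj]
      exact (h.2 _ (List.getElem_mem hi)).2 _ (List.getElem_mem hj)
    · rw [List.getD_eq_default _ _ hj]
      exact Nat.zero_le _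
  · rw [List.getD_eq_default _ _ hi]
    exact Nat.zero_le _

lemma tb_nxt (G : List (List Bool)) (e : ℕ) (s : St) (Xs : List (List ℕ)) {b : ℕ}
    (h : Tb G.length b s.1) : Tb G.length (b + 1) (nxt G e s Xs) := by
  unfold nxt upd
  split_ifs
  · exact ⟨h.1, fun row hrow => ⟨(h.2 row hrow).1, fun x hx =>
      ((h.2 row hrow).2 x hx).trans (Nat.le_succ _)⟩⟩
  · refine tb_tab fun i j => ?_
    have := h.kent i j
    split_ifs <;> omega
  · refine tb_tab fun i j => ?_
    have := h.kent i j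
    split_ifs <;> omega

lemma all_roundP (G : List (List Bool)) (e L : ℕ) (s : St) {b t : ℕ} (h : Tb G.length b s.1)
    (h' : s.2.1 ≤ NN G.length e ^ t) :
    All (fun s' : St => Tb G.length (b + 1) s'.1 ∧ s'.2.1 ≤ NN G.length e ^ (t + 1))
      (roundP G e L s) := by
  refine All.bind' _ fun Xs => (all_ratP _ _ _ _ _).bind fun r hr => ?_
  rw [All_ret]
  exact ⟨tb_nxt G e s Xs h, by rw [pow_succ]; exact Nat.mul_le_mul h' hr⟩

lemma sz_St {n b N t T : ℕ} {s : St} (h : Tb n b s.1) (h' : s.2.1 ≤ N ^ t) (ht : t ≤ T) :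
    sz s ≤ n * (n * (4 * b + 1 + 1) + 1 + 1) + 1 + (4 * (N * T + 1) + 1) + 5 := by
  obtain ⟨k, R, f⟩ := s
  have h1 := sz_list_le k (B := n * (4 * b + 1 + 1) + 1) fun row hrow =>
    sz_row (h.2 row hrow).1 (h.2 row hrow).2
  have h2 : sz k ≤ n * (n * (4 * b + 1 + 1) + 1 + 1) + 1 :=
    h1.trans (by have := h.1; gcongr)
  have h3 : R < 2 ^ (N * T + 1) := by
    calc R ≤ N ^ t := h'
      _ ≤ (2 ^ N) ^ t := Nat.pow_le_pow_left Nat.lt_two_pow_self.le _
      _ = 2 ^ (N * t) := (pow_mul _ _ _).symm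
      _ ≤ 2 ^ (N * T) := Nat.pow_le_pow_right (by norm_num) (Nat.mul_le_mul_left _ ht)
      _ < 2 ^ (N * T + 1) := Nat.pow_lt_pow_right (by norm_num) (Nat.lt_succ_self _)
  have h4 := sz_nat_le_of_lt h3
  have h5 := sz_bool_le f
  simp only [sz_prod]
  omega

@[fun_prop] lemma pt_Z0 (hn : PTime n) (hn' : PB n) (he : PTime e) :
    PTime fun a => Z0 (n a) (e a) := by
  unfold Z0; fun_prop

lemma pt_s0 (hn : PTime n) (hn' : PB n) (he : PTime e) : PTime fun a => s0 (n a) (e a) := by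
  unfold s0
  refine PTime.prodMk (pt_tab hn hn' ?_) (PTime.const _)
  fun_prop

lemma pp_runP (hG : PTime G) (he : PTime u) (hL : PTime w) :
    PP fun a => runP (G a) (u a).length (w a).length := by
  unfold runP
  refine PP.bind (PP.foldP ?_ (pt_s0 ?_ ?_ ?_) (pp_roundP ?_ ?_ ?_ ?_)
    (fun a t s => Tb (G a).length (TT (G a).length (u a).length + t) s.1 ∧
      s.2.1 ≤ NN (G a).length (u a).length ^ t)
    (fun a => (G a).length * ((G a).length * (4 * (TT (G a).length (u a).length + TT (G a).length (u a).length)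
      + 1 + 1) + 1 + 1) + 1 + (4 * (NN (G a).length (u a).length * TT (G a).length (u a).length + 1) + 1) + 5) ?_
    (fun a => ⟨tb_tab fun _ _ => le_rfl, le_rfl⟩)
    (fun a t s _ _ hs => all_roundP _ _ _ s hs.1 hs.2) fun a t s ht hs => ?_)
    (PP.bind (pp_ratP ?_ ?_ (pt_cM ?_ ?_ ?_) (pt_aM ?_) ?_ ?_ ?_ ?_) (PP.ret ?_))
  rotate_left 9
  · rw [List.length_range] at ht
    refine sz_St ⟨hs.1.1, fun row hrow => ⟨(hs.1.2 row hrow).1, fun x hx =>
      ((hs.1.2 row hrow).2 x hx).trans (by omega)⟩⟩ hs.2 ht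
  all_goals fun_prop

end AlgoPP

open AlgoPP in
theorem pp_mainP : PP fun a : List (List Bool) × List Unit × List Unit × List Unit =>
    mainP a.1 a.2.1.length a.2.2.1.length a.2.2.2.length := by
  unfold mainP
  refine PP.ite ?_ (PP.ret ?_) (PP.ite ?_ (PP.ret ?_) (PP.bind (PP.rep ?_ ?_
    (pp_runP ?_ ?_ ?_)) (PP.ret (ptime_median.comp ?_)))) <;> fun_prop

end Vale.Agent.P308
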