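import Vale.Agent.P308.Algo2
import Vale.Agent.P308.AlgoPP

/-! The algorithm is a polynomial-time program (job Algo2PP). -/

namespace Vale.Agent.P308

open P317 P317.Prog Vale.Agent.PT

attribute [local irreducible] PTime PB

namespace Algo2PP

open P328 (tab unifP)
open P328.AlgoPP (pp_unifP)
open AlgoPP

variable {α : Type} [TEnc α] {G : α → List (List Bool)} {c c' : α → List (List ℚ)}
  {xs : α → List (List ℕ)} {X Y : α → List ℕ} {n e i j k p q L N J : α → ℕ}
  {u : α → List Unit} {S : α → List Bool} {b : α → Bool} {hs : α → Hs}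

@[fun_prop] lemma pt_KK (hn : PTime n) : PTime fun a => KK (n a) := by
  unfold KK; fun_prop

@[fun_prop] lemma pb_KK (hn : PB n) : PB fun a => KK (n a) := by
  unfold KK; fun_prop

@[fun_prop] lemma pt_RR (hn : PTime n) (he : PTime e) : PTime fun a => RR (n a) (e a) := by
  unfold RR; fun_prop

@[fun_prop] lemma pb_RR (hn : PB n) (he : PB e) : PB fun a => RR (n a) (e a) := by
  unfold RR; fun_prop

@[fun_prop] lemma pt_NP (hn : PTime n) (he : PTime e) : PTime fun a => NP (n a) (e a) := by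
  unfold NP; fun_prop

@[fun_prop] lemma pb_NP (hn : PB n) (he : PB e) : PB fun a => NP (n a) (e a) := by
  unfold NP; fun_prop

@[fun_prop] lemma pt_JJ (hn : PTime n) (he : PTime e) : PTime fun a => JJ (n a) (e a) := by
  unfold JJ; fun_prop

@[fun_prop] lemma pb_JJ (hn : PB n) (he : PB e) : PB fun a => JJ (n a) (e a) := by
  unfold JJ; fun_prop

@[fun_prop] lemma pt_LS (hn : PTime n) (he : PTime e) : PTime fun a => LS (n a) (e a) := by
  unfold LS; fun_prop

@[fun_prop] lemma pb_LS (hn : PB n) (he : PB e) : PB fun a => LS (n a) (e a) := by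
  unfold LS; fun_prop

@[fun_prop] lemma pt_L0 (hn : PTime n) (he : PTime e) : PTime fun a => L0 (n a) (e a) := by
  unfold L0 bet; fun_prop

@[fun_prop] lemma pb_L0 (hn : PB n) (he : PB e) : PB fun a => L0 (n a) (e a) := by
  unfold L0 bet BB; fun_prop

@[fun_prop] lemma pt_orbS (hX : PTime X) (hY : PTime Y) (hS : PTime S) :
    PTime fun a => orbS (X a) (Y a) (S a) := by
  unfold orbS; fun_prop

lemma len_orb (X Y : List ℕ) (S : List Bool) (h : S.length = X.length) (t : ℕ) :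
    ((orbS X Y)^[t] S).length = X.length := by
  cases t with
  | zero => exact h
  | succ t => rw [Function.iterate_succ_apply']; simp [orbS]

@[fun_prop] lemma pt_orbL (hk : PTime k) (hX : PTime X) (hY : PTime Y) :
    PTime fun a => orbL (k a) (X a) (Y a) := by
  unfold orbL
  refine PTime.iterate (f := fun a S => orbS (X a) (Y a) S) ?_ ?_ ?_ ?_
    (fun a => (X a).length * (3 + 1) + 1) ?_ fun a t _ => ?_
  rotate_left 5
  · have h := len_orb (X a) (Y a) ((List.range (X a).length).map fun v => decide (v = k a))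
      (by simp) t
    exact (sz_list_le _ fun b _ => sz_bool_le b).trans (by rw [h])
  all_goals fun_prop

@[fun_prop] lemma pt_mixL (hS : PTime S) (hX : PTime X) (hY : PTime Y) :
    PTime fun a => mixL (S a) (X a) (Y a) := by
  unfold mixL; fun_prop

@[fun_prop] lemma pt_mvL (hb : PTime b) (hk : PTime k) (hp : PTime p) (hq : PTime q)
    (hX : PTime X) (hY : PTime Y) : PTime fun a => mvL (b a) (k a) (p a) (q a) (X a) (Y a) := by
  unfold mvL; fun_prop

lemma pp_accP {z : α → List ℕ × List ℕ} (hc : PTime c) (hx : PTime xs) (hi : PTime i)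
    (hj : PTime j) (hz : PTime z) : PP fun a => accP (c a) (xs a) (i a) (j a) (z a) := by
  unfold accP
  refine PP.bind (PP.coinP ?_) (PP.ret ?_) <;> fun_prop

lemma pp_colP (hn : PTime n) (hc : PTime c) (hx : PTime xs) :
    PP fun a => colP (n a) (c a) (xs a) := by
  unfold colP
  refine PP.bind (pp_unifP ?_) (PP.bind (pp_unifP ?_) (PP.bind (PP.coinP ?_)
    (PP.bind (pp_unifP ?_) (PP.bind (pp_unifP ?_) (PP.bind (pp_unifP ?_)
      (PP.ite ?_ (PP.ret ?_) (pp_accP ?_ ?_ ?_ ?_ ?_))))))) <;> fun_prop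

/-- the shape of one copy -/
def S1 (m : ℕ) (X : List ℕ) : Prop := X.length ≤ m ∧ sz X ≤ m * (4 * m + 1 + 1) + 1 + m

/-- the shape of the system of copies -/
def Sx (N m : ℕ) (xs : List (List ℕ)) : Prop := xs.length = N ∧ ∀ X ∈ xs, S1 m X

lemma len_le_sz {β : Type} [TEnc β] (l : List β) : l.length ≤ sz l := by
  induction l with
  | nil => simp
  | cons a l ih => simp only [List.length_cons, sz_cons]; omega

lemma sx_self (xs : List (List ℕ)) : Sx xs.length (sz xs) xs := by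
  refine ⟨rfl, fun X hX => ?_⟩
  have h := sz_le_of_mem hX
  exact ⟨(len_le_sz X).trans h, h.trans (Nat.le_add_left _ _)⟩

lemma Sx.sz_le {N m : ℕ} {xs : List (List ℕ)} (h : Sx N m xs) :
    sz xs ≤ N * (m * (4 * m + 1 + 1) + 1 + m + 1) + 1 :=
  h.1 ▸ sz_list_le xs fun X hX => (h.2 X hX).2

lemma s1_of {m : ℕ} {X : List ℕ} (h : X.length ≤ m) (h' : ∀ x ∈ X, x ≤ X.length) : S1 m X :=
  ⟨h, (sz_row h fun x hx => (h' x hx).trans h).trans (Nat.le_add_right _ _)⟩

lemma len_cjL (p q : ℕ) (X : List ℕ) : (cjL p q X).length = X.length := by simp [cjL]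

lemma len_mixL (S : List Bool) (X Y : List ℕ) : (mixL S X Y).length = X.length := by simp [mixL]

lemma s1_cjL {m : ℕ} {X : List ℕ} (h : X.length ≤ m) (p q : ℕ) : S1 m (cjL p q X) := by
  refine s1_of (by rwa [len_cjL]) fun x hx => ?_
  rw [len_cjL]
  exact (sh_cjL rfl p q).2 x hx

lemma s1_mixL {m : ℕ} {X : List ℕ} (h : X.length ≤ m) (S : List Bool) (Y : List ℕ) :
    S1 m (mixL S X Y) := by
  refine s1_of (by rwa [len_mixL]) fun x hx => ?_
  rw [len_mixL]
  obtain ⟨v, -, rfl⟩ := List.mem_map.1 hx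
  exact min_le_left _ _

lemma s1_mvL {m : ℕ} {X Y : List ℕ} (hX : S1 m X) (hY : S1 m Y) (b : Bool) (k p q : ℕ) :
    S1 m (mvL b k p q X Y).1 ∧ S1 m (mvL b k p q X Y).2 := by
  unfold mvL
  split_ifs
  · exact ⟨s1_cjL hX.1 p q, hY⟩
  · exact ⟨s1_mixL hX.1 _ _, s1_cjL (by rw [len_mixL, len_cjL]; exact hY.1) p q⟩

lemma Sx.getD {N m : ℕ} {xs : List (List ℕ)} (h : Sx N m xs) (i : ℕ) : S1 m (xs.getD i []) := by
  rcases lt_or_ge i xs.length with hi | hi
  · rw [List.getD_eq_getElem _ _ hi]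
    exact h.2 _ (List.getElem_mem hi)
  · rw [List.getD_eq_default _ _ hi]
    exact s1_of (Nat.zero_le _) (by simp)

lemma Sx.set {N m : ℕ} {xs : List (List ℕ)} (h : Sx N m xs) (i : ℕ) {X : List ℕ} (hX : S1 m X) :
    Sx N m (xs.set i X) := by
  refine ⟨by rw [List.length_set]; exact h.1, fun Y hY => ?_⟩
  rcases List.mem_or_eq_of_mem_set hY with h' | rfl
  · exact h.2 Y h'
  · exact hX

lemma all_colP {N m : ℕ} (n : ℕ) (c : List (List ℚ)) {xs : List (List ℕ)} (h : Sx N m xs) :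
    All (Sx N m) (colP n c xs) := by
  refine All.bind' _ fun i => All.bind' _ fun j => All.bind' _ fun b => All.bind' _ fun k =>
    All.bind' _ fun p => All.bind' _ fun q => ?_
  split_ifs
  · exact h
  · refine All.bind' _ fun a => ?_
    rw [All_ret]
    have h1 := s1_mvL (h.getD i) (h.getD j) b k p q
    split_ifs
    · exact (h.set i h1.1).set j h1.2
    · exact h

lemma all_loop {γ : Type} {N m : ℕ} (l : List γ)
    (f : List (List ℕ) → γ → Prog Unit (List (List ℕ)))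
    (hf : ∀ xs z, Sx N m xs → All (Sx N m) (f xs z)) {xs : List (List ℕ)} (h : Sx N m xs) :
    All (Sx N m) (foldP l f xs) :=
  All_foldP l f (fun _ => Sx N m) (fun _ s z _ hs => hf s z hs) 0 xs h

lemma pp_loop {γ : Type} [TEnc γ] {l : α → List γ}
    {F : α → List (List ℕ) → γ → Prog Unit (List (List ℕ))} (hl : PTime l) (hx : PTime xs)
    (hF : PP fun z : α × List (List ℕ) × γ => F z.1 z.2.1 z.2.2)
    (hf : ∀ a N m ys z, Sx N m ys → All (Sx N m) (F a ys z)) :
    PP fun a => foldP (l a) (F a) (xs a) := by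
  have hz : PB fun a => sz (xs a) := hx.sz_PB
  refine PP.foldP hl hx hF (fun a _ ys => Sx (xs a).length (sz (xs a)) ys)
    (fun a => (xs a).length * (sz (xs a) * (4 * sz (xs a) + 1 + 1) + 1 + sz (xs a) + 1) + 1) ?_
    (fun a => sx_self _) (fun a _ ys z _ h => hf a _ _ ys z h) fun a _ ys _ h => h.sz_le
  fun_prop

lemma all_cesP {N m : ℕ} (n : ℕ) (c : List (List ℚ)) (L : ℕ) {xs : List (List ℕ)}
    (h : Sx N m xs) : All (Sx N m) (cesP n c L xs) :=
  All.bind' _ fun _ => all_loop _ _ (fun _ _ hs => all_colP n c hs) h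

lemma pp_cesP (hn : PTime n) (hc : PTime c) (hL : PTime L) (hL' : PB L) (hx : PTime xs) :
    PP fun a => cesP (n a) (c a) (L a) (xs a) := by
  unfold cesP
  refine PP.bind (pp_unifP hL) (pp_loop (PTime.range ?_ ?_) ?_ (pp_colP ?_ ?_ ?_)
    fun a N m ys z h => all_colP _ _ h)
  rotate_left
  · exact (hL'.comp PTime.fst_id).of_le fun _ => min_le_right _ _
  all_goals fun_prop

lemma pt_midM (hn : PTime n) (hn' : PB n) (hc : PTime c) (hc' : PTime c') (hJ : PTime J)
    (hj : PTime j) : PTime fun a => midM (n a) (c a) (c' a) (J a) (j a) := by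
  unfold midM
  refine pt_tab ?_ ?_ ?_ <;> fun_prop

lemma all_slowP {N m : ℕ} (n : ℕ) (c c' : List (List ℚ)) (J L : ℕ) {xs : List (List ℕ)}
    (h : Sx N m xs) : All (Sx N m) (slowP n c c' J L xs) :=
  all_loop _ _ (fun _ _ hs => all_cesP _ _ _ hs) h

lemma pp_slowP (hn : PTime n) (hn' : PB n) (hc : PTime c) (hc' : PTime c') (hJ : PTime J)
    (hJ' : PB J) (hL : PTime L) (hL' : PB L) (hx : PTime xs) :
    PP fun a => slowP (n a) (c a) (c' a) (J a) (L a) (xs a) := by
  unfold slowP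
  refine pp_loop (PTime.range hJ hJ') hx (pp_cesP ?_ (pt_midM ?_ ?_ ?_ ?_ ?_ ?_) ?_ ?_ ?_)
    fun a N m ys z h => all_cesP _ _ _ h
  rotate_left 2
  · exact hn'.comp PTime.fst_id
  rotate_left 5
  · exact hL'.comp PTime.fst_id
  all_goals fun_prop

lemma pp_histP (hG : PTime G) (he : PTime u) (hh : PTime hs) :
    PP fun a => histP (G a) (u a).length (hs a) := by
  unfold histP
  refine PP.bind (PP.rep ?_ ?_ (pp_walkP ?_ ?_ (pt_cM hG he (pt_s0 ?_ ?_ ?_).fst) ?_ ?_))
    (pp_loop ?_ ?_ (pp_slowP ?_ ?_ (pt_cM ?_ ?_ ?_) (pt_cM ?_ ?_ ?_) ?_ ?_ ?_ ?_ ?_)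
      fun a N m ys z h => all_slowP _ _ _ _ _ h) <;> fun_prop

lemma pp_sampP (hG : PTime G) (he : PTime u) (hh : PTime hs) :
    PP fun a => sampP (G a) (u a).length (hs a) := by
  unfold sampP
  refine PP.bind (pp_histP hG he hh) (PP.ret ?_)
  fun_prop

lemma pp_ratQ {P : α → Prog Unit (List ℕ)} (hP : PP P) (hc : PTime c) (hc' : PTime c')
    (hN : PTime N) (hN' : PB N) : PP fun a => ratQ (P a) (c a) (c' a) (N a) := by
  unfold ratQ
  refine PP.bind (PP.rep hN hN' (PP.bind hP (PP.coinP ?_))) (PP.ret ?_) <;> fun_prop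

lemma all_ratQ (P : Prog Unit (List ℕ)) (c c' : List (List ℚ)) (N : ℕ) :
    All (fun r => r ≤ N) (ratQ P c c' N) := by
  refine (All_rep_length N _).bind fun bs hbs => ?_
  rw [All_ret]
  exact hbs ▸ List.countP_le_length

lemma pp_round2 {s : α → St × Hs} (hG : PTime G) (he : PTime u) (hs : PTime s) :
    PP fun a => round2 (G a) (u a).length (s a) := by
  unfold round2
  refine PP.bind (PP.rep ?_ ?_ (pp_sampP hG he ?_))
    (PP.bind (pp_ratQ (pp_sampP ?_ ?_ ?_) (pt_cM ?_ ?_ ?_) (pt_cM ?_ ?_ (pt_nxt ?_ ?_ ?_ ?_)) ?_ ?_)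
      (PP.ret (PTime.prodMk (PTime.prodMk (pt_nxt ?_ ?_ ?_ ?_) (PTime.prodMk ?_ (PTime.or ?_
        (PTime.and (pt_anyL ?_ ?_ ?_ ?_).not (pt_anyH ?_ ?_ ?_ ?_).not))))
        (PTime.append ?_ (PTime.cons (PTime.prodMk ?_ (pt_nxt ?_ ?_ ?_ ?_)) ?_))))) <;>
    fun_prop

lemma Tb.mono {n b b' : ℕ} {k : List (List ℕ)} (h : Tb n b k) (hb : b ≤ b') : Tb n b' k :=
  ⟨h.1, fun row hrow => ⟨(h.2 row hrow).1, fun x hx => ((h.2 row hrow).2 x hx).trans hb⟩⟩

lemma sz_Tb {n b : ℕ} {k : List (List ℕ)} (h : Tb n b k) :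
    sz k ≤ n * (n * (4 * b + 1 + 1) + 1 + 1) + 1 := by
  have h1 := sz_list_le k (B := n * (4 * b + 1 + 1) + 1) fun row hrow =>
    sz_row (h.2 row hrow).1 (h.2 row hrow).2
  exact h1.trans (by have := h.1; gcongr)

/-- the invariant of the rounds -/
def RI (n N b t : ℕ) (s : St × Hs) : Prop :=
  Tb n (b + t) s.1.1 ∧ s.1.2.1 ≤ N ^ t ∧ s.2.length ≤ t ∧
    ∀ z ∈ s.2, Tb n (b + t) z.1 ∧ Tb n (b + t) z.2

lemma all_round2 (G : List (List Bool)) (e : ℕ) (s : St × Hs) {b t : ℕ}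
    (h : RI G.length (NN G.length e) b t s) :
    All (RI G.length (NN G.length e) b (t + 1)) (round2 G e s) := by
  refine All.bind' _ fun Xs => (all_ratQ _ _ _ _).bind fun r hr => ?_
  rw [All_ret]
  have h1 := tb_nxt G e s.1 Xs h.1
  refine ⟨h1, by rw [pow_succ]; exact Nat.mul_le_mul h.2.1 hr, ?_, fun z hz => ?_⟩
  · have := h.2.2.1
    simp only [List.length_append, List.length_singleton]
    omega
  · rcases List.mem_append.1 hz with hz | hz
    · exact ⟨Tb.mono (h.2.2.2 z hz).1 (by omega), Tb.mono (h.2.2.2 z hz).2 (by omega)⟩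
    · obtain rfl := List.mem_singleton.1 hz
      exact ⟨Tb.mono h.1 (by omega), h1⟩

lemma RI.sz_le {n N b t T : ℕ} {s : St × Hs} (h : RI n N b t s) (ht : t ≤ T) :
    sz s ≤ n * (n * (4 * (b + T) + 1 + 1) + 1 + 1) + 1 + (4 * (N * T + 1) + 1) + 5 +
      (T * (2 * (n * (n * (4 * (b + T) + 1 + 1) + 1 + 1) + 1) + 1 + 1) + 1) + 1 := by
  obtain ⟨s, H⟩ := s
  have h1 := sz_St (b := b + T) (Tb.mono h.1 (by omega)) h.2.1 ht
  have h2 := sz_list_le H (B := 2 * (n * (n * (4 * (b + T) + 1 + 1) + 1 + 1) + 1) + 1)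
    fun z hz => by
      obtain ⟨z1, z2⟩ := z
      have h3 := sz_Tb (b := b + T) (Tb.mono (h.2.2.2 _ hz).1 (by omega))
      have h4 := sz_Tb (b := b + T) (Tb.mono (h.2.2.2 _ hz).2 (by omega))
      simp only [sz_prod] at h3 h4 ⊢
      omega
  have h3 : H.length ≤ T := h.2.2.1.trans ht
  have h4 : sz H ≤ T * (2 * (n * (n * (4 * (b + T) + 1 + 1) + 1 + 1) + 1) + 1 + 1) + 1 :=
    h2.trans (by gcongr)
  simp only [sz_prod] at h1 ⊢
  omega

lemma pp_run2 (hG : PTime G) (he : PTime u) : PP fun a => run2 (G a) (u a).length := by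
  unfold run2
  refine PP.bind (PP.foldP ?_ (PTime.prodMk (pt_s0 ?_ ?_ ?_) ?_) (pp_round2 ?_ ?_ ?_)
    (fun a t s => RI (G a).length (NN (G a).length (u a).length) (TT (G a).length (u a).length) t s)
    (fun a => (G a).length * ((G a).length * (4 * (TT (G a).length (u a).length +
      TT (G a).length (u a).length) + 1 + 1) + 1 + 1) + 1 +
      (4 * (NN (G a).length (u a).length * TT (G a).length (u a).length + 1) + 1) + 5 +
      (TT (G a).length (u a).length * (2 * ((G a).length * ((G a).length *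
        (4 * (TT (G a).length (u a).length + TT (G a).length (u a).length) + 1 + 1) + 1 + 1) + 1)
          + 1 + 1) + 1) + 1) ?_
    (fun a => ⟨tb_tab fun _ _ => le_rfl, le_rfl, le_rfl, fun z hz => absurd hz List.not_mem_nil⟩)
    (fun a t s _ _ hs => all_round2 _ _ s hs) fun a t s ht hs => ?_)
    (PP.bind (pp_ratQ (pp_sampP ?_ ?_ ?_) (pt_cM ?_ ?_ ?_) (pt_aM ?_) ?_ ?_) (PP.ret ?_))
  rotate_left 9
  · rw [List.length_range] at ht
    exact hs.sz_le ht
  all_goals fun_prop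

end Algo2PP

open Algo2PP in
theorem pp_main2 : PP fun a : List (List Bool) × List Unit × List Unit =>
    main2 a.1 a.2.1.length a.2.2.length := by
  unfold main2
  refine PP.ite ?_ (PP.ret ?_) (PP.ite ?_ (PP.ret ?_) (PP.bind (PP.rep ?_ ?_
    (pp_run2 ?_ ?_)) (PP.ret (ptime_median.comp ?_)))) <;> fun_prop

end Vale.Agent.P308
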