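import Vale.Agent.P308.Rec

/-! The annealing of the virtual weights (job Anneal). -/

namespace Vale.Agent.P308

open Finset

variable {V : Type} [Fintype V] [DecidableEq V] {a b b' c c' : V → V → ℝ}

omit [Fintype V] [DecidableEq V] in
lemma Ker.add (ha : Ker a) (hb : Ker b) : Ker (a + b) :=
  ⟨fun u v => by simp [ha.symm u v, hb.symm u v],
    fun u v => add_nonneg (ha.nonneg u v) (hb.nonneg u v)⟩

omit [Fintype V] [DecidableEq V] in
lemma Pos.add (ha : Ker a) (hb : Pos b) : Pos (a + b) :=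
  fun u v h => add_pos_of_nonneg_of_pos (ha.nonneg u v) (hb u v h)

namespace AnnealAux

lemma edge_sum (hc : Ker c) (g : V → V → ℝ) :
    ∑ X ∈ PMon univ, W c X * ∑ v, g v (X v) =
      ∑ u, ∑ v ∈ univ.erase u, c u v * Q c u v * g u v := by
  simp only [mul_sum]
  rw [sum_comm]
  refine sum_congr rfl fun u _ => ?_
  rw [← sum_fiberwise_of_maps_to (t := univ.erase u) (g := fun X : V → V => X u)
    fun X hX => mem_erase.2 ⟨(mem_PM.1 hX u).2, mem_univ _⟩]
  refine sum_congr rfl fun v hv => ?_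
  rw [Q, ← fib hc (mem_univ u) (mem_univ v) (ne_of_mem_erase hv).symm, sum_mul]
  exact sum_congr rfl fun X hX => by rw [(mem_filter.1 hX).2]

omit [DecidableEq V] in
lemma eta_nonneg : 0 ≤ eta V := by unfold eta; positivity

omit [DecidableEq V] in
lemma del_nonneg : 0 ≤ del V := by unfold del; positivity

omit [DecidableEq V] in
lemma card_eta : Fintype.card V * eta V ≤ 1 / 8 := by
  unfold eta
  rcases Nat.eq_zero_or_pos (Fintype.card V) with h | h
  · simp [h]
  · have : (0 : ℝ) < Fintype.card V := by exact_mod_cast h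
    exact le_of_eq (by field_simp)

omit [DecidableEq V] in
lemma card_del : (Fintype.card V : ℝ) ^ 2 * del V ≤ 1 / 10 := by
  unfold del
  rcases Nat.eq_zero_or_pos (Fintype.card V) with h | h
  · simp [h]
  · have : (0 : ℝ) < Fintype.card V := by exact_mod_cast h
    exact le_of_eq (by field_simp)

omit [DecidableEq V] in
lemma eta_le (u : V) : eta V ≤ 1 / 8 := by
  have : (1 : ℝ) ≤ Fintype.card V := by exact_mod_cast Fintype.card_pos_iff.2 ⟨u⟩
  nlinarith [card_eta (V := V), eta_nonneg (V := V)]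

omit [DecidableEq V] in
lemma pow_eta : (1 + eta V) ^ Fintype.card V ≤ 8 / 7 := by
  have h1 : (1 + eta V) ^ Fintype.card V ≤ Real.exp (1 / 8) := by
    refine (pow_le_pow_left₀ (by linarith [eta_nonneg (V := V)])
      (by linarith [Real.add_one_le_exp (eta V)] : 1 + eta V ≤ Real.exp (eta V)) _).trans ?_
    rw [← Real.exp_nat_mul]
    exact Real.exp_le_exp.2 card_eta
  have h2 := Real.add_one_le_exp (-(1 / 8))
  have h3 : Real.exp (1 / 8) * Real.exp (-(1 / 8)) = 1 := by rw [← Real.exp_add]; simp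
  nlinarith [Real.exp_pos (1 / 8)]

lemma sum_le_sq {f : V → V → ℝ} {t : ℝ} (ht : 0 ≤ t) (h : ∀ u v, u ≠ v → f u v ≤ t) :
    ∑ u, ∑ v ∈ univ.erase u, f u v ≤ (Fintype.card V : ℝ) ^ 2 * t := by
  calc ∑ u, ∑ v ∈ univ.erase u, f u v ≤ ∑ _u : V, ∑ _v : V, t :=
        sum_le_sum fun u _ => (sum_le_sum fun v hv => h _ _ (ne_of_mem_erase hv).symm).trans
          (sum_le_sum_of_subset_of_nonneg (subset_univ _) fun _ _ _ => ht)
    _ = _ := by simp [sq, mul_assoc]

lemma Z_pos (ha : Ker a) (hb : Ker b) (hp : Pos b) (he : Even (Fintype.card V)) :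
    0 < H (a + b) univ := H_pos (ha.add hb) (Pos.add ha hp) he

end AnnealAux

open AnnealAux

lemma marg_of_pv (ha : Ker a) (hb : Ker b) (hp : Pos b) (he : Even (Fintype.card V)) {δ : ℝ}
    (h : ∀ u v, u ≠ v → δ ≤ pv a b u v) : Marg (a + b) δ := by
  intro u v huv
  have h1 := h u v huv
  rw [pv, le_div_iff₀ (Z_pos ha hb hp he)] at h1
  refine h1.trans (mul_le_mul_of_nonneg_right ?_ (Q_nonneg _ _ _))
  simp [ha.nonneg u v]

lemma H_up (hc : Ker c) (θ : V → V → ℝ) (hθ : ∀ u v, |θ u v| ≤ eta V)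
    (h : ∀ u v, u ≠ v → c' u v = c u v * (1 + θ u v)) :
    H c' univ ≤ H c univ +
      ∑ u, ∑ v ∈ univ.erase u, c u v * Q c u v * ((θ u v + |θ u v| / 8) / 2) := by
  rw [← edge_sum hc, H, H, ← sum_add_distrib]
  refine sum_le_sum fun X hX => ?_
  have e : W c' X = W c X * ∏ v, √(1 + θ v (X v)) := by
    rw [W_PM _ hX, W_PM _ hX, ← prod_mul_distrib]
    exact prod_congr rfl fun v _ => by
      rw [h _ _ (mem_PM.1 hX v).2.symm, Real.sqrt_mul (hc.nonneg _ _)]
  rw [e, ← mul_one_add]
  refine mul_le_mul_of_nonneg_left ?_ (W_nonneg _ _)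
  have h1 : ∏ v, √(1 + θ v (X v)) ≤ Real.exp (∑ v, θ v (X v) / 2) := by
    rw [Real.exp_sum]
    refine prod_le_prod (fun v _ => Real.sqrt_nonneg _) fun v _ => ?_
    rw [Real.exp_half]
    exact Real.sqrt_le_sqrt (by linarith [Real.add_one_le_exp (θ v (X v))])
  have h2 : |∑ v, θ v (X v) / 2| ≤ ∑ v, |θ v (X v)| / 2 :=
    (abs_sum_le_sum_abs _ _).trans (le_of_eq (sum_congr rfl fun v _ => by
      rw [abs_div, abs_two]))
  have h3 : ∑ v, |θ v (X v)| / 2 ≤ 1 / 16 := by
    have := sum_le_card_nsmul univ (fun v => |θ v (X v)| / 2) (eta V / 2)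
      fun v _ => by linarith [hθ v (X v)]
    rw [card_univ, nsmul_eq_mul] at this
    linarith [card_eta (V := V)]
  have h4 := Real.abs_exp_sub_one_sub_id_le (x := ∑ v, θ v (X v) / 2) (by linarith)
  have h5 : ∑ v, (θ v (X v) + |θ v (X v)| / 8) / 2 =
      ∑ v, θ v (X v) / 2 + (∑ v, |θ v (X v)| / 2) / 8 := by
    rw [sum_div, ← sum_add_distrib]
    exact sum_congr rfl fun v _ => by ring
  rw [h5]
  rw [← sq_abs] at h4
  nlinarith [(abs_le.1 h4).2, abs_nonneg (∑ v, θ v (X v) / 2)]

namespace AnnealAux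

lemma pert (ha : Ker a) (hb : Ker b) (hp : Pos b) (he : Even (Fintype.card V))
    (A : V → V → Prop) [DecidableRel A] {t : ℝ} (ht : |t| ≤ eta V)
    (hb' : ∀ u v, u ≠ v → b' u v = if A u v then (1 + t) * b u v else b u v) :
    H (a + b') univ ≤ H (a + b) univ * (1 + (t + |t| / 8) / 2 *
      ∑ u, ∑ v ∈ univ.erase u, if A u v then pv a b u v else 0) := by
  have hZ := Z_pos ha hb hp he
  have hc : ∀ u v, u ≠ v → 0 < a u v + b u v := Pos.add ha hp
  have := H_up (c' := a + b') (ha.add hb)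
    (fun u v => if A u v then t * (b u v / (a u v + b u v)) else 0) (fun u v => ?_) fun u v h => ?_
  · refine this.trans (le_of_eq ?_)
    rw [mul_add, mul_one, mul_sum, mul_sum]
    congr 1
    refine sum_congr rfl fun u _ => ?_
    rw [mul_sum, mul_sum]
    refine sum_congr rfl fun v hv => ?_
    have h1 := hc _ _ (ne_of_mem_erase hv).symm
    split_ifs
    · rw [abs_mul, abs_of_nonneg (div_nonneg (hb.nonneg u v) h1.le), pv, Pi.add_apply,
        Pi.add_apply]
      field_simp
    · simp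
  · split_ifs
    · rw [abs_mul, abs_of_nonneg (div_nonneg (hb.nonneg u v)
        (add_nonneg (ha.nonneg u v) (hb.nonneg u v)))]
      refine le_trans (mul_le_of_le_one_right (abs_nonneg _) ?_) ht
      exact div_le_one_of_le₀ (by linarith [ha.nonneg u v]) ((ha.add hb).nonneg u v)
    · simpa using eta_nonneg
  · have h1 := hc _ _ h
    simp only [Pi.add_apply, hb' u v h]
    split_ifs
    · field_simp
      ring
    · simp

lemma log_pert (hp : Pos b) (A : V → V → Prop) [DecidableRel A] {t : ℝ} (ht : 0 < 1 + t)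
    (hb' : ∀ u v, u ≠ v → b' u v = if A u v then (1 + t) * b u v else b u v) :
    ∑ u, ∑ v ∈ univ.erase u, Real.log (b' u v) = ∑ u, ∑ v ∈ univ.erase u, Real.log (b u v) +
      Real.log (1 + t) * ∑ u, ∑ v ∈ univ.erase u, if A u v then (1 : ℝ) else 0 := by
  rw [mul_sum, ← sum_add_distrib]
  refine sum_congr rfl fun u _ => ?_
  rw [mul_sum, ← sum_add_distrib]
  refine sum_congr rfl fun v hv => ?_
  have h := (ne_of_mem_erase hv).symm
  rw [hb' u v h]
  split_ifs
  · rw [Real.log_mul ht.ne' (hp u v h).ne']; ring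
  · simp

lemma one_le_count (A : V → V → Prop) [DecidableRel A] (hne : ∃ u v, u ≠ v ∧ A u v) :
    1 ≤ ∑ u, ∑ v ∈ univ.erase u, if A u v then (1 : ℝ) else 0 := by
  obtain ⟨u, v, h, hA⟩ := hne
  refine le_trans ?_ (single_le_sum (f := fun u => ∑ v ∈ univ.erase u, if A u v then (1 : ℝ) else 0)
    (fun u _ => sum_nonneg fun v _ => by split_ifs <;> norm_num) (mem_univ u))
  refine le_trans ?_ (single_le_sum (f := fun v => if A u v then (1 : ℝ) else 0)
    (fun v _ => by split_ifs <;> norm_num) (mem_erase.2 ⟨h.symm, mem_univ v⟩))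
  simp [hA]

lemma log_sub_le {x y s : ℝ} (hx : 0 < x) (hy : 0 < y) (h : y ≤ x * (1 + s)) :
    Real.log y ≤ Real.log x + s := by
  have h1 := Real.log_le_sub_one_of_pos (div_pos hy hx)
  rw [Real.log_div hy.ne' hx.ne'] at h1
  have : y / x ≤ 1 + s := by rw [div_le_iff₀ hx]; linarith
  linarith

end AnnealAux

theorem raise (ha : Ker a) (hb : Ker b) (hp : Pos b) (he : Even (Fintype.card V))
    (A : V → V → Prop) [DecidableRel A] (hA : ∀ u v, A u v → A v u) (hne : ∃ u v, u ≠ v ∧ A u v)
    (hb' : ∀ u v, u ≠ v → b' u v = if A u v then (1 + eta V) * b u v else b u v)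
    (h0 : ∀ u v, u ≠ v → del V / 2 ≤ pv a b u v)
    (h1 : ∀ u v, u ≠ v → A u v → pv a b u v ≤ 11 / 10 * del V)
    (h2 : ∀ u v, u ≠ v → ¬ A u v → 9 / 10 * del V ≤ pv a b u v) :
    (∀ u v, u ≠ v → del V / 2 ≤ pv a b' u v) ∧ Phi a b' ≤ Phi a b - eta V * del V / 4 := by
  have hZ := Z_pos ha hb hp he
  have e0 := eta_nonneg (V := V)
  have d0 := del_nonneg (V := V)
  have e1 : eta V ≤ 1 / 8 := eta_le hne.choose
  have hle : ∀ S, H (a + b) S ≤ H (a + b') S := fun S => by
    simpa using H_le_of_le (c := a + b) (c' := a + b') le_rfl (fun u v h => by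
      simp only [Pi.add_apply, hb' u v h]
      split_ifs <;> nlinarith [hb.nonneg u v]) S
  have hZ' := hZ.trans_le (hle univ)
  have h3 := pert ha hb hp he A (t := eta V) (abs_of_nonneg e0).le hb'
  have h4 := log_pert hp A (t := eta V) (by linarith) hb'
  have h5 := one_le_count A hne
  have h6 : (∑ u, ∑ v ∈ univ.erase u, if A u v then pv a b u v else 0) ≤
      11 / 10 * del V * ∑ u, ∑ v ∈ univ.erase u, if A u v then (1 : ℝ) else 0 := by
    rw [mul_sum]
    refine sum_le_sum fun u _ => ?_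
    rw [mul_sum]
    refine sum_le_sum fun v hv => ?_
    split_ifs with hA
    · simpa using h1 u v (ne_of_mem_erase hv).symm hA
    · simp
  have h7 : (∑ u, ∑ v ∈ univ.erase u, if A u v then (1 : ℝ) else 0) ≤
      (Fintype.card V : ℝ) ^ 2 * 1 := sum_le_sq zero_le_one fun u v _ => by split_ifs <;> norm_num
  rw [abs_of_nonneg e0] at h3
  generalize (∑ u, ∑ v ∈ univ.erase u, if A u v then pv a b u v else 0) = P at h3 h6
  generalize (∑ u, ∑ v ∈ univ.erase u, if A u v then (1 : ℝ) else 0) = N at h4 h5 h6 h7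
  have h8 : del V * N ≤ 1 / 10 := by nlinarith [card_del (V := V)]
  have h9 : H (a + b') univ ≤ H (a + b) univ * (1 + eta V) :=
    h3.trans (mul_le_mul_of_nonneg_left (by nlinarith) hZ.le)
  refine ⟨fun u v h => ?_, ?_⟩
  · have q1 : Q (a + b) u v ≤ Q (a + b') u v := hle _
    have q0 := Q_nonneg (a + b) u v
    have hb0 := hb.nonneg u v
    have q2 := mul_le_mul_of_nonneg_left q1 hb0
    have q3 := mul_le_mul_of_nonneg_left h9 d0
    rw [pv, le_div_iff₀ hZ', hb' u v h]
    split_ifs with hA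
    · have := h0 u v h
      rw [pv, le_div_iff₀ hZ] at this
      nlinarith [mul_le_mul_of_nonneg_left (this.trans q2) (by linarith : 0 ≤ 1 + eta V)]
    · have := h2 u v h hA
      rw [pv, le_div_iff₀ hZ] at this
      nlinarith [mul_nonneg d0 hZ.le]
  · have l1 := log_sub_le hZ hZ' h3
    have l2 : 8 / 9 * eta V ≤ Real.log (1 + eta V) := by
      refine le_trans ?_ (Real.one_sub_inv_le_log_of_pos (by linarith))
      rw [le_sub_comm, inv_le_comm₀ (by linarith) (by linarith), inv_eq_one_div,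
        div_le_iff₀ (by linarith)]
      nlinarith
    rw [Phi, Phi, h4]
    have l3 := mul_le_mul_of_nonneg_left h6 e0
    have l4 := mul_le_mul_of_nonneg_left l2 (mul_nonneg d0 (by linarith : 0 ≤ N))
    have l5 := mul_le_mul_of_nonneg_left h5 (mul_nonneg e0 d0)
    nlinarith

theorem lower (ha : Ker a) (hb : Ker b) (hp : Pos b) (he : Even (Fintype.card V))
    (A : V → V → Prop) [DecidableRel A] (hA : ∀ u v, A u v → A v u) (hne : ∃ u v, u ≠ v ∧ A u v)
    (hb' : ∀ u v, u ≠ v → b' u v = if A u v then b u v / (1 + eta V) else b u v)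
    (h1 : ∀ u v, u ≠ v → A u v → 39 / 10 * del V ≤ pv a b u v)
    (h2 : ∀ u v, u ≠ v → 9 / 10 * del V ≤ pv a b u v) :
    (∀ u v, u ≠ v → del V / 2 ≤ pv a b' u v) ∧ Phi a b' ≤ Phi a b - eta V * del V / 4 := by
  have hZ := Z_pos ha hb hp he
  have e0 := eta_nonneg (V := V)
  have d0 := del_nonneg (V := V)
  have e1 : eta V ≤ 1 / 8 := eta_le hne.choose
  obtain ⟨t, ht⟩ : ∃ t : ℝ, 1 + t = (1 + eta V)⁻¹ := ⟨(1 + eta V)⁻¹ - 1, by ring⟩
  have t0 : (1 + t) * (1 + eta V) = 1 := by rw [ht, inv_mul_cancel₀ (by linarith)]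
  have t1 : 0 < 1 + t := by rw [ht]; positivity
  have t2 : t ≤ -(8 / 9 * eta V) := by nlinarith
  have t3 : -eta V ≤ t := by nlinarith
  have t4 : |t| = -t := abs_of_nonpos (by linarith)
  replace hb' : ∀ u v, u ≠ v → b' u v = if A u v then (1 + t) * b u v else b u v := fun u v h => by
    rw [hb' u v h, ht, div_eq_inv_mul]
  have hle : ∀ S, H (a + b') S ≤ H (a + b) S := fun S => by
    simpa using H_le_of_le (c := a + b') (c' := a + b) le_rfl (fun u v h => by
      simp only [Pi.add_apply, hb' u v h]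
      split_ifs <;> nlinarith [hb.nonneg u v]) S
  have hge : ∀ S, H (a + b) S ≤ 8 / 7 * H (a + b') S := fun S =>
    (H_le_of_le (c := a + b) (c' := a + b') (lam := 1 + eta V) (by linarith) (fun u v h => by
      simp only [Pi.add_apply, hb' u v h]
      have := mul_nonneg e0 (ha.nonneg u v)
      have := mul_nonneg e0 (hb.nonneg u v)
      split_ifs
      · have : (1 + eta V) * ((1 + t) * b u v) = b u v := by
          rw [← mul_assoc, mul_comm (1 + eta V), t0, one_mul]
        linarith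
      · linarith) S).trans (mul_le_mul_of_nonneg_right pow_eta (H_nonneg _ _))
  have hZ' : 0 < H (a + b') univ := by linarith [hge univ]
  have h3 := pert ha hb hp he A (t := t) (by linarith) hb'
  have h4 := log_pert hp A t1 hb'
  have h5 := one_le_count A hne
  have h6 : 39 / 10 * del V * (∑ u, ∑ v ∈ univ.erase u, if A u v then (1 : ℝ) else 0) ≤
      ∑ u, ∑ v ∈ univ.erase u, if A u v then pv a b u v else 0 := by
    rw [mul_sum]
    refine sum_le_sum fun u _ => ?_
    rw [mul_sum]
    refine sum_le_sum fun v hv => ?_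
    split_ifs with hA
    · simpa using h1 u v (ne_of_mem_erase hv).symm hA
    · simp
  rw [t4] at h3
  generalize (∑ u, ∑ v ∈ univ.erase u, if A u v then pv a b u v else 0) = P at h3 h6
  generalize (∑ u, ∑ v ∈ univ.erase u, if A u v then (1 : ℝ) else 0) = N at h4 h5 h6
  refine ⟨fun u v h => ?_, ?_⟩
  · have q1 : Q (a + b) u v ≤ 8 / 7 * Q (a + b') u v := hge _
    have q0 := Q_nonneg (a + b') u v
    have hb0 := hb.nonneg u v
    have q2 := mul_le_mul_of_nonneg_left q1 hb0
    have q3 := mul_le_mul_of_nonneg_left (hle univ) d0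
    have q4 := h2 u v h
    have q5 := mul_nonneg hb0 q0
    rw [pv, le_div_iff₀ hZ] at q4
    rw [pv, le_div_iff₀ hZ', hb' u v h]
    split_ifs with hA
    · nlinarith [mul_le_mul_of_nonneg_right (by linarith : 7 / 8 ≤ 1 + t) q5, mul_nonneg d0 hZ.le]
    · nlinarith [mul_nonneg d0 hZ.le]
  · have l1 := log_sub_le hZ hZ' h3
    have l2 : -eta V ≤ Real.log (1 + t) := by
      rw [ht, Real.log_inv]
      linarith [Real.log_le_sub_one_of_pos (by linarith : 0 < 1 + eta V)]
    rw [Phi, Phi, h4]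
    have l0 : 0 ≤ del V * N := mul_nonneg d0 (by linarith)
    have l3 := mul_le_mul_of_nonneg_left h6 e0
    have l4 := mul_le_mul_of_nonneg_left l2 l0
    have l5 := mul_le_mul_of_nonneg_left h5 (mul_nonneg e0 d0)
    have l6 := mul_le_mul_of_nonneg_right t2 (by linarith : 0 ≤ P)
    nlinarith

namespace AnnealAux

lemma term_le (hc : Ker c) {S : Finset V} {u w : V} (hu : u ∈ S) (hw : w ∈ S) (h : u ≠ w) :
    c u w * H c ((S.erase u).erase w) ≤ H c S := by
  rw [H_rec hc hu]
  exact single_le_sum (f := fun w => c u w * H c ((S.erase u).erase w))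
    (fun w _ => mul_nonneg (hc.nonneg _ _) (H_nonneg _ _)) (mem_erase.2 ⟨h.symm, hw⟩)

lemma one_le_H {M : V → V} (hM : M ∈ PMon (univ : Finset V)) (h1 : ∀ u, 1 ≤ c u (M u))
    {S : Finset V} (hS : ∀ v ∈ S, M v ∈ S) : 1 ≤ H c S := by
  rw [mem_PM] at hM
  have hX : (fun v => if v ∈ S then M v else v) ∈ PMon S := mem_PMon.2 fun v => by
    by_cases hv : v ∈ S
    · simp [hv, hS v hv, hM v]
    · simp [hv]
  refine le_trans ?_ (single_le_sum (fun X _ => W_nonneg c X) hX)
  refine (prod_const_one (s := univ)).ge.trans (prod_le_prod (fun _ _ => zero_le_one) fun v _ => ?_)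
  by_cases hv : v ∈ S
  · simp [hv, (hM v).2, h1 v]
  · simp [hv]

omit [Fintype V] in
lemma one_sub_sum_le (s : Finset V) {y : V → ℝ} (h0 : ∀ v, 0 ≤ y v) (h1 : ∀ v, y v ≤ 1) :
    1 - ∑ v ∈ s, y v ≤ ∏ v ∈ s, (1 - y v) := by
  induction s using Finset.induction_on with
  | empty => simp
  | insert v s hv ih =>
    rw [sum_insert hv, prod_insert hv]
    nlinarith [mul_le_mul_of_nonneg_left ih (sub_nonneg.2 (h1 v)),
      mul_nonneg (h0 v) (sum_nonneg fun w (_ : w ∈ s) => h0 w)]

end AnnealAux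

theorem Phi_nonneg (ha : Ker a) (hb : Ker b) (hp : Pos b) {M : V → V}
    (hM : M ∈ PMon (univ : Finset V)) (h1 : ∀ u v, u ≠ v → M u = v → 1 ≤ a u v) :
    0 ≤ Phi a b := by
  have hc := ha.add hb
  have hM' := mem_PM.1 hM
  have hi : Function.Involutive M := fun v => (hM' v).1
  have h2 : ∀ u, 1 ≤ (a + b) u (M u) := fun u => by
    have := h1 u _ (hM' u).2.symm rfl
    have := hb.nonneg u (M u)
    simp only [Pi.add_apply]
    linarith
  have hbc : ∀ u v, b u v ≤ (a + b) u v := fun u v => by simp [ha.nonneg u v]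
  have hZ : 1 ≤ H (a + b) univ := one_le_H hM h2 fun _ _ => mem_univ _
  have key : ∀ u v, u ≠ v → b u v * b (M u) (M v) ≤ H (a + b) univ ^ 2 := by
    intro u v h
    have t1 := term_le hc (mem_univ u) (mem_univ v) h
    by_cases hv : M u = v
    · have hu : M v = u := by rw [← hv, hi]
      have t2 : 1 ≤ H (a + b) ((univ.erase u).erase v) := one_le_H hM h2 fun w hw => by
        simp only [mem_erase, mem_univ, and_true] at hw ⊢
        exact ⟨fun e => hw.2 (by rw [← hi w, e, hu]), fun e => hw.1 (by rw [← hi w, e, hv])⟩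
      have t3 : b u v ≤ H (a + b) univ := by nlinarith [hbc u v, hc.nonneg u v]
      rw [hv, hu, hb.symm v u, ← sq]
      exact pow_le_pow_left₀ (hb.nonneg _ _) t3 2
    · have hu : M v ≠ u := fun e => hv (by rw [← e, hi])
      have t2 := term_le hc (S := (univ.erase u).erase v) (u := M u) (w := M v)
        (by simp [hv, (hM' u).2]) (by simp [hu, (hM' v).2]) (hi.injective.ne h)
      have t3 : 1 ≤ H (a + b) ((((univ.erase u).erase v).erase (M u)).erase (M v)) :=
        one_le_H hM h2 fun w hw => by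
          simp only [mem_erase, mem_univ, and_true] at hw ⊢
          exact ⟨hi.injective.ne hw.2.2.1, hi.injective.ne hw.2.2.2,
            fun e => hw.1 (by rw [← e, hi]), fun e => hw.2.1 (by rw [← e, hi])⟩
      have t4 : b (M u) (M v) ≤ H (a + b) ((univ.erase u).erase v) := by
        nlinarith [hbc (M u) (M v), hc.nonneg (M u) (M v)]
      have t5 := mul_le_mul (hbc u v) t4 (hb.nonneg _ _) (hc.nonneg _ _)
      nlinarith
  have e : ∑ u, ∑ v ∈ univ.erase u, Real.log (b (M u) (M v)) =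
      ∑ u, ∑ v ∈ univ.erase u, Real.log (b u v) := by
    rw [← Equiv.sum_comp hi.toPerm (fun u => ∑ v ∈ univ.erase u, Real.log (b u v))]
    refine sum_congr rfl fun u _ => ?_
    exact sum_equiv hi.toPerm (fun v => by simp [hi.injective.ne_iff]) fun v _ => rfl
  have l0 := Real.log_nonneg hZ
  have l1 := sum_le_sq (f := fun u v => Real.log (b u v) + Real.log (b (M u) (M v)))
    (t := 2 * Real.log (H (a + b) univ)) (by linarith) fun u v h => by
      have p1 := hp u v h
      have p2 := hp _ _ (hi.injective.ne h)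
      rw [← Real.log_mul p1.ne' p2.ne']
      simpa using Real.log_le_log (mul_pos p1 p2) (key u v h)
  simp only [sum_add_distrib, e] at l1
  rw [Phi]
  nlinarith [mul_le_mul_of_nonneg_left l1 (del_nonneg (V := V)),
    mul_le_mul_of_nonneg_right (card_del (V := V)) l0]

theorem H_half (ha : Ker a) (hb : Ker b) (hp : Pos b) (he : Even (Fintype.card V))
    (h : ∀ u v, u ≠ v → pv a b u v ≤ 41 / 10 * del V) : H (a + b) univ ≤ 2 * H a univ := by
  have hc := ha.add hb
  have hZ := Z_pos ha hb hp he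
  have h1 : H (a + b) univ - ∑ u, ∑ v ∈ univ.erase u, (a + b) u v * Q (a + b) u v *
      (b u v / (a + b) u v) ≤ H a univ := by
    rw [← edge_sum hc, H, H, ← sum_sub_distrib]
    refine sum_le_sum fun X hX => ?_
    have y0 : ∀ v, 0 ≤ b v (X v) / (a + b) v (X v) := fun v =>
      div_nonneg (hb.nonneg _ _) (hc.nonneg _ _)
    have y1 : ∀ v, b v (X v) / (a + b) v (X v) ≤ 1 := fun v =>
      div_le_one_of_le₀ (by simp [ha.nonneg]) (hc.nonneg _ _)
    rw [← mul_one_sub]
    refine (mul_le_mul_of_nonneg_left (one_sub_sum_le univ y0 y1) (W_nonneg _ _)).trans ?_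
    rw [W_PM _ hX, W_PM _ hX, ← prod_mul_distrib]
    refine prod_le_prod (fun v _ => mul_nonneg (Real.sqrt_nonneg _) (sub_nonneg.2 (y1 v)))
      fun v _ => ?_
    have p := Pos.add ha hp _ _ (mem_PM.1 hX v).2.symm
    have e : a v (X v) = (a + b) v (X v) * (1 - b v (X v) / (a + b) v (X v)) := by
      field_simp
      simp
    rw [e, Real.sqrt_mul p.le]
    refine mul_le_mul_of_nonneg_left (Real.le_sqrt_of_sq_le ?_) (Real.sqrt_nonneg _)
    nlinarith [y0 v, y1 v]
  have h2 := sum_le_sq (f := fun u v => (a + b) u v * Q (a + b) u v * (b u v / (a + b) u v))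
    (t := 41 / 10 * del V * H (a + b) univ) (by have := del_nonneg (V := V); positivity)
    fun u v huv => by
      have p := Pos.add ha hp _ _ huv
      have := h u v huv
      rw [pv, div_le_iff₀ hZ] at this
      refine le_trans (le_of_eq ?_) this
      field_simp
  nlinarith [mul_le_mul_of_nonneg_right (card_del (V := V)) hZ.le]

theorem pv_init (ha : Ker a) (ha1 : ∀ u v, a u v ≤ 1) (he : Even (Fintype.card V)) {B : ℝ}
    (hB : 1 ≤ B) (hb : ∀ u v, b u v = B) (u v : V) (h : u ≠ v) : del V / 2 ≤ pv a b u v := by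
  have kb : Ker b := ⟨fun u v => by rw [hb, hb], fun u v => by rw [hb]; linarith⟩
  have pb : Pos b := fun u v _ => by rw [hb]; linarith
  have hc := ha.add kb
  have hZ := Z_pos ha kb pb he
  have c1 : ∀ u v, B ≤ (a + b) u v := fun u v => by simp [hb, ha.nonneg u v]
  have c2 : ∀ u v, (a + b) u v ≤ 2 * B := fun u v => by
    simp only [Pi.add_apply, hb]; linarith [ha1 u v]
  have q0 := Q_nonneg (a + b) u v
  have h1 : ∀ w, w ≠ u → Q (a + b) u w ≤ 2 * Q (a + b) u v := by
    intro w hw
    by_cases hwv : w = v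
    · rw [hwv]; linarith
    rw [Q, Q, H_rec hc (S := (univ.erase u).erase w) (u := v) (by simp [h.symm, Ne.symm hwv]),
      H_rec hc (S := (univ.erase u).erase v) (u := w) (by simp [hw, hwv]),
      erase_right_comm (a := w), mul_sum]
    refine sum_le_sum fun z _ => ?_
    rw [← mul_assoc]
    exact mul_le_mul_of_nonneg_right (by linarith [c1 w z, c2 v z]) (H_nonneg _ _)
  have h2 : H (a + b) univ ≤ Fintype.card V * (2 * B * (2 * Q (a + b) u v)) := by
    rw [H_rec hc (mem_univ u)]
    refine (sum_le_card_nsmul _ _ (2 * B * (2 * Q (a + b) u v)) fun w hw => ?_).trans ?_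
    · exact mul_le_mul (c2 _ _) (h1 w (ne_of_mem_erase hw)) (H_nonneg _ _) (by linarith)
    · rw [nsmul_eq_mul]
      exact mul_le_mul_of_nonneg_right (by exact_mod_cast card_le_univ _) (by positivity)
  have n1 : (1 : ℝ) ≤ Fintype.card V := by exact_mod_cast Fintype.card_pos_iff.2 ⟨u⟩
  have h3 : Fintype.card V * del V ≤ 1 / 10 := by
    nlinarith [card_del (V := V), mul_nonneg (by linarith : (0 : ℝ) ≤ Fintype.card V)
      (del_nonneg (V := V))]
  rw [pv, le_div_iff₀ hZ, hb]
  have p : 0 ≤ B * Q (a + b) u v := by positivity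
  nlinarith [mul_le_mul_of_nonneg_left h2 (del_nonneg (V := V)), mul_le_mul_of_nonneg_right h3 p]

theorem Phi_init (ha : Ker a) (ha1 : ∀ u v, a u v ≤ 1) (he : Even (Fintype.card V)) {B : ℝ}
    (hB : 1 ≤ B) (hb : ∀ u v, b u v = B) :
    Phi a b ≤ Fintype.card V * (Fintype.card V + B) := by
  have kb : Ker b := ⟨fun u v => by rw [hb, hb], fun u v => by rw [hb]; linarith⟩
  have pb : Pos b := fun u v _ => by rw [hb]; linarith
  have hZ := Z_pos ha kb pb he
  have h1 : 0 ≤ del V * ∑ u, ∑ v ∈ univ.erase u, Real.log (b u v) :=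
    mul_nonneg del_nonneg (sum_nonneg fun u _ => sum_nonneg fun v _ =>
      Real.log_nonneg (by rw [hb]; exact hB))
  have h2 : ∀ X : V → V, W (a + b) X ≤ Real.exp B ^ Fintype.card V := fun X => by
    rw [W, ← card_univ, ← prod_const]
    have := Real.add_one_le_exp B
    refine prod_le_prod (fun v _ => by split_ifs <;> positivity) fun v _ => ?_
    split_ifs
    · linarith
    · refine Real.sqrt_le_iff.2 ⟨by linarith, ?_⟩
      simp only [Pi.add_apply, hb]
      nlinarith [ha1 v (X v)]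
  have h3 : ((PMon (univ : Finset V)).card : ℝ) ≤
      Real.exp (Fintype.card V) ^ Fintype.card V := by
    have : (PMon (univ : Finset V)).card ≤ Fintype.card V ^ Fintype.card V := by
      simpa using card_le_univ (PMon (univ : Finset V))
    refine le_trans (by exact_mod_cast this) (pow_le_pow_left₀ (Nat.cast_nonneg _) ?_ _)
    linarith [Real.add_one_le_exp (Fintype.card V : ℝ)]
  have h4 : H (a + b) univ ≤ Real.exp (Fintype.card V * (Fintype.card V + B)) := by
    rw [Real.exp_nat_mul, Real.exp_add, mul_pow]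
    refine (sum_le_card_nsmul (PMon univ) (W (a + b)) _ fun X _ => h2 X).trans ?_
    rw [nsmul_eq_mul]
    exact mul_le_mul_of_nonneg_right h3 (by positivity)
  have := (Real.log_le_iff_le_exp hZ).2 h4
  rw [Phi]
  linarith

end Vale.Agent.P308
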