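import Vale.Agent.P308.Mark

/-! The Poincare inequality is used twice (job AnoA). -/

namespace Vale.Agent.P308.Pt

open Finset Function

variable {Ω Θ : Type} [Fintype Ω] [Fintype Θ] {π : Ω → ℝ} {mv : Θ → Ω × Ω → Ω × Ω}

namespace AnoA

/-- the collision form of a function of two particles -/
noncomputable def EE (π : Ω → ℝ) (mv : Θ → Ω × Ω → Ω × Ω) (u : Ω × Ω → ℝ) : ℝ :=
  ∑ θ, ∑ z : Ω × Ω, π z.1 * π z.2 * al π mv θ z * (u z - u (mv θ z)) ^ 2

omit [Fintype Θ] in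
lemma wt_nonneg (hs : Sys π mv) (θ : Θ) (z : Ω × Ω) : 0 ≤ π z.1 * π z.2 * al π mv θ z :=
  mul_nonneg (mul_nonneg (hs.pos _).le (hs.pos _).le) (al_nonneg hs θ z)

lemma EE_le (hs : Sys π mv) (u : Ω × Ω → ℝ) :
    EE π mv u ≤ 4 * Fintype.card Θ * ∑ z : Ω × Ω, π z.1 * π z.2 * u z ^ 2 := by
  have key : ∀ θ, ∑ z : Ω × Ω, π z.1 * π z.2 * al π mv θ z * (u z - u (mv θ z)) ^ 2 ≤
      4 * ∑ z : Ω × Ω, π z.1 * π z.2 * u z ^ 2 := by
    intro θ
    have e : ∑ z : Ω × Ω, π (mv θ z).1 * π (mv θ z).2 * u (mv θ z) ^ 2 =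
        ∑ z : Ω × Ω, π z.1 * π z.2 * u z ^ 2 :=
      Equiv.sum_comp (Involutive.toPerm (mv θ) (hs.inv θ))
        fun z : Ω × Ω => π z.1 * π z.2 * u z ^ 2
    calc ∑ z : Ω × Ω, π z.1 * π z.2 * al π mv θ z * (u z - u (mv θ z)) ^ 2
        ≤ ∑ z : Ω × Ω, (2 * (π z.1 * π z.2 * u z ^ 2) +
            2 * (π (mv θ z).1 * π (mv θ z).2 * u (mv θ z) ^ 2)) := by
          refine sum_le_sum fun z _ => ?_
          have h0 := wt_nonneg hs θ z
          have h1 : π z.1 * π z.2 * al π mv θ z ≤ π z.1 * π z.2 := by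
            rw [al_min hs]; exact min_le_left _ _
          have h2 : π z.1 * π z.2 * al π mv θ z ≤ π (mv θ z).1 * π (mv θ z).2 := by
            rw [al_min hs]; exact min_le_right _ _
          have h3 := mul_le_mul_of_nonneg_right h1 (sq_nonneg (u z))
          have h4 := mul_le_mul_of_nonneg_right h2 (sq_nonneg (u (mv θ z)))
          have h5 := mul_nonneg h0 (sq_nonneg (u z + u (mv θ z)))
          linarith
      _ = _ := by rw [sum_add_distrib, ← mul_sum, ← mul_sum, e]; ring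
  refine (sum_le_sum fun θ _ => key θ).trans (le_of_eq ?_)
  rw [sum_const, card_univ, nsmul_eq_mul]; ring

lemma EE_two (hs : Sys π mv) {u v w : Ω × Ω → ℝ} {c : ℝ} (h : ∀ z, u z = v z - w z + c) :
    EE π mv u ≤ 2 * EE π mv v + 2 * EE π mv w := by
  simp only [EE, mul_sum, ← sum_add_distrib]
  refine sum_le_sum fun θ _ => sum_le_sum fun z _ => ?_
  have := mul_nonneg (wt_nonneg hs θ z) (sq_nonneg ((v z - v (mv θ z)) + (w z - w (mv θ z))))
  rw [h, h]
  linarith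

lemma EE_three (hs : Sys π mv) {u v w t : Ω × Ω → ℝ} {c : ℝ}
    (h : ∀ z, u z = v z - w z - t z + c) :
    EE π mv u ≤ 3 * EE π mv v + 3 * EE π mv w + 3 * EE π mv t := by
  simp only [EE, mul_sum, ← sum_add_distrib]
  refine sum_le_sum fun θ _ => sum_le_sum fun z _ => ?_
  have h1 := mul_nonneg (wt_nonneg hs θ z) (sq_nonneg ((v z - v (mv θ z)) + (w z - w (mv θ z))))
  have h2 := mul_nonneg (wt_nonneg hs θ z) (sq_nonneg ((v z - v (mv θ z)) + (t z - t (mv θ z))))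
  have h3 := mul_nonneg (wt_nonneg hs θ z) (sq_nonneg ((w z - w (mv θ z)) - (t z - t (mv θ z))))
  rw [h, h]
  linarith

omit [Fintype Θ] in
lemma jensen (hs : Sys π mv) (x : Ω → ℝ) : (∑ d, π d * x d) ^ 2 ≤ ∑ d, π d * x d ^ 2 := by
  have h : 0 ≤ ∑ d, π d * (x d - ∑ e, π e * x e) ^ 2 :=
    sum_nonneg fun d _ => mul_nonneg (hs.pos d).le (sq_nonneg _)
  generalize hm : ∑ e, π e * x e = m at h ⊢
  have e : ∑ d, π d * (x d - m) ^ 2 =
      ∑ d, π d * x d ^ 2 - 2 * m * ∑ d, π d * x d + m ^ 2 * ∑ d, π d := by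
    rw [mul_sum, mul_sum, ← sum_sub_distrib, ← sum_add_distrib]
    exact sum_congr rfl fun d _ => by ring
  rw [e, hm, hs.sum] at h
  linarith

lemma D2_le (hs : Sys π mv) (s : Ω → Ω → Ω → ℝ) :
    EE π mv (fun z => m2 π s z.1 z.2) ≤ D3 π mv s := by
  unfold D3 EE
  simp only [mul_sum]
  rw [sum_comm (s := (univ : Finset Ω))]
  refine sum_le_sum fun θ _ => ?_
  rw [sum_comm (s := (univ : Finset Ω))]
  refine sum_le_sum fun z _ => ?_
  have h := mul_le_mul_of_nonneg_left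
    (jensen hs fun d => s z.1 z.2 d - s (mv θ z).1 (mv θ z).2 d) (wt_nonneg hs θ z)
  simp only [mul_sub, sum_sub_distrib] at h
  refine h.trans (le_of_eq ?_)
  rw [mul_sum]
  exact sum_congr rfl fun d _ => by ring

lemma pi_EE {C : ℝ} (hP : PIab π mv C) (f : Ω → ℝ) :
    ∑ a, π a * f a ^ 2 - (∑ a, π a * f a) ^ 2 ≤ C * EE π mv fun z => f z.1 + f z.2 := by
  refine (hP f).trans (le_of_eq ?_)
  unfold EE
  simp only [sub_sub]

end AnoA

open AnoA in
theorem var_one (hs : Sys π mv) {C : ℝ} (hC : 0 ≤ C) (hP : PIab π mv C) {s : Ω → Ω → Ω → ℝ}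
    (h : Sym3 s) : ∑ a, π a * (m1 π s a - m0 π s) ^ 2 ≤ 2 * C * D3 π mv s +
      8 * C * Fintype.card Θ * (6 * C * D3 π mv s + 12 * C * Fintype.card Θ * n3 π (f3 π s)) := by
  set f2 : Ω → Ω → ℝ := fun a b => m2 π s a b - m1 π s a - m1 π s b + m0 π s with hf2
  have hT : (0 : ℝ) ≤ Fintype.card Θ := Nat.cast_nonneg _
  have hD := D2_le hs s
  have z0 : ∑ a, π a * (m1 π s a - m0 π s) = 0 := by
    simp only [mul_sub, sum_sub_distrib, ← sum_mul, hs.sum, one_mul]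
    exact sub_self _
  have z2 : ∀ d, ∑ a, π a * f2 a d = 0 := by
    intro d
    have e : ∑ a, π a * m2 π s a d = m1 π s d :=
      sum_congr rfl fun a _ => by simp only [m2, h.s12 a d]
    simp only [hf2, mul_sub, mul_add, sum_sub_distrib, sum_add_distrib, ← sum_mul, hs.sum,
      one_mul, e]
    unfold m0
    ring
  have a1 := pi_EE hP fun a => m1 π s a - m0 π s
  rw [z0] at a1
  have a2 : EE π mv (fun z => (m1 π s z.1 - m0 π s) + (m1 π s z.2 - m0 π s)) ≤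
      2 * EE π mv (fun z => m2 π s z.1 z.2) + 2 * EE π mv fun z => f2 z.1 z.2 :=
    EE_two hs (c := -m0 π s) fun z => by simp only [hf2]; ring
  have a3 := EE_le hs fun z => f2 z.1 z.2
  have a4 : ∀ d, ∑ a, π a * f2 a d ^ 2 ≤ C * (3 * EE π mv (fun z => s z.1 z.2 d) +
      3 * D3 π mv s + 12 * Fintype.card Θ * ∑ z : Ω × Ω, π z.1 * π z.2 * f3 π s z.1 z.2 d ^ 2) := by
    intro d
    have b1 := pi_EE hP fun a => f2 a d
    rw [z2] at b1
    have b2 : EE π mv (fun z => f2 z.1 d + f2 z.2 d) ≤ 3 * EE π mv (fun z => s z.1 z.2 d) +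
        3 * EE π mv (fun z => m2 π s z.1 z.2) + 3 * EE π mv fun z => f3 π s z.1 z.2 d :=
      EE_three hs (c := m0 π s - m1 π s d) fun z => by simp only [hf2, f3]; ring
    have b3 := EE_le hs fun z => f3 π s z.1 z.2 d
    have b4 := mul_le_mul_of_nonneg_left (show EE π mv (fun z => f2 z.1 d + f2 z.2 d) ≤
      3 * EE π mv (fun z => s z.1 z.2 d) + 3 * D3 π mv s + 12 * Fintype.card Θ *
        ∑ z : Ω × Ω, π z.1 * π z.2 * f3 π s z.1 z.2 d ^ 2 by linarith) hC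
    linarith
  have a5 : ∑ z : Ω × Ω, π z.1 * π z.2 * f2 z.1 z.2 ^ 2 ≤
      6 * C * D3 π mv s + 12 * C * Fintype.card Θ * n3 π (f3 π s) := by
    have e1 : ∑ z : Ω × Ω, π z.1 * π z.2 * f2 z.1 z.2 ^ 2 =
        ∑ d, π d * ∑ a, π a * f2 a d ^ 2 := by
      rw [Fintype.sum_prod_type_right]
      simp only [mul_sum]
      exact sum_congr rfl fun d _ => sum_congr rfl fun a _ => by ring
    have e2 : n3 π (f3 π s) = ∑ d, π d * ∑ z : Ω × Ω, π z.1 * π z.2 * f3 π s z.1 z.2 d ^ 2 := by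
      simp only [mul_sum]
      rw [sum_comm, Fintype.sum_prod_type]
      exact sum_congr rfl fun a _ => sum_congr rfl fun b _ => sum_congr rfl fun d _ => by ring
    have e3 : D3 π mv s = ∑ d, π d * EE π mv fun z => s z.1 z.2 d := rfl
    rw [e1]
    refine (sum_le_sum fun d _ => mul_le_mul_of_nonneg_left (a4 d) (hs.pos d).le).trans
      (le_of_eq ?_)
    have e4 : ∀ d, π d * (C * (3 * EE π mv (fun z => s z.1 z.2 d) + 3 * D3 π mv s +
        12 * Fintype.card Θ * ∑ z : Ω × Ω, π z.1 * π z.2 * f3 π s z.1 z.2 d ^ 2)) =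
        3 * C * (π d * EE π mv fun z => s z.1 z.2 d) + 3 * C * D3 π mv s * π d +
          12 * C * Fintype.card Θ *
            (π d * ∑ z : Ω × Ω, π z.1 * π z.2 * f3 π s z.1 z.2 d ^ 2) := fun d => by ring
    simp only [e4, sum_add_distrib, ← mul_sum]
    rw [← e2, ← e3, hs.sum]
    ring
  have c1 := mul_le_mul_of_nonneg_left a2 hC
  have c2 := mul_le_mul_of_nonneg_left hD hC
  have c3 := mul_le_mul_of_nonneg_left a3 hC
  have c4 := mul_le_mul_of_nonneg_left a5 (mul_nonneg hC hT)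
  linarith

end Vale.Agent.P308.Pt
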