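import Vale.Agent.P308.AnoS

/-! The part of degree three is small (job AnoF). -/

namespace Vale.Agent.P308.Pt

open Finset Function

variable {Ω : Type} [Fintype Ω] {N : ℕ} {π : Ω → ℝ}

lemma f3_zero (h : ∑ a, π a = 1) {s : Ω → Ω → Ω → ℝ} (hs : Sym3 s) :
    (∀ b d, ∑ a, π a * f3 π s a b d = 0) ∧ (∀ a d, ∑ b, π b * f3 π s a b d = 0) ∧
      ∀ a b, ∑ d, π d * f3 π s a b d = 0 := by
  have e2 : ∀ a b, m2 π s a b = m2 π s b a := fun a b => by
    simp only [m2, hs.s12 a b]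
  have e3 : ∀ a b, ∑ d, π d * f3 π s a b d = 0 := by
    intro a b
    simp only [f3, mul_sub, mul_add, sum_sub_distrib, sum_add_distrib, ← sum_mul, h, one_mul]
    simp only [m2, m1, m0]
    ring
  have s12 : ∀ a b d, f3 π s a b d = f3 π s b a d := fun a b d => by
    simp only [f3, hs.s12 a b, e2 a b]
    ring
  have s23 : ∀ a b d, f3 π s a b d = f3 π s a d b := fun a b d => by
    simp only [f3, hs.s23 a b, e2 b d]
    ring
  refine ⟨fun b d => ?_, fun a d => ?_, e3⟩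
  · rw [← e3 b d]
    exact sum_congr rfl fun a _ => by rw [s12, s23]
  · rw [← e3 a d]
    exact sum_congr rfl fun b _ => by rw [s23]

namespace AnoFX

lemma kill (h : ∑ a, π a = 1) (i : Fin N) {F G : (Fin N → Ω) → ℝ}
    (hG : ∀ x a, G (update x i a) = G x) (hF : ∀ x, ∑ a, π a * F (update x i a) = 0) :
    Ex π (fun x => F x * G x) = 0 := by
  rw [Ex_upd h i]
  simp only [hG, ← mul_assoc, ← sum_mul, hF, zero_mul, Ex_zero]

lemma n3_nonneg (h0 : ∀ a, 0 ≤ π a) (u : Ω → Ω → Ω → ℝ) : 0 ≤ n3 π u :=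
  sum_nonneg fun a _ => sum_nonneg fun b _ => sum_nonneg fun d _ =>
    mul_nonneg (mul_nonneg (mul_nonneg (h0 a) (h0 b)) (h0 d)) (sq_nonneg _)

lemma Ex_sq3 (h : ∑ a, π a = 1) (u : Ω → Ω → Ω → ℝ) {τ : Fin N × Fin N × Fin N}
    (hτ : τ ∈ T3 N) : Ex π (fun x => u (x τ.1) (x τ.2.1) (x τ.2.2) ^ 2) = n3 π u := by
  rw [Ex_upd3 h hτ fun a b d _ => u a b d ^ 2]
  simp only [Ex_const h, n3]

end AnoFX

open AnoFX

theorem second (h0 : ∀ a, 0 ≤ π a) (h : ∑ a, π a = 1) {u : Ω → Ω → Ω → ℝ}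
    (h1 : ∀ b d, ∑ a, π a * u a b d = 0) (h2 : ∀ a d, ∑ b, π b * u a b d = 0)
    (h3 : ∀ a b, ∑ d, π d * u a b d = 0) :
    Ex π (fun x : Fin N → Ω => (∑ τ ∈ T3 N, u (x τ.1) (x τ.2.1) (x τ.2.2)) ^ 2) ≤
      27 * (T3 N).card * n3 π u := by
  have hn := n3_nonneg h0 u
  simp only [sq, sum_mul_sum, Ex_sum]
  rw [sum_comm]
  have key : ∀ σ ∈ T3 N, ∑ τ ∈ T3 N, (Ex π fun x : Fin N → Ω =>
      u (x τ.1) (x τ.2.1) (x τ.2.2) * u (x σ.1) (x σ.2.1) (x σ.2.2)) ≤ 27 * n3 π u := by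
    intro σ hσ
    set I : Finset (Fin N) := {σ.1, σ.2.1, σ.2.2} with hI
    have hG : ∀ i, i ∉ I → ∀ (x : Fin N → Ω) (a : Ω),
        u (update x i a σ.1) (update x i a σ.2.1) (update x i a σ.2.2) =
          u (x σ.1) (x σ.2.1) (x σ.2.2) := by
      intro i hi x a
      simp only [hI, mem_insert, mem_singleton, not_or] at hi
      rw [update_of_ne (Ne.symm hi.1), update_of_ne (Ne.symm hi.2.1),
        update_of_ne (Ne.symm hi.2.2)]
    have hb : ∀ τ ∈ T3 N, (Ex π fun x : Fin N → Ω =>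
        u (x τ.1) (x τ.2.1) (x τ.2.2) * u (x σ.1) (x σ.2.1) (x σ.2.2)) ≤
        if τ ∈ I ×ˢ I ×ˢ I then n3 π u else 0 := by
      intro τ hτ
      obtain ⟨t1, t2, t3⟩ := mem_T3.1 hτ
      split_ifs with hm
      · have := Ex_mono h0 (F := fun x : Fin N → Ω =>
          u (x τ.1) (x τ.2.1) (x τ.2.2) * u (x σ.1) (x σ.2.1) (x σ.2.2))
          (G := fun x => (u (x τ.1) (x τ.2.1) (x τ.2.2) ^ 2 +
            u (x σ.1) (x σ.2.1) (x σ.2.2) ^ 2) / 2) fun x => by
            nlinarith [sq_nonneg (u (x τ.1) (x τ.2.1) (x τ.2.2) - u (x σ.1) (x σ.2.1) (x σ.2.2))]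
        rw [Ex_div, Ex_add, Ex_sq3 h u hτ, Ex_sq3 h u hσ] at this
        linarith
      · refine le_of_eq ?_
        simp only [mem_product, not_and_or] at hm
        rcases hm with hm | hm | hm
        · refine kill h τ.1 (hG _ hm) fun x => ?_
          simp only [update_self, update_of_ne t1.symm, update_of_ne t2.symm, h1]
        · refine kill h τ.2.1 (hG _ hm) fun x => ?_
          simp only [update_self, update_of_ne t1, update_of_ne t3.symm, h2]
        · refine kill h τ.2.2 (hG _ hm) fun x => ?_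
          simp only [update_self, update_of_ne t2, update_of_ne t3, h3]
    refine (sum_le_sum hb).trans ?_
    rw [← sum_filter, sum_const, nsmul_eq_mul]
    refine mul_le_mul_of_nonneg_right ?_ hn
    have c1 : I.card ≤ 3 := card_le_three
    have c2 : ((T3 N).filter fun τ => τ ∈ I ×ˢ I ×ˢ I).card ≤ (I ×ˢ I ×ˢ I).card :=
      card_le_card fun τ hτ => (mem_filter.1 hτ).2
    rw [card_product, card_product] at c2
    have c3 : I.card * (I.card * I.card) ≤ 3 * (3 * 3) := by gcongr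
    exact_mod_cast c2.trans c3
  refine (sum_le_sum key).trans (le_of_eq ?_)
  rw [sum_const, nsmul_eq_mul]
  ring

theorem f3_le (h0 : ∀ a, 0 ≤ π a) (h : ∑ a, π a = 1) (hN : 3 ≤ N) {g : (Fin N → Ω) → ℝ}
    (hg : ∀ x, |g x| ≤ 1) : n3 π (f3 π (s3 π g)) ≤ 27 / (T3 N).card := by
  have hc := card_T3_pos hN
  set s := s3 π g with hs
  set u := f3 π s with hu
  obtain ⟨h1, h2, h3⟩ := f3_zero h (s3_sym π g)
  rw [← hs, ← hu] at h1 h2 h3
  have o3 : ∀ φ : Ω → Ω → ℝ, ∑ a, ∑ b, ∑ d, π a * π b * π d * (u a b d * φ a b) = 0 := by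
    intro φ
    refine sum_eq_zero fun a _ => sum_eq_zero fun b _ => ?_
    have : ∑ d, π a * π b * π d * (u a b d * φ a b) = π a * π b * φ a b * ∑ d, π d * u a b d := by
      rw [mul_sum]
      exact sum_congr rfl fun d _ => by ring
    rw [this, h3, mul_zero]
  have o2 : ∀ φ : Ω → Ω → ℝ, ∑ a, ∑ b, ∑ d, π a * π b * π d * (u a b d * φ a d) = 0 := by
    intro φ
    refine sum_eq_zero fun a _ => ?_
    rw [sum_comm]
    refine sum_eq_zero fun d _ => ?_
    have : ∑ b, π a * π b * π d * (u a b d * φ a d) = π a * π d * φ a d * ∑ b, π b * u a b d := by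
      rw [mul_sum]
      exact sum_congr rfl fun b _ => by ring
    rw [this, h2, mul_zero]
  have o1 : ∀ φ : Ω → Ω → ℝ, ∑ a, ∑ b, ∑ d, π a * π b * π d * (u a b d * φ b d) = 0 := by
    intro φ
    rw [sum_comm]
    refine sum_eq_zero fun b _ => ?_
    rw [sum_comm]
    refine sum_eq_zero fun d _ => ?_
    have : ∑ a, π a * π b * π d * (u a b d * φ b d) = π b * π d * φ b d * ∑ a, π a * u a b d := by
      rw [mul_sum]
      exact sum_congr rfl fun a _ => by ring
    rw [this, h1, mul_zero]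
  have e1 : ∑ a, ∑ b, ∑ d, π a * π b * π d * (u a b d * s a b d) = n3 π u := by
    have e : ∀ a b d, π a * π b * π d * (u a b d * s a b d) = π a * π b * π d * u a b d ^ 2 +
        π a * π b * π d * (u a b d * (m2 π s a b - m1 π s a - m1 π s b + m0 π s)) +
        π a * π b * π d * (u a b d * (m2 π s a d - m1 π s d)) +
        π a * π b * π d * (u a b d * m2 π s b d) := by
      intro a b d
      have : s a b d = u a b d + (m2 π s a b - m1 π s a - m1 π s b + m0 π s) +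
          (m2 π s a d - m1 π s d) + m2 π s b d := by
        simp only [hu, f3]
        ring
      rw [this]
      ring
    simp only [e, sum_add_distrib]
    rw [o3 fun a b => m2 π s a b - m1 π s a - m1 π s b + m0 π s,
      o2 fun a d => m2 π s a d - m1 π s d, o1 fun b d => m2 π s b d]
    simp [n3]
  have e2 : Ex π (fun x : Fin N → Ω => (∑ τ ∈ T3 N, u (x τ.1) (x τ.2.1) (x τ.2.2)) * g x) =
      (T3 N).card * n3 π u := by
    simp only [sum_mul, Ex_sum]
    rw [sum_congr rfl fun τ hτ => Ex_upd3 h hτ fun a b d y => u a b d * g y, ← e1]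
    simp only [Ex_mul, mul_sum]
    rw [sum_comm]
    refine sum_congr rfl fun a _ => ?_
    rw [sum_comm]
    refine sum_congr rfl fun b _ => ?_
    rw [sum_comm]
    refine sum_congr rfl fun d _ => ?_
    rw [← mul_sum, ← mul_sum, hs, s3]
    field_simp
  have e3 := second (N := N) h0 h h1 h2 h3
  have e4 := Ex_mono h0
    (F := fun x : Fin N → Ω => (∑ τ ∈ T3 N, u (x τ.1) (x τ.2.1) (x τ.2.2)) * g x)
    (G := fun x => (∑ τ ∈ T3 N, u (x τ.1) (x τ.2.1) (x τ.2.2)) ^ 2 / 54 + 27 / 2) fun x => by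
      set U := ∑ τ ∈ T3 N, u (x τ.1) (x τ.2.1) (x τ.2.2)
      have b1 : g x ^ 2 ≤ 1 := (sq_le_one_iff_abs_le_one _).2 (hg x)
      nlinarith [sq_nonneg (U - 27 * g x)]
  rw [e2, Ex_add, Ex_div, Ex_const h] at e4
  rw [le_div_iff₀ hc]
  linarith

end Vale.Agent.P308.Pt
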