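import Vale.Agent.P308.Mark

/-! The projection to three particles (job AnoS). -/

namespace Vale.Agent.P308.Pt

open Finset Function

variable {Ω Θ : Type} [Fintype Ω] [Fintype Θ] {N : ℕ} {π : Ω → ℝ} {mv : Θ → Ω × Ω → Ω × Ω}

lemma mem_T3 {τ : Fin N × Fin N × Fin N} :
    τ ∈ T3 N ↔ τ.1 ≠ τ.2.1 ∧ τ.1 ≠ τ.2.2 ∧ τ.2.1 ≠ τ.2.2 := by
  simp [T3]

lemma sum_T3 {M : Type} [AddCommMonoid M] (G : Fin N → Fin N → M) :
    ∑ τ ∈ T3 N, G τ.1 τ.2.1 = (N - 2) • ∑ i, ∑ j, if i = j then 0 else G i j := by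
  rw [T3, sum_filter, Fintype.sum_prod_type, smul_sum]
  refine sum_congr rfl fun i _ => ?_
  rw [Fintype.sum_prod_type, smul_sum]
  refine sum_congr rfl fun j _ => ?_
  simp only
  split_ifs with hij
  · simp [hij]
  · rw [← sum_filter, sum_const]
    congr 1
    have : (univ.filter fun k => i ≠ j ∧ i ≠ k ∧ j ≠ k) = (univ.erase i).erase j := by
      ext k
      simp only [mem_filter, mem_univ, true_and, mem_erase, and_true]
      exact ⟨fun h => ⟨h.2.2.symm, h.2.1.symm⟩, fun h => ⟨hij, h.2.symm, h.1.symm⟩⟩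
    rw [this, card_erase_of_mem (mem_erase.2 ⟨Ne.symm hij, mem_univ _⟩),
      card_erase_of_mem (mem_univ _), card_univ, Fintype.card_fin]
    omega

lemma sum_T3' {M : Type} [AddCommMonoid M] (G : Fin N → M) :
    ∑ τ ∈ T3 N, G τ.1 = ((N - 1) * (N - 2)) • ∑ i, G i := by
  rw [sum_T3 fun i _ => G i, mul_comm, mul_smul, smul_sum (r := N - 1)]
  congr 1
  refine sum_congr rfl fun i _ => ?_
  rw [← sum_erase_add _ _ (mem_univ i), if_pos rfl, add_zero,
    sum_congr rfl fun j hj => if_neg (ne_of_mem_erase hj).symm, sum_const,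
    card_erase_of_mem (mem_univ _), card_univ, Fintype.card_fin]

lemma card_T3 (N : ℕ) : (T3 N).card = N * (N - 1) * (N - 2) := by
  have := sum_T3' (N := N) fun _ => (1 : ℕ)
  simp only [sum_const, smul_eq_mul, mul_one, card_univ, Fintype.card_fin] at this
  rw [this]
  ring

lemma card_T3_ge (hN : 3 ≤ N) : 2 * N ^ 3 ≤ 9 * (T3 N).card := by
  obtain ⟨k, rfl⟩ := Nat.exists_eq_add_of_le hN
  rw [card_T3, show 3 + k - 1 = k + 2 by omega, show 3 + k - 2 = k + 1 by omega]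
  nlinarith [Nat.zero_le (k ^ 3), Nat.zero_le (k ^ 2), Nat.zero_le k]

lemma card_T3_pos (hN : 3 ≤ N) : (0 : ℝ) < (T3 N).card := by
  have := card_T3_ge hN
  have h2 : 0 < N ^ 3 := by positivity
  exact_mod_cast (by omega : 0 < (T3 N).card)

/-- resampling three particles -/
lemma Ex_upd3 (h : ∑ a, π a = 1) {τ : Fin N × Fin N × Fin N} (hτ : τ ∈ T3 N)
    (F : Ω → Ω → Ω → (Fin N → Ω) → ℝ) :
    Ex π (fun x => F (x τ.1) (x τ.2.1) (x τ.2.2) x) = ∑ a, ∑ b, ∑ d, π a * π b * π d *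
      Ex π fun x => F a b d (update (update (update x τ.1 a) τ.2.1 b) τ.2.2 d) := by
  obtain ⟨h1, h2, h3⟩ := mem_T3.1 hτ
  rw [Ex_upd h τ.2.2, Ex_upd h τ.2.1, Ex_upd h τ.1]
  simp only [update_self, update_of_ne h1, update_of_ne h2, update_of_ne h3, Ex_sum, Ex_mul]
  simp only [mul_sum, mul_assoc]

lemma s3_sym (π : Ω → ℝ) (h : (Fin N → Ω) → ℝ) : Sym3 (s3 π h) := by
  constructor
  · intro a b d
    unfold s3
    congr 1
    refine sum_nbij' (fun τ => (τ.2.1, τ.1, τ.2.2)) (fun τ => (τ.2.1, τ.1, τ.2.2)) ?_ ?_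
      (fun _ _ => rfl) (fun _ _ => rfl) fun τ hτ => ?_
    · intro τ hτ
      obtain ⟨h1, h2, h3⟩ := mem_T3.1 hτ
      exact mem_T3.2 ⟨h1.symm, h3, h2⟩
    · intro τ hτ
      obtain ⟨h1, h2, h3⟩ := mem_T3.1 hτ
      exact mem_T3.2 ⟨h1.symm, h3, h2⟩
    · simp only [update_comm (mem_T3.1 hτ).1]
  · intro a b d
    unfold s3
    congr 1
    refine sum_nbij' (fun τ => (τ.1, τ.2.2, τ.2.1)) (fun τ => (τ.1, τ.2.2, τ.2.1)) ?_ ?_
      (fun _ _ => rfl) (fun _ _ => rfl) fun τ hτ => ?_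
    · intro τ hτ
      obtain ⟨h1, h2, h3⟩ := mem_T3.1 hτ
      exact mem_T3.2 ⟨h2, h1, h3.symm⟩
    · intro τ hτ
      obtain ⟨h1, h2, h3⟩ := mem_T3.1 hτ
      exact mem_T3.2 ⟨h2, h1, h3.symm⟩
    · simp only [update_comm (mem_T3.1 hτ).2.2]

lemma Ex_sq (h0 : ∀ a, 0 ≤ π a) (h : ∑ a, π a = 1) (F : (Fin N → Ω) → ℝ) :
    Ex π F ^ 2 ≤ Ex π fun x => F x ^ 2 := by
  have h1 : 0 ≤ Ex π fun x => (F x - Ex π F) ^ 2 := Ex_nonneg h0 fun _ => sq_nonneg _
  have h2 : (fun x => (F x - Ex π F) ^ 2) =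
      fun x => F x ^ 2 - 2 * Ex π F * F x + Ex π F ^ 2 := by
    ext x
    ring
  rw [h2, Ex_add, Ex_sub, Ex_mul, Ex_const h] at h1
  nlinarith

omit [Fintype Ω] [Fintype Θ] in
lemma nx_upd3 {τ : Fin N × Fin N × Fin N} (hτ : τ ∈ T3 N) (θ : Θ) (x : Fin N → Ω) (a b d : Ω) :
    nx mv τ.1 τ.2.1 θ (update (update (update x τ.1 a) τ.2.1 b) τ.2.2 d) =
      update (update (update x τ.1 (mv θ (a, b)).1) τ.2.1 (mv θ (a, b)).2) τ.2.2 d := by
  obtain ⟨h1, h2, h3⟩ := mem_T3.1 hτ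
  unfold nx
  simp only [update_self, update_of_ne h1, update_of_ne h2, update_of_ne h3]
  ext k
  simp only [update_apply]
  split_ifs <;> simp_all

theorem D3_le (hs : Sys π mv) (hN : 3 ≤ N) (h : (Fin N → Ω) → ℝ) :
    D3 π mv (s3 π h) ≤ DN π mv h := by
  have h0 : ∀ a, 0 ≤ π a := fun a => (hs.pos a).le
  have hc := card_T3_pos hN
  set up : (Fin N × Fin N × Fin N) → (Fin N → Ω) → Ω → Ω → Ω → Fin N → Ω :=
    fun τ x a b d => update (update (update x τ.1 a) τ.2.1 b) τ.2.2 d with hup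
  set q : (Fin N × Fin N × Fin N) → Θ → Ω → Ω → Ω → ℝ := fun τ θ a b d =>
    Ex π fun x => (h (up τ x a b d) - h (up τ x (mv θ (a, b)).1 (mv θ (a, b)).2 d)) ^ 2 with hq
  have h1 : ∀ θ a b d, (s3 π h a b d - s3 π h (mv θ (a, b)).1 (mv θ (a, b)).2 d) ^ 2 ≤
      (∑ τ ∈ T3 N, q τ θ a b d) / (T3 N).card := by
    intro θ a b d
    unfold s3
    rw [← sub_div, ← sum_sub_distrib]
    refine sum_div_card_sq_le_sum_sq_div_card.trans ?_
    gcongr with τ hτ
    rw [← Ex_sub]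
    exact Ex_sq h0 hs.sum _
  set G : Fin N → Fin N → ℝ := fun i j =>
    ∑ θ, Ex π fun x => al π mv θ (x i, x j) * (h x - h (nx mv i j θ x)) ^ 2 with hG
  have h2 : ∀ τ ∈ T3 N, G τ.1 τ.2.1 =
      ∑ θ, ∑ a, ∑ b, ∑ d, π a * π b * π d * (al π mv θ (a, b) * q τ θ a b d) := by
    intro τ hτ
    refine sum_congr rfl fun θ _ => ?_
    rw [Ex_upd3 hs.sum hτ fun a b _ y => al π mv θ (a, b) * (h y - h (nx mv τ.1 τ.2.1 θ y)) ^ 2]
    simp only [nx_upd3 hτ, Ex_mul, hq, hup]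
  have h3 : DN π mv h = ∑ i, ∑ j, if i = j then 0 else G i j := by
    unfold DN
    refine sum_congr rfl fun i _ => sum_congr rfl fun j _ => ?_
    split_ifs
    · simp
    · rfl
  have h4 : 0 ≤ DN π mv h := by
    rw [h3]
    refine sum_nonneg fun i _ => sum_nonneg fun j _ => ?_
    split_ifs
    · exact le_rfl
    · exact sum_nonneg fun θ _ => Ex_nonneg h0 fun x =>
        mul_nonneg (al_nonneg hs _ _) (sq_nonneg _)
  have h5 : D3 π mv (s3 π h) ≤ (∑ τ ∈ T3 N, G τ.1 τ.2.1) / (T3 N).card := by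
    calc D3 π mv (s3 π h) ≤ ∑ d, π d * ∑ θ, ∑ z : Ω × Ω, π z.1 * π z.2 * al π mv θ z *
          ((∑ τ ∈ T3 N, q τ θ z.1 z.2 d) / (T3 N).card) := by
          unfold D3
          refine sum_le_sum fun d _ => mul_le_mul_of_nonneg_left
            (sum_le_sum fun θ _ => sum_le_sum fun z _ => mul_le_mul_of_nonneg_left
              (h1 θ z.1 z.2 d) ?_) (h0 d)
          exact mul_nonneg (mul_nonneg (h0 _) (h0 _)) (al_nonneg hs _ _)
      _ = _ := by
          rw [sum_congr rfl h2, eq_div_iff hc.ne']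
          simp only [Fintype.sum_prod_type, sum_mul, mul_sum, mul_assoc, div_mul_cancel₀ _ hc.ne']
          rw [sum_comm (s := T3 N), sum_comm]
          refine sum_congr rfl fun θ _ => ?_
          rw [sum_comm (s := T3 N), sum_comm]
          refine sum_congr rfl fun a _ => ?_
          rw [sum_comm (s := T3 N), sum_comm]
          refine sum_congr rfl fun b _ => ?_
          rw [sum_comm (s := T3 N)]
          refine sum_congr rfl fun d _ => sum_congr rfl fun τ _ => ?_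
          ring
  refine h5.trans ?_
  rw [sum_T3, ← h3, div_le_iff₀ hc, nsmul_eq_mul, mul_comm]
  refine mul_le_mul_of_nonneg_left ?_ h4
  rw [card_T3]
  exact_mod_cast Nat.le_mul_of_pos_left _ (Nat.mul_pos (by omega) (by omega))

theorem first (hs : ∑ a, π a = 1) (hN : 3 ≤ N) (φ : Ω → ℝ) (h : (Fin N → Ω) → ℝ) :
    Ex π (fun x => (∑ i, φ (x i)) * h x) = N * ∑ a, π a * φ a * m1 π (s3 π h) a := by
  have hc := card_T3_pos hN
  have h1 : Ex π (fun x => (∑ i, φ (x i)) * h x) = ∑ i, Ex π fun x => φ (x i) * h x := by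
    simp only [sum_mul, Ex_sum]
  have h2 : ∑ τ ∈ T3 N, (Ex π fun x => φ (x τ.1) * h x) =
      (T3 N).card * ∑ a, π a * φ a * m1 π (s3 π h) a := by
    rw [sum_congr rfl fun τ hτ => Ex_upd3 hs hτ fun a _ _ y => φ a * h y]
    simp only [Ex_mul, m1, m2, s3, mul_sum]
    rw [sum_comm]
    refine sum_congr rfl fun a _ => ?_
    rw [sum_comm]
    refine sum_congr rfl fun b _ => ?_
    rw [sum_comm]
    refine sum_congr rfl fun d _ => ?_
    rw [← mul_sum, ← mul_sum]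
    field_simp
  rw [sum_T3' fun i => Ex π fun x => φ (x i) * h x, card_T3, nsmul_eq_mul, ← h1] at h2
  have h3 : (((N - 1) * (N - 2) : ℕ) : ℝ) ≠ 0 :=
    Nat.cast_ne_zero.2 (Nat.mul_pos (by omega) (by omega)).ne'
  refine mul_left_cancel₀ h3 ?_
  rw [h2, mul_assoc N, Nat.cast_mul N]
  ring

end Vale.Agent.P308.Pt
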