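import Vale.Agent.P308.Model

/-! Alternating arcs, collisions and the error terms (definitions). -/

namespace Vale.Agent.P308

open Finset

variable {V : Type} [Fintype V] [DecidableEq V]

/-- every edge of `B` is an edge of `X` -/
def Sub (B X : V → V) : Prop := ∀ v, B v ≠ v → X v = B v

/-- a vertex set, two end points, and two matchings -/
structure Ob (V : Type) where
  P : Finset V
  s : V
  t : V
  A : Bool → V → V

noncomputable instance Ob.fintype : Fintype (Ob V) :=
  Fintype.ofInjective (fun o : Ob V => (o.P, o.s, o.t, o.A)) fun o o' h => by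
    cases o; cases o'; simp_all

/-- an alternating path (or cycle) on `P` from `s` to `t` -/
structure Arc (o : Ob V) : Prop where
  hs : o.s ∈ o.P
  ht : o.t ∈ o.P
  inv : ∀ a v, o.A a (o.A a v) = v
  supp : ∀ a v, o.A a v ≠ v → v ∈ o.P
  fix : ∀ a, ∀ v ∈ o.P, o.A a v = v → v = o.s ∨ v = o.t
  conn : ∀ v ∈ o.P, v ∈ Orb (o.A false) (o.A true) o.s

/-- the laminar structure: blocks, a gauge and a helper vertex for every vertex set -/
structure Lam (c : V → V → ℝ) (L : ℝ) (blk : Finset V → V → Finset V) (τ : Finset V → V → ℝ)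
    (h : Finset V → V) : Prop where
  one : 1 ≤ L
  pos : ∀ P v, 0 < τ P v
  lo : ∀ P a b, a ≠ b → τ P a * τ P b ≤ L * c a b
  up : ∀ P a b, blk P a ≠ blk P b → c a b ≤ τ P a * τ P b
  two : ∀ P : Finset V, 2 ≤ P.card → ∃ a ∈ P, ∃ b ∈ P, blk P a ≠ blk P b
  mono : ∀ P P' : Finset V, P' ⊆ P → 2 ≤ P'.card → ∀ a ∈ P', ∀ v, blk P a ≠ blk P v →
    blk P' a ≠ blk P' v
  cmp : ∀ P P' : Finset V, P' ⊆ P → 2 ≤ P'.card → ∀ a ∈ P', ∀ v,
    τ P a * τ P v ≤ L * (τ P' a * τ P' v)
  out : ∀ P : Finset V, Odd P.card → h P ∉ P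
  max : ∀ P : Finset V, Odd P.card → ∀ v, v ∉ P →
    τ P v * H c (insert v P)ᶜ ≤ τ P (h P) * H c (insert (h P) P)ᶜ

/-- an odd set gets one more vertex -/
def SP (P : Finset V) (ρ : V) : Finset V := if Odd P.card then insert ρ P else P

def OK (P : Finset V) (ρ : V) : Prop := Odd P.card → ρ ∉ P

open Classical in
/-- a matching that covers `S` and contains `B` -/
noncomputable def ext (S : Finset V) (B : V → V) : V → V :=
  if h : ∃ X ∈ PMon S, Sub B X then h.choose else B

/-- the edges of colour `a`, closed up -/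
noncomputable def att (o : Ob V) (a : Bool) (ρ : V) : V → V := ext (SP o.P ρ) (o.A a)

/-- the mean of `f` over the perfect matchings that contain `B` -/
noncomputable def mu (c : V → V → ℝ) (f : (V → V) → ℝ) (S : Finset V) (B : V → V) : ℝ :=
  (∑ C ∈ PMon Sᶜ, W c C * f (B ∘ C)) / H c Sᶜ

/-- the mean increment of `f` along the arc -/
noncomputable def Db (c : V → V → ℝ) (f : (V → V) → ℝ) (h : Finset V → V) (o : Ob V) : ℝ :=
  mu c f (SP o.P (h o.P)) (att o true (h o.P)) - mu c f (SP o.P (h o.P)) (att o false (h o.P))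

noncomputable def dev (c : V → V → ℝ) (f : (V → V) → ℝ) (h : Finset V → V) (o : Ob V) (ρ : V)
    (C : V → V) : ℝ :=
  (f (att o true ρ ∘ C) - f (att o false ρ ∘ C) - Db c f h o) ^ 2

noncomputable def Om (c : V → V → ℝ) (h : Finset V → V) (o : Ob V) (ρ : V) : ℝ :=
  min (W c (att o true ρ) * W c (att o false (h o.P)))
    (W c (att o false ρ) * W c (att o true (h o.P))) * H c (SP o.P (h o.P))ᶜ

open Classical in
/-- the total deviation -/
noncomputable def CLs (c : V → V → ℝ) (f : (V → V) → ℝ) (h : Finset V → V) : ℝ :=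
  ∑ o : Ob V, ∑ ρ : V, if Arc o ∧ OK o.P ρ then
    ∑ C ∈ PMon (SP o.P ρ)ᶜ, Om c h o ρ * (W c C * dev c f h o ρ C) else 0

/-- the weight of `B` on `S`, with the gauge at the uncovered vertices -/
noncomputable def ga (c : V → V → ℝ) (τ : V → ℝ) (S : Finset V) (B : V → V) : ℝ :=
  ∏ v ∈ S, if B v = v then τ v else √(c v (B v))

/-- two disjoint arcs -/
structure Two (o1 o2 : Ob V) : Prop where
  a1 : Arc o1
  a2 : Arc o2
  dj : Disjoint o1.P o2.P

/-- two disjoint arcs inside the matchings `M`, `N`, whose missing edges join different blocks -/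
structure VP (blk : Finset V → V → Finset V) (M N : V → V) (o1 o2 : Ob V) : Prop where
  two : Two o1 o2
  s1 : ∀ a, Sub (o1.A a) (cond a N M)
  s2 : ∀ a, Sub (o2.A a) (cond a N M)
  cr : ∀ a, ∀ v ∈ o1.P ∪ o2.P, o1.A a v = v → o2.A a v = v →
    blk (o1.P ∪ o2.P) v ≠ blk (o1.P ∪ o2.P) (cond a N M v)

def SU (h : Finset V → V) (o1 o2 : Ob V) : Finset V := SP (o1.P ∪ o2.P) (h (o1.P ∪ o2.P))

open Classical in
/-- the ways to close up the first arc and colour `b` of the second arc separately -/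
noncomputable def Cfg (h : Finset V → V) (o1 o2 : Ob V) (b : Bool) : Finset (V × (V → V)) :=
  univ.filter fun z => OK o1.P z.1 ∧ SP o1.P z.1 ⊆ SU h o1 o2 ∧
    z.2 ∈ PMon (SU h o1 o2 \ SP o1.P z.1) ∧ Sub (o2.A b) z.2

open Classical in
/-- the ways to close up colour `a` of the first arc and colour `b` of the second arc -/
noncomputable def Exs (h : Finset V → V) (o1 o2 : Ob V) (a b : Bool) : Finset (V → V) :=
  (PMon (SU h o1 o2)).filter fun B => Sub (o1.A a) B ∧ Sub (o2.A b) B

noncomputable def errS (c : V → V → ℝ) (f : (V → V) → ℝ) (h : Finset V → V) (o1 o2 : Ob V) : ℝ :=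
  ∑ b, ∑ z ∈ Cfg h o1 o2 b, (mu c f (SU h o1 o2) (att o1 true z.1 ∘ z.2) -
    mu c f (SU h o1 o2) (att o1 false z.1 ∘ z.2) - Db c f h o1) ^ 2

noncomputable def locS (c : V → V → ℝ) (f : (V → V) → ℝ) (h : Finset V → V) (o1 o2 : Ob V) : ℝ :=
  ∑ a, ∑ b, ∑ B ∈ Exs h o1 o2 a b, ∑ B' ∈ Exs h o1 o2 a b,
    (mu c f (SU h o1 o2) B - mu c f (SU h o1 o2) B') ^ 2

open Classical in
/-- the weight of the pairs of perfect matchings that contain the two arcs -/
noncomputable def Fl (c : V → V → ℝ) (blk : Finset V → V → Finset V) (o1 o2 : Ob V) : ℝ :=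
  ∑ M ∈ PMon univ, ∑ N ∈ PMon univ, if VP blk M N o1 o2 then W c M * W c N else 0

/-- the collision: relabel `Y`, exchange the alternating cycle through `k`, relabel back -/
noncomputable def Col (k p q : V) (X Y : V → V) : (V → V) × (V → V) :=
  (mix (Orb X (cj p q Y) k) X (cj p q Y), cj p q (mix (Orb X (cj p q Y) k) (cj p q Y) X))

/-- the energy of the collisions -/
noncomputable def Ecol (c : V → V → ℝ) (f : (V → V) → ℝ) : ℝ :=
  ∑ k, ∑ p, ∑ q, ∑ X ∈ PMon univ, ∑ Y ∈ PMon univ,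
    min (W c X * W c Y) (W c (Col k p q X Y).1 * W c (Col k p q X Y).2) *
      (f X + f Y - f (Col k p q X Y).1 - f (Col k p q X Y).2) ^ 2

/-- the energy of the transpositions -/
noncomputable def Eloc (c : V → V → ℝ) (f : (V → V) → ℝ) : ℝ :=
  ∑ p, ∑ q, ∑ X ∈ PMon univ, min (W c X) (W c (cj p q X)) * (f X - f (cj p q X)) ^ 2

end Vale.Agent.P308
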