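import Vale.Agent.P308.Basic

/-! Two transpositions join near matchings. -/

namespace Vale.Agent.P308

open Finset

variable {V : Type} [Fintype V] [DecidableEq V]

namespace GA

def df (X Y : V → V) : Finset V := univ.filter fun v => X v ≠ Y v

variable {X Y : V → V}

lemma three (hX : X ∈ PMon univ) (hY : Y ∈ PMon univ) {u : V} (h : X u ≠ Y u) :
    3 ≤ (df X Y).card := by
  have a1 := mem_PM.1 hX
  have a2 := mem_PM.1 hY
  have hs : ({u, X u, Y u} : Finset V) ⊆ df X Y := by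
    intro v hv
    simp only [mem_insert, mem_singleton] at hv
    simp only [df, mem_filter, mem_univ, true_and]
    rcases hv with rfl | rfl | rfl
    · exact h
    · rw [(a1 u).1]
      exact fun e => h (by rw [← (a2 (X u)).1, ← e])
    · rw [(a2 u).1]
      exact fun e => h (by rw [← (a1 (Y u)).1, e])
  rw [← card_eq_three.2 ⟨u, X u, Y u, (a1 u).2.symm, (a2 u).2.symm, h, rfl⟩]
  exact card_le_card hs

lemma one (hX : X ∈ PMon univ) (hY : Y ∈ PMon univ) [Nonempty V] :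
    ∃ p q, (df (cj p q X) Y).card + 2 ≤ (df X Y).card ∨ cj p q X = Y := by
  by_cases h : X = Y
  · obtain ⟨p⟩ := ‹Nonempty V›
    exact ⟨p, p, Or.inr (by simp [h])⟩
  obtain ⟨u, hu⟩ := Function.ne_iff.1 h
  have a1 := mem_PM.1 hX
  have a2 := mem_PM.1 hY
  refine ⟨X u, Y u, Or.inl ?_⟩
  obtain ⟨v1, v2, v3, v4⟩ := cj_vals hX hu (by rw [(a1 u).1]; exact (a2 u).2.symm)
  rw [(a1 u).1] at v2 v3
  have m1 : u ∈ df X Y := by simp [df, hu]
  have m2 : Y u ∈ (df X Y).erase u := by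
    simp only [df, mem_erase, mem_filter, mem_univ, true_and, (a2 u).1]
    exact ⟨(a2 u).2, fun e => hu (by rw [← (a1 (Y u)).1, e])⟩
  have hs : df (cj (X u) (Y u) X) Y ⊆ ((df X Y).erase u).erase (Y u) := by
    intro v hv
    simp only [df, mem_erase, mem_filter, mem_univ, true_and] at hv ⊢
    refine ⟨fun e => hv (by rw [e, v2, (a2 u).1]), fun e => hv (by rw [e, v3]), fun e => hv ?_⟩
    have n1 : X v ≠ X u := fun k => hu (by
      have : v = u := by rw [← (a1 v).1, k, (a1 u).1]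
      rw [← this, e])
    have n2 : X v ≠ Y u := fun k => hu (by
      have : v = u := by rw [← (a2 v).1, ← e, k, (a2 u).1]
      rw [← this, e])
    have n3 : v ≠ X u := fun k => hu (by
      rw [← k, ← (a2 v).1, ← e, k, (a1 u).1])
    have n4 : v ≠ Y u := fun k => hu (by
      rw [← k, ← (a1 v).1, e, k, (a2 u).1])
    rw [cj_of_ne n3 n4 n1 n2, e]
  have h1 := card_le_card hs
  have h2 := card_erase_add_one m1
  have h3 := card_erase_add_one m2
  omega

lemma two (hX : X ∈ PMon univ) (hY : Y ∈ PMon univ) [Nonempty V] (h : (df X Y).card ≤ 6) :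
    ∃ p q r s, cj p q (cj r s X) = Y := by
  obtain ⟨r, s, h1 | h1⟩ := one hX hY
  · obtain ⟨p, q, h2 | h2⟩ := one (cj_mem hX r s) hY
    · refine ⟨p, q, r, s, ?_⟩
      by_contra hn
      obtain ⟨u, hu⟩ := Function.ne_iff.1 hn
      have := three (cj_mem (cj_mem hX r s) p q) hY hu
      omega
    · exact ⟨p, q, r, s, h2⟩
  · exact ⟨r, r, r, s, by simpa using h1⟩

lemma pair_sum {α : Type} (B : Finset α) (w f : α → ℝ) :
    ∑ x ∈ B, ∑ y ∈ B, w x * w y * (f x - f y) ^ 2 =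
      2 * ((∑ x ∈ B, w x) * (∑ x ∈ B, w x * f x ^ 2) - (∑ x ∈ B, w x * f x) ^ 2) := by
  have e : ∀ x y, w x * w y * (f x - f y) ^ 2 = w x * f x ^ 2 * w y + w x * (w y * f y ^ 2) -
      2 * (w x * f x * (w y * f y)) := fun x y => by ring
  simp only [e, sum_sub_distrib, sum_add_distrib, ← mul_sum, ← sum_mul]
  ring

lemma dev_sum {α : Type} (B : Finset α) (w f : α → ℝ) (h : (∑ x ∈ B, w x) ≠ 0) :
    ∑ x ∈ B, w x * (f x - (∑ x ∈ B, w x * f x) / ∑ x ∈ B, w x) ^ 2 =
      ∑ x ∈ B, w x * f x ^ 2 - (∑ x ∈ B, w x * f x) ^ 2 / ∑ x ∈ B, w x := by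
  have e : ∀ x m, w x * (f x - m) ^ 2 = w x * f x ^ 2 - w x * f x * (2 * m) + w x * m ^ 2 :=
    fun x m => by ring
  simp only [e, sum_sub_distrib, sum_add_distrib, ← sum_mul]
  field_simp
  ring

lemma Cl_eq {U : Finset V} (h : ∀ v, v ∉ U → X v = Y v) : Cl U X = Cl U Y := by
  ext Z
  simp only [mem_Cl]
  exact and_congr_right fun _ => forall_congr' fun v => imp_congr_right fun hv => by rw [h v hv]

lemma fiber {U U' : Finset V} (hU : U' ⊆ U) {X0 : V → V} (hX : X ∈ Cl U X0) :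
    ((Cl U X0).filter fun Y => Cl U' Y = Cl U' X) = Cl U' X := by
  ext Y
  rw [mem_filter]
  constructor
  · rintro ⟨h1, h2⟩
    rw [← h2]
    exact mem_Cl.2 ⟨(mem_Cl.1 h1).1, fun _ _ => rfl⟩
  · intro h
    obtain ⟨h1, h2⟩ := mem_Cl.1 h
    exact ⟨mem_Cl.2 ⟨h1, fun v hv => (h2 v fun e => hv (hU e)).trans ((mem_Cl.1 hX).2 v hv)⟩,
      Cl_eq h2⟩

end GA

end Vale.Agent.P308
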