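import Mathlib
import Vale.Agent.Lib.PTime.Defs

/-! Quasi-polynomial randomized approximation schemes for the number of perfect matchings. -/

namespace Vale.Agent.P308

open Vale.Agent.PT

/-- the number of perfect matchings -/
noncomputable def numPM {n : ℕ} (G : SimpleGraph (Fin n)) : ℕ :=
  {M : G.Subgraph | M.IsPerfectMatching}.ncard

open Classical in
/-- the adjacency matrix, as the list of its rows -/
noncomputable def adj {n : ℕ} (G : SimpleGraph (Fin n)) : List (List Bool) :=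
  List.ofFn fun i => List.ofFn fun j => decide (G.Adj i j)

/-- `A` is a polynomial-time Turing machine which reads the graph, `ε`, `δ` and a string of `T`
random bits, `T = (n + 2) ^ (C * (log₂ n + 1)) * p (⌈1/ε⌉ + ⌈log₂ ⌈1/δ⌉⌉)`, and for at least a
fraction `1 - δ` of the strings its output is within the factors `1 - ε`, `1 + ε` of the number of
perfect matchings -/
def IsQPRAS (A : (List (List Bool) × ℚ × ℚ) × List Bool → ℚ) : Prop :=
  PolyTimeTM A ∧ ∃ (C : ℕ) (p : Polynomial ℕ), ∀ (n : ℕ) (G : SimpleGraph (Fin n)) (ε δ : ℚ),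
    0 < ε → ε < 1 → 0 < δ → δ < 1 / 2 →
    ∀ T : ℕ, T = (n + 2) ^ (C * (Nat.log 2 n + 1)) * p.eval (⌈ε⁻¹⌉₊ + Nat.clog 2 ⌈δ⁻¹⌉₊) →
      (1 - δ) * 2 ^ T ≤ (({r : Fin T → Bool |
        (1 - ε) * numPM G ≤ A ((adj G, ε, δ), List.ofFn r) ∧
        A ((adj G, ε, δ), List.ofFn r) ≤ (1 + ε) * numPM G}.ncard : ℕ) : ℚ)

end Vale.Agent.P308
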