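import Vale.Agent.P308.Basic
import Vale.Agent.P308.Defs

/-! The expansion of the hafnian, and the link with graphs (job Rec). -/

namespace Vale.Agent.P308

open Finset

variable {V : Type} [Fintype V] [DecidableEq V] {c : V → V → ℝ} {S : Finset V} {u w : V}

namespace RecAux

lemma swap_mem {X : V → V} (hX : X ∈ PMon S) (hu : X u = w) :
    (fun v => Equiv.swap u w (X v)) ∈ PMon ((S.erase u).erase w) := by
  rw [mem_PMon] at hX ⊢
  have hw : X w = u := by rw [← hu, (hX u).1]
  intro v
  by_cases h1 : v = u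
  · subst h1; simp [hu]
  by_cases h2 : v = w
  · subst h2; simp [hw]
  have h3 : X v ≠ u := fun e => h2 (by rw [← (hX v).1, e, hu])
  have h4 : X v ≠ w := fun e => h1 (by rw [← (hX v).1, e, hw])
  simp only [Equiv.swap_apply_of_ne_of_ne h3 h4, (hX v).1, Equiv.swap_apply_of_ne_of_ne h1 h2,
    (hX v).2, mem_erase, ne_eq, h1, h2, not_false_eq_true, true_and]

lemma swap_mem' {Y : V → V} (hu : u ∈ S) (hw : w ∈ S) (h : u ≠ w)
    (hY : Y ∈ PMon ((S.erase u).erase w)) :
    (fun v => Equiv.swap u w (Y v)) ∈ (PMon S).filter fun X => X u = w := by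
  rw [mem_filter, mem_PMon]
  rw [mem_PMon] at hY
  have e1 : Y u = u := by simpa using (hY u).2
  have e2 : Y w = w := by simpa using (hY w).2
  refine ⟨fun v => ?_, by simp [e1]⟩
  by_cases h1 : v = u
  · subst h1; simp [e1, e2, hu, h.symm]
  by_cases h2 : v = w
  · subst h2; simp [e1, e2, hw, h]
  have h3 : Y v ≠ u := fun e => h1 (by rw [← (hY v).1, e, e1])
  have h4 : Y v ≠ w := fun e => h2 (by rw [← (hY v).1, e, e2])
  simp only [Equiv.swap_apply_of_ne_of_ne h3 h4, (hY v).1, Equiv.swap_apply_of_ne_of_ne h1 h2,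
    (hY v).2, mem_erase, ne_eq, h1, h2, not_false_eq_true, true_and]

lemma W_swap (hc : Ker c) {X : V → V} (hX : X ∈ PMon S) (hu : X u = w) (h : u ≠ w) :
    W c X = c u w * W c fun v => Equiv.swap u w (X v) := by
  rw [mem_PMon] at hX
  have hw : X w = u := by rw [← hu, (hX u).1]
  rw [W, W, ← prod_mul_prod_compl {u, w}, ← prod_mul_prod_compl {u, w}
    (fun v => if Equiv.swap u w (X v) = v then 1 else √(c v (Equiv.swap u w (X v)))),
    prod_pair h, prod_pair h, hu, hw, if_neg h.symm, if_neg h, hc.symm w u,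
    Real.mul_self_sqrt (hc.nonneg _ _), Equiv.swap_apply_right, Equiv.swap_apply_left, if_pos rfl,
    if_pos rfl, one_mul, one_mul]
  congr 1
  refine prod_congr rfl fun v hv => ?_
  simp only [mem_compl, mem_insert, mem_singleton, not_or] at hv
  rw [Equiv.swap_apply_of_ne_of_ne (fun e => hv.2 (by rw [← (hX v).1, e, hu]))
    (fun e => hv.1 (by rw [← (hX v).1, e, hw]))]

omit [Fintype V] in
lemma card_erase2 (hu : u ∈ S) (hw : w ∈ S.erase u) :
    ((S.erase u).erase w).card + 2 = S.card := by
  have h1 := card_erase_add_one hu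
  have h2 := card_erase_add_one hw
  omega

open Classical in
lemma W_aK (G : SimpleGraph V) {X : V → V} (hX : X ∈ PMon univ) :
    W (aK G) X = if ∀ v, G.Adj v (X v) then 1 else 0 := by
  rw [W_PM _ hX]
  split_ifs with h
  · exact prod_eq_one fun v _ => by simp [aK, h v]
  · obtain ⟨v, hv⟩ := not_forall.1 h
    exact prod_eq_zero (mem_univ v) (by simp [aK, hv])

end RecAux

open RecAux

lemma fib (hc : Ker c) (hu : u ∈ S) (hw : w ∈ S) (h : u ≠ w) :
    ∑ X ∈ (PMon S).filter (fun X => X u = w), W c X = c u w * H c ((S.erase u).erase w) := by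
  rw [H, mul_sum]
  refine sum_nbij' (fun X v => Equiv.swap u w (X v)) (fun X v => Equiv.swap u w (X v))
    (fun X hX => swap_mem (mem_filter.1 hX).1 (mem_filter.1 hX).2)
    (fun Y hY => swap_mem' hu hw h hY) (fun X _ => by simp) (fun X _ => by simp)
    fun X hX => W_swap hc (mem_filter.1 hX).1 (mem_filter.1 hX).2 h

lemma H_rec (hc : Ker c) (hu : u ∈ S) :
    H c S = ∑ w ∈ S.erase u, c u w * H c ((S.erase u).erase w) := by
  rw [H, ← sum_fiberwise_of_maps_to (t := S.erase u) (g := fun X : V → V => X u)]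
  · exact sum_congr rfl fun w hw => fib hc hu (mem_of_mem_erase hw) (ne_of_mem_erase hw).symm
  · intro X hX
    rw [mem_PMon] at hX
    have h1 := (hX u).2.2 hu
    refine mem_erase.2 ⟨h1, (hX _).2.1 ?_⟩
    rw [(hX u).1]
    exact h1.symm

lemma H_empty (c : V → V → ℝ) : H c ∅ = 1 := by
  have : PMon (∅ : Finset V) = {id} := by
    ext X
    simp only [mem_PMon, mem_singleton, notMem_empty, iff_false, not_not]
    exact ⟨fun h => funext fun v => (h v).2, fun h v => by simp [h]⟩
  simp [H, this, W]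

lemma H_pos (hc : Ker c) (hp : Pos c) (h : Even S.card) : 0 < H c S := by
  induction hn : S.card using Nat.strong_induction_on generalizing S with
  | _ n ih =>
    rcases S.eq_empty_or_nonempty with rfl | ⟨u, hu⟩
    · rw [H_empty]; exact one_pos
    · rw [H_rec hc hu]
      obtain ⟨k, hk⟩ := h
      have h1 := card_erase_add_one hu
      refine sum_pos (fun w hw => mul_pos (hp _ _ (ne_of_mem_erase hw).symm) ?_)
        (card_pos.1 (by omega))
      have h2 := card_erase2 hu hw
      exact ih _ (by omega) ⟨k - 1, by omega⟩ rfl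

lemma H_odd (hc : Ker c) (h : Odd S.card) : H c S = 0 := by
  induction hn : S.card using Nat.strong_induction_on generalizing S with
  | _ n ih =>
    obtain ⟨k, hk⟩ := h
    obtain ⟨u, hu⟩ := card_pos.1 (show 0 < S.card by omega)
    rw [H_rec hc hu]
    refine sum_eq_zero fun w hw => ?_
    have h2 := card_erase2 hu hw
    rw [ih _ (by omega) ⟨k - 1, by omega⟩ rfl, mul_zero]

lemma H_const {B : ℝ} (hB : 0 ≤ B) {k : ℕ} (h : S.card = 2 * k) :
    H (fun _ _ : V => B) S = ∏ i ∈ range k, B * (2 * i + 1) := by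
  induction k generalizing S with
  | zero => rw [card_eq_zero.1 h, H_empty, prod_range_zero]
  | succ k ih =>
    obtain ⟨u, hu⟩ := card_pos.1 (show 0 < S.card by omega)
    have h1 := card_erase_add_one hu
    rw [H_rec ⟨fun _ _ => rfl, fun _ _ => hB⟩ hu, sum_congr rfl fun w hw => by
      rw [ih (S := (S.erase u).erase w) (by have := card_erase2 hu hw; omega)], sum_const,
      show (S.erase u).card = 2 * k + 1 by omega, prod_range_succ, nsmul_eq_mul]
    push_cast
    ring

lemma ker_aK (G : SimpleGraph V) : Ker (aK G) := by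
  refine ⟨fun u v => by rw [aK, aK, G.adj_comm u v], fun u v => ?_⟩
  unfold aK
  split_ifs <;> norm_num

lemma numPM_eq {n : ℕ} (G : SimpleGraph (Fin n)) : (numPM G : ℝ) = H (aK G) univ := by
  classical
  have e : H (aK G) univ =
      (((PMon univ).filter fun X : Fin n → Fin n => ∀ v, G.Adj v (X v)).card : ℝ) := by
    rw [H, ← sum_boole]
    exact sum_congr rfl fun X hX => by rw [W_aK G hX]; congr
  rw [e, numPM, ← Set.ncard_coe_finset]
  congr 1
  symm
  refine Set.ncard_congr (fun X hX =>
    { verts := Set.univ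
      Adj := fun u v => X u = v
      adj_sub := fun h => h ▸ (mem_filter.1 hX).2 _
      edge_vert := fun _ => trivial
      symm := ⟨fun u v h => h ▸ (mem_PM.1 (mem_filter.1 hX).1 u).1⟩ }) ?_ ?_ ?_
  · intro X hX
    exact SimpleGraph.Subgraph.isPerfectMatching_iff.2 fun v => ⟨X v, rfl, fun w h => Eq.symm h⟩
  · intro X Y hX hY h
    funext v
    have := congrArg (fun M : G.Subgraph => M.Adj v (Y v)) h
    simpa using this
  · intro M hM
    have hM' := SimpleGraph.Subgraph.isPerfectMatching_iff.1 hM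
    choose X hX hX' using hM'
    refine ⟨X, mem_filter.2 ⟨mem_PM.2 fun v => ⟨(hX' _ _ (hX v).symm).symm,
      (M.adj_sub (hX v)).ne'⟩, fun v => M.adj_sub (hX v)⟩, ?_⟩
    ext u v
    · simpa using hM.2 u
    · exact ⟨fun h => h ▸ hX u, fun h => (hX' _ _ h).symm⟩

lemma exists_pm (G : SimpleGraph V) (h : H (aK G) univ ≠ 0) :
    ∃ M ∈ PMon (univ : Finset V), ∀ v, aK G v (M v) = 1 := by
  obtain ⟨M, hM, h1⟩ := exists_ne_zero_of_sum_ne_zero h
  rw [W_aK G hM] at h1
  refine ⟨M, hM, fun v => ?_⟩
  have : ∀ v, G.Adj v (M v) := by simpa using h1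
  simp [aK, this v]

end Vale.Agent.P308
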