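import Vale.Agent.P308.Arc
import Vale.Agent.P308.Rec
import Vale.Agent.P308.GapA

/-! Gluing and closing up matchings (job ArcA). -/

namespace Vale.Agent.P308

open Finset

variable {V : Type} [Fintype V] [DecidableEq V] {c : V → V → ℝ} {S T P : Finset V}
  {B B' C X Y : V → V} {ρ : V}

namespace ArcAx

lemma inv (hB : B ∈ PMon S) (v : V) : B (B v) = v := (mem_PMon.1 hB v).1

lemma fixN (hB : B ∈ PMon S) {v : V} (hv : v ∉ S) : B v = v := by
  by_contra h
  exact hv ((mem_PMon.1 hB v).2.1 h)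

lemma neS (hB : B ∈ PMon S) {v : V} (hv : v ∈ S) : B v ≠ v := (mem_PMon.1 hB v).2.2 hv

lemma memS (hB : B ∈ PMon S) {v : V} (hv : v ∈ S) : B v ∈ S :=
  (mem_PMon.1 hB (B v)).2.1 (by rw [inv hB]; exact (neS hB hv).symm)

lemma cin (hC : C ∈ PMon T) (h : Disjoint S T) {v : V} (hv : v ∈ S) : (B ∘ C) v = B v := by
  rw [Function.comp_apply, fixN hC (disjoint_left.1 h hv)]

lemma cnot (hC : C ∈ PMon T) (h : Disjoint S T) {v : V} (hv : v ∉ S) : C v ∉ S := by
  by_cases hT : v ∈ T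
  · exact disjoint_right.1 h (memS hC hT)
  · rwa [fixN hC hT]

lemma cout (hB : B ∈ PMon S) (hC : C ∈ PMon T) (h : Disjoint S T) {v : V} (hv : v ∉ S) :
    (B ∘ C) v = C v := fixN hB (cnot hC h hv)

lemma nonfix (hi : ∀ v, B (B v) = v) (hs : ∀ v, B v ≠ v → v ∈ S) :
    B ∈ PMon (S.filter fun v => ¬ B v = v) :=
  mem_PMon.2 fun v => ⟨hi v, fun h => mem_filter.2 ⟨hs v h, h⟩, fun h => (mem_filter.1 h).2⟩

lemma fixmem (hi : ∀ v, B (B v) = v) (hX : X ∈ PMon S) (h1 : Sub B X) {v : V}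
    (hv : v ∈ S.filter fun v => B v = v) : X v ∈ S.filter fun v => B v = v := by
  obtain ⟨h2, h3⟩ := mem_filter.1 hv
  refine mem_filter.2 ⟨memS hX h2, ?_⟩
  by_contra hn
  have h4 := h1 _ hn
  rw [inv hX] at h4
  have h5 : B v = X v := by
    conv_lhs => rw [h4]
    exact hi _
  exact neS hX h2 (h5.symm.trans h3)

omit [Fintype V] [DecidableEq V] in
lemma ker1 : Ker (fun _ _ : V => (1 : ℝ)) := ⟨fun _ _ => rfl, fun _ _ => zero_le_one⟩

omit [Fintype V] [DecidableEq V] in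
lemma pos1 : Pos (fun _ _ : V => (1 : ℝ)) := fun _ _ _ => one_pos

lemma W_on (c : V → V → ℝ) (hB : B ∈ PMon S) : W c B = ∏ v ∈ S, √(c v (B v)) := by
  rw [W, ← prod_subset (subset_univ S) fun v _ hv => if_pos (fixN hB hv)]
  exact prod_congr rfl fun v hv => if_neg (neS hB hv)

end ArcAx

open ArcAx

omit [Fintype V] [DecidableEq V] in
lemma Sub.trans (h : Sub B X) (h' : Sub X Y) : Sub B Y := by
  intro v hv
  have h1 := h v hv
  rw [h' v (by rw [h1]; exact hv), h1]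

lemma comp_mem (hB : B ∈ PMon S) (hC : C ∈ PMon T) (h : Disjoint S T) :
    B ∘ C ∈ PMon (S ∪ T) := by
  refine mem_PMon.2 fun v => ?_
  by_cases hv : v ∈ S
  · rw [cin hC h hv, cin hC h (memS hB hv)]
    exact ⟨inv hB v, fun _ => mem_union_left _ hv, fun _ => neS hB hv⟩
  · rw [cout hB hC h hv, cout hB hC h (cnot hC h hv)]
    refine ⟨inv hC v, ((mem_PMon.1 hC v).2).trans ?_⟩
    simp [hv]

lemma comp_mem_univ (hB : B ∈ PMon S) (hC : C ∈ PMon Sᶜ) : B ∘ C ∈ PMon univ := by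
  have := comp_mem hB hC disjoint_compl_right
  rwa [union_compl] at this

lemma sub_comp_left (hB : B ∈ PMon S) (hC : C ∈ PMon T) (h : Disjoint S T) : Sub B (B ∘ C) := by
  intro v hv
  exact cin hC h ((mem_PMon.1 hB v).2.1 hv)

lemma sub_comp_right (hB : B ∈ PMon S) (hC : C ∈ PMon T) (h : Disjoint S T) : Sub C (B ∘ C) := by
  intro v hv
  exact cout hB hC h (disjoint_right.1 h ((mem_PMon.1 hC v).2.1 hv))

lemma W_comp (c : V → V → ℝ) (hB : B ∈ PMon S) (hC : C ∈ PMon T) (h : Disjoint S T) :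
    W c (B ∘ C) = W c B * W c C := by
  rw [W_on c (comp_mem hB hC h), W_on c hB, W_on c hC, prod_union h]
  congr 1
  · exact prod_congr rfl fun v hv => by rw [cin hC h hv]
  · exact prod_congr rfl fun v hv => by rw [cout hB hC h (disjoint_right.1 h hv)]

lemma comp_cancel (hB : B ∈ PMon S) (C : V → V) : B ∘ (B ∘ C) = C := by
  funext v
  exact inv hB _

/-- both factors are determined by the product -/
lemma comp_inj (hB : B ∈ PMon S) (hB' : B' ∈ PMon S) (hC : C ∈ PMon T) (hX : X ∈ PMon T)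
    (h : Disjoint S T) (e : B ∘ C = B' ∘ X) : B = B' ∧ C = X := by
  have e1 : B = B' := by
    funext v
    by_cases hv : v ∈ S
    · rw [← cin (B := B) hC h hv, e, cin hX h hv]
    · rw [fixN hB hv, fixN hB' hv]
  refine ⟨e1, ?_⟩
  rw [← comp_cancel hB C, e, e1, comp_cancel hB']

open Classical in
lemma sum_ext (hB : B ∈ PMon S) (F : (V → V) → ℝ) :
    ∑ M ∈ PMon univ, (if Sub B M then F M else 0) = ∑ C ∈ PMon Sᶜ, F (B ∘ C) := by
  rw [← sum_filter]
  refine sum_nbij' (fun M => B ∘ M) (fun C => B ∘ C) (fun M hM => ?_) (fun C hC => ?_)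
    (fun M _ => comp_cancel hB M) (fun C _ => comp_cancel hB C)
    fun M _ => by rw [comp_cancel hB]
  · obtain ⟨h1, h2⟩ := mem_filter.1 hM
    have a1 := mem_PM.1 h1
    have k1 : ∀ v ∈ S, (B ∘ M) v = v := fun v hv => by
      rw [Function.comp_apply, h2 v (neS hB hv), inv hB]
    have k2 : ∀ v, v ∉ S → M v ∉ S := fun v hv hm => by
      have := h2 _ (neS hB hm)
      rw [(a1 v).1] at this
      exact hv (this ▸ memS hB hm)
    have k3 : ∀ v, v ∉ S → (B ∘ M) v = M v := fun v hv => fixN hB (k2 v hv)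
    refine mem_PMon.2 fun v => ?_
    by_cases hv : v ∈ S
    · rw [k1 v hv, k1 v hv]
      simp [hv]
    · rw [k3 v hv, k3 _ (k2 v hv)]
      exact ⟨(a1 v).1, fun _ => mem_compl.2 hv, fun _ => (a1 v).2⟩
  · exact mem_filter.2 ⟨comp_mem_univ hB hC, sub_comp_left hB hC disjoint_compl_right⟩

lemma ArcAx.even (h : B ∈ PMon S) : Even S.card := by
  by_contra hn
  have h0 := H_odd (c := fun _ _ : V => (1 : ℝ)) ker1 (Nat.not_even_iff_odd.1 hn)
  have h1 : W (fun _ _ : V => (1 : ℝ)) B ≤ H (fun _ _ : V => (1 : ℝ)) S :=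
    single_le_sum (f := W fun _ _ : V => (1 : ℝ)) (fun X _ => W_nonneg _ X) h
  have h2 := W_pos (c := fun _ _ : V => (1 : ℝ)) pos1 B
  linarith

lemma fix_par (hi : ∀ v, B (B v) = v) (hs : ∀ v, B v ≠ v → v ∈ S) :
    Even (S.filter fun v => B v = v).card ↔ Even S.card := by
  have h1 := ArcAx.even (nonfix hi hs)
  have h2 := card_filter_add_card_filter_not (s := S) fun v => B v = v
  rw [← h2, Nat.even_add]
  simp only [h1, iff_true]

lemma PMon_even (h : B ∈ PMon S) : Even S.card := by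
  exact ArcAx.even h

lemma ext_ex (hi : ∀ v, B (B v) = v) (hs : ∀ v, B v ≠ v → v ∈ S) (he : Even S.card) :
    ∃ X ∈ PMon S, Sub B X := by
  have h1 := H_pos (c := fun _ _ : V => (1 : ℝ)) ker1 pos1 ((fix_par hi hs).2 he)
  obtain ⟨Y, hY, -⟩ := exists_ne_zero_of_sum_ne_zero h1.ne'
  have h2 := nonfix hi hs
  have hd : Disjoint (S.filter fun v => ¬ B v = v) (S.filter fun v => B v = v) :=
    (disjoint_filter_filter_not S S fun v => B v = v).symm
  have h3 := comp_mem h2 hY hd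
  rw [union_comm, filter_union_filter_not_eq] at h3
  exact ⟨B ∘ Y, h3, sub_comp_left h2 hY hd⟩

lemma ext_uniq (hi : ∀ v, B (B v) = v) (h2 : (S.filter fun v => B v = v).card ≤ 2)
    (hX : X ∈ PMon S) (hY : Y ∈ PMon S) (h1 : Sub B X) (h1' : Sub B Y) : X = Y := by
  funext v
  by_cases hB : B v = v
  · by_cases hv : v ∈ S
    · by_contra hn
      have m : v ∈ S.filter fun v => B v = v := mem_filter.2 ⟨hv, hB⟩
      have hs : ({v, X v, Y v} : Finset V) ⊆ S.filter fun v => B v = v := by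
        intro x hx
        simp only [mem_insert, mem_singleton] at hx
        rcases hx with rfl | rfl | rfl
        exacts [m, fixmem hi hX h1 m, fixmem hi hY h1' m]
      have h3 := card_le_card hs
      rw [card_eq_three.2 ⟨v, X v, Y v, (neS hX hv).symm, (neS hY hv).symm, hn, rfl⟩] at h3
      omega
    · rw [fixN hX hv, fixN hY hv]
  · rw [h1 v hB, h1' v hB]

omit [Fintype V] in
lemma sub_SP (P : Finset V) (ρ : V) : P ⊆ SP P ρ := by
  unfold SP
  split_ifs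
  exacts [subset_insert _ _, Subset.refl _]

omit [Fintype V] in
lemma SP_even (h : OK P ρ) : Even (SP P ρ).card := by
  unfold SP
  split_ifs with ho
  · rw [card_insert_of_notMem (h ho)]
    exact ho.add_one
  · exact Nat.not_odd_iff_even.1 ho

lemma H_compl_pos (hc : Ker c) (hp : Pos c) (he : Even (Fintype.card V)) (h : Even S.card) :
    0 < H c Sᶜ := by
  refine H_pos hc hp ?_
  rw [card_compl, Nat.even_sub (card_le_univ S)]
  simp [he, h]

/-- Jensen -/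
lemma mu_sq {f : (V → V) → ℝ} (hS : 0 < H c Sᶜ) (B B' : V → V) (d : ℝ) :
    H c Sᶜ * (mu c f S B - mu c f S B' - d) ^ 2 ≤
      ∑ C ∈ PMon Sᶜ, W c C * (f (B ∘ C) - f (B' ∘ C) - d) ^ 2 := by
  have e : mu c f S B - mu c f S B' - d =
      (∑ C ∈ PMon Sᶜ, W c C * (f (B ∘ C) - f (B' ∘ C) - d)) / H c Sᶜ := by
    simp only [mu, mul_sub, sum_sub_distrib, ← sum_mul]
    rw [show ∑ C ∈ PMon Sᶜ, W c C = H c Sᶜ from rfl]
    field_simp
  have h1 := GA.dev_sum (PMon Sᶜ) (W c) (fun C => f (B ∘ C) - f (B' ∘ C) - d) hS.ne'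
  have h2 : 0 ≤ ∑ x ∈ PMon Sᶜ, W c x * (f (B ∘ x) - f (B' ∘ x) - d -
      (∑ x ∈ PMon Sᶜ, W c x * (f (B ∘ x) - f (B' ∘ x) - d)) / ∑ x ∈ PMon Sᶜ, W c x) ^ 2 :=
    sum_nonneg fun x _ => mul_nonneg (W_nonneg c x) (sq_nonneg _)
  rw [h1, show ∑ C ∈ PMon Sᶜ, W c C = H c Sᶜ from rfl] at h2
  rw [e]
  generalize ∑ C ∈ PMon Sᶜ, W c C * (f (B ∘ C) - f (B' ∘ C) - d) = A at h2 ⊢
  have e2 : H c Sᶜ * (A / H c Sᶜ) ^ 2 = A ^ 2 / H c Sᶜ := by field_simp
  rw [e2]
  linarith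

lemma ga_nonneg (c : V → V → ℝ) {τ : V → ℝ} (h0 : ∀ v, 0 ≤ τ v) (S : Finset V) (B : V → V) :
    0 ≤ ga c τ S B := by
  refine prod_nonneg fun v _ => ?_
  split_ifs
  exacts [h0 v, Real.sqrt_nonneg _]

lemma ga_eq_W (c : V → V → ℝ) (τ : V → ℝ) (hB : B ∈ PMon S) : ga c τ S B = W c B := by
  rw [W_on c hB]
  exact prod_congr rfl fun v hv => if_neg (neS hB hv)

lemma ga_insert (c : V → V → ℝ) (τ : V → ℝ) (h : ρ ∉ S) (hB : B ρ = ρ) :
    ga c τ (insert ρ S) B = τ ρ * ga c τ S B := by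
  rw [ga, prod_insert h, if_pos hB, ga]

/-- closing up at most four vertices costs at most `L ^ 2` -/
lemma ga_le (hc : Ker c) {τ : V → ℝ} {L : ℝ} (hL : 1 ≤ L) (h0 : ∀ v, 0 ≤ τ v)
    (hlo : ∀ a b, a ≠ b → τ a * τ b ≤ L * c a b) (hi : ∀ v, B (B v) = v)
    (h4 : (S.filter fun v => B v = v).card ≤ 4) (hX : X ∈ PMon S) (h1 : Sub B X) :
    ga c τ S B ≤ L ^ 2 * W c X := by
  set F := S.filter fun v => B v = v with hF
  have e1 : ga c τ S B = (∏ v ∈ F, τ v) * ∏ v ∈ S.filter (fun v => ¬ B v = v), √(c v (X v)) := by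
    rw [ga, prod_ite]
    congr 1
    exact prod_congr rfl fun v hv => by rw [h1 v (mem_filter.1 hv).2]
  have e2 : W c X = (∏ v ∈ F, √(c v (X v))) *
      ∏ v ∈ S.filter (fun v => ¬ B v = v), √(c v (X v)) := by
    rw [W_on c hX, prod_filter_mul_prod_filter_not]
  have e3 : ∏ v ∈ F, τ (X v) = ∏ v ∈ F, τ v :=
    prod_nbij' X X (fun v hv => fixmem hi hX h1 hv) (fun v hv => fixmem hi hX h1 hv)
      (fun v _ => inv hX v) (fun v _ => inv hX v) fun v _ => rfl
  have p1 : 0 ≤ ∏ v ∈ F, τ v := prod_nonneg fun v _ => h0 v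
  have p2 : 0 ≤ ∏ v ∈ F, √(c v (X v)) := prod_nonneg fun v _ => Real.sqrt_nonneg _
  have k : (∏ v ∈ F, τ v) ^ 2 ≤ (L ^ 2 * ∏ v ∈ F, √(c v (X v))) ^ 2 := by
    calc (∏ v ∈ F, τ v) ^ 2 = ∏ v ∈ F, τ v * τ (X v) := by rw [prod_mul_distrib, e3, sq]
      _ ≤ ∏ v ∈ F, L * √(c v (X v)) ^ 2 := by
        refine prod_le_prod (fun v _ => mul_nonneg (h0 _) (h0 _)) fun v hv => ?_
        rw [Real.sq_sqrt (hc.nonneg _ _)]
        exact hlo _ _ (neS hX (mem_filter.1 hv).1).symm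
      _ = L ^ F.card * (∏ v ∈ F, √(c v (X v))) ^ 2 := by
        rw [prod_mul_distrib, prod_const, prod_pow]
      _ ≤ L ^ 4 * (∏ v ∈ F, √(c v (X v))) ^ 2 :=
        mul_le_mul_of_nonneg_right (pow_le_pow_right₀ hL h4) (sq_nonneg _)
      _ = _ := by ring
  have k2 := (pow_le_pow_iff_left₀ p1 (mul_nonneg (sq_nonneg L) p2) two_ne_zero).1 k
  rw [e1, e2, ← mul_assoc]
  exact mul_le_mul_of_nonneg_right k2 (prod_nonneg fun v _ => Real.sqrt_nonneg _)

/-- two perfect matchings that differ at at most four vertices differ by a transposition -/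
lemma one_cj (hX : X ∈ PMon univ) (hY : Y ∈ PMon univ) [Nonempty V]
    (h : (univ.filter fun v => X v ≠ Y v).card ≤ 4) : ∃ p q, cj p q X = Y := by
  obtain ⟨p, q, h1 | h1⟩ := GA.one hX hY
  · refine ⟨p, q, ?_⟩
    by_contra hn
    obtain ⟨u, hu⟩ := Function.ne_iff.1 hn
    have h3 := GA.three (cj_mem hX p q) hY hu
    have h4 : (GA.df X Y).card ≤ 4 := h
    omega
  · exact ⟨p, q, h1⟩

end Vale.Agent.P308
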