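import Vale.Agent.P308.Basic

/-! The dynamics that unwinds an alternating cycle. -/

namespace Vale.Agent.P308

open Finset

variable {V : Type} [Fintype V] [DecidableEq V]

namespace PA

abbrev Tr (V : Type) : Type := (V → V) × (V → V) × V

def F (ρ : V) (s : Tr V) : Tr V :=
  (cj ρ (s.2.1 (s.1 ρ)) s.1, cj s.2.2 (s.2.1 (s.1 ρ)) s.2.1, s.2.1 (s.1 ρ))

def Gi (ρ : V) (s : Tr V) : Tr V :=
  (cj ρ s.2.2 s.1, cj (s.2.1 (cj ρ s.2.2 s.1 ρ)) s.2.2 s.2.1, s.2.1 (cj ρ s.2.2 s.1 ρ))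

omit [Fintype V] in
lemma Gi_F {ρ : V} {s : Tr V} (h1 : s.1 ρ ≠ s.2.2) (h2 : s.1 ρ ≠ s.2.1 (s.1 ρ)) :
    Gi ρ (F ρ s) = s := by
  obtain ⟨X, Y, a⟩ := s
  have e : cj a (Y (X ρ)) Y (X ρ) = a := by
    simp only [cj]
    rw [Equiv.swap_apply_of_ne_of_ne h1 h2, Equiv.swap_apply_right]
  simp only [Gi, F, cj_cj, e]

def st (M N : V → V) (ρ : V) (i : ℕ) : Tr V := (F ρ)^[i] (M, N, N (M ρ))

omit [Fintype V] in
lemma st_succ (M N : V → V) (ρ : V) (i : ℕ) : st M N ρ (i + 1) = F ρ (st M N ρ i) :=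
  Function.iterate_succ_apply' _ _ _

def Valid (M N : V → V) (ρ : V) (i : ℕ) : Prop := ∀ j < i, (st M N ρ j).1 ρ ≠ N ρ

variable {c : V → V → ℝ} {U : Finset V} {X0 M N X Y : V → V} {ρ a u v : V}

lemma inv_of (h : X ∈ Cl U X0) (v : V) : X (X v) = v := (mem_PM.1 (mem_Cl.1 h).1 v).1
lemma ne_of (h : X ∈ Cl U X0) (v : V) : X v ≠ v := (mem_PM.1 (mem_Cl.1 h).1 v).2
lemma flip (h : X ∈ Cl U X0) (e : X u = v) : X v = u := by rw [← e, inv_of h]
lemma inj_of (h : X ∈ Cl U X0) (e : X u = X v) : u = v := by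
  rw [← inv_of h u, e, inv_of h]

omit [Fintype V] [DecidableEq V] in
lemma orbM (h : v ∈ Orb M N ρ) : M v ∈ Orb M N ρ := Relation.ReflTransGen.tail h (Or.inl rfl)
omit [Fintype V] [DecidableEq V] in
lemma orbN (h : v ∈ Orb M N ρ) : N v ∈ Orb M N ρ := Relation.ReflTransGen.tail h (Or.inr rfl)
omit [Fintype V] [DecidableEq V] in
lemma orb_self : ρ ∈ Orb M N ρ := Relation.ReflTransGen.refl

lemma orbU (hM : M ∈ Cl U X0) (hN : N ∈ Cl U X0) (h0 : M ρ ≠ N ρ) (h : v ∈ Orb M N ρ) :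
    v ∈ U := by
  refine mem_of_ne hM hN ?_
  induction h with
  | refl => exact h0
  | tail _ h ih =>
    rcases h with rfl | rfl
    · rw [inv_of hM]; exact fun e => ih (flip hN e.symm).symm
    · rw [inv_of hN]; exact fun e => ih (flip hM e)

lemma orb_eq (hM : M ∈ Cl U X0) (hN : N ∈ Cl U X0) {k : V} (h : ρ ∈ Orb M N k) :
    Orb M N k = Orb M N ρ := by
  have hs : k ∈ Orb M N ρ := by
    induction h with
    | refl => exact orb_self
    | tail _ h ih =>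
      refine Relation.ReflTransGen.head ?_ ih
      rcases h with rfl | rfl
      · exact Or.inl (inv_of hM _).symm
      · exact Or.inr (inv_of hN _).symm
  ext v
  exact ⟨fun hv => Relation.ReflTransGen.trans hs hv, fun hv => Relation.ReflTransGen.trans h hv⟩

structure Inv (c : V → V → ℝ) (U : Finset V) (X0 M N : V → V) (ρ : V) (i : ℕ) (X Y : V → V)
    (a : V) (T : Finset V) : Prop where
  hX : X ∈ Cl U X0
  hY : Y ∈ Cl U X0
  card : T.card = 2 * i + 2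
  hρ : ρ ∈ T
  hb : X ρ ∈ T
  hM : ∀ v ∈ T, M v ∈ T
  orb : ∀ v ∈ T, v ∈ Orb M N ρ
  xin : ∀ v ∈ T, v ≠ ρ → v ≠ X ρ → X v = N v
  xout : ∀ v, v ∉ T → X v = M v
  yout : ∀ v, (v ∉ T ∨ v = ρ ∨ v = X ρ) → Y v = N v
  ba : X ρ ≠ a
  cas : (i = 0 ∧ X = M ∧ Y = N ∧ a = N (M ρ)) ∨ (i ≠ 0 ∧ M (X ρ) = a ∧ Y (M ρ) = a ∧ M ρ ≠ X ρ ∧
    W c X * W c Y * (c ρ (M ρ) * c (X ρ) a) = W c M * W c N * (c ρ (X ρ) * c (M ρ) a))

lemma inv_zero (hM : M ∈ Cl U X0) (hN : N ∈ Cl U X0) :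
    Inv c U X0 M N ρ 0 M N (N (M ρ)) {ρ, M ρ} where
  hX := hM
  hY := hN
  card := card_pair (ne_of hM ρ).symm
  hρ := by simp
  hb := by simp
  hM := by simp [inv_of hM]
  orb := by simp [orb_self, orbM]
  xin := by simp +contextual
  xout := fun _ _ => rfl
  yout := fun _ _ => rfl
  ba := (ne_of hN _).symm
  cas := Or.inl ⟨rfl, rfl, rfl, rfl⟩

variable {i : ℕ} {T : Finset V}

lemma Inv.notMem (h : Inv c U X0 M N ρ i X Y a T) (hN : N ∈ Cl U X0) (hb : X ρ ≠ N ρ) :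
    N (X ρ) ∉ T ∧ N ρ ∉ T ∧ ρ ≠ N (X ρ) := by
  have h1 : ρ ≠ N (X ρ) := fun e => hb (flip hN e.symm).symm
  refine ⟨fun hm => h1 (inj_of h.hX ?_), fun hm => hb ?_, h1⟩
  · rw [h.xin _ hm h1.symm (ne_of hN _), inv_of hN]
  · have := h.xin _ hm (ne_of hN _) hb.symm
    rw [inv_of hN] at this
    exact flip h.hX this

theorem Inv.step (h : Inv c U X0 M N ρ i X Y a T) (hc : Ker c) (hp : Pos c) (hM : M ∈ Cl U X0)
    (hN : N ∈ Cl U X0) (h0 : M ρ ≠ N ρ) (hb : X ρ ≠ N ρ) :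
    Inv c U X0 M N ρ (i + 1) (cj ρ (Y (X ρ)) X) (cj a (Y (X ρ)) Y) (Y (X ρ))
      (insert (N (X ρ)) (insert (M (N (X ρ))) T)) ∧
    cj ρ (Y (X ρ)) X ρ = M (N (X ρ)) ∧
    ∀ v, v ≠ ρ → v ≠ X ρ → v ≠ N (X ρ) → v ≠ M (N (X ρ)) → cj ρ (Y (X ρ)) X v = X v := by
  have hYb : Y (X ρ) = N (X ρ) := h.yout _ (Or.inr (Or.inr rfl))
  obtain ⟨haT, -, hρa⟩ := h.notMem hN hb
  rw [hYb]
  set b := X ρ with hbd
  set a' := N b with ha'
  set b' := M a' with hb'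
  have hXa : X a' = b' := h.xout _ haT
  have hbT : b' ∉ T := fun hm => haT (by have := h.hM _ hm; rwa [hb', inv_of hM] at this)
  have hba : b ≠ a' := (ne_of hN _).symm
  have hab : b' ≠ a' := ne_of hM _
  have oa : a' ∈ Orb M N ρ := orbN (h.orb _ h.hb)
  have ob : b' ∈ Orb M N ρ := orbM oa
  have U_ := fun v hv => orbU (v := v) hM hN h0 hv
  obtain ⟨v1, v2, v3, v4⟩ := cj_vals (mem_Cl.1 h.hX).1 hρa hba
  rw [hXa] at v1 v4
  rw [← hbd] at v2 v3
  have wX := W_cj hc (mem_Cl.1 h.hX).1 hρa hba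
  rw [hXa, ← hbd] at wX
  have same : ∀ v, v ≠ ρ → v ≠ b → v ≠ a' → v ≠ b' → cj ρ a' X v = X v := fun v h1 h2 h3 h4 =>
    cj_of_ne h1 h3 (fun e => h2 (flip h.hX e).symm) fun e => h4 (hXa ▸ (flip h.hX e).symm)
  have hYa' : Y a' = b := flip h.hY hYb
  refine ⟨?_, v1, same⟩
  have hY' : cj a a' Y ∈ Cl U X0 ∧ (∀ v, (v ∉ insert a' (insert b' T) ∨ v = ρ ∨ v = b') →
      cj a a' Y v = N v) ∧ cj a a' Y (M ρ) = a' ∧
      W c (cj ρ a' X) * W c (cj a a' Y) * (c ρ (M ρ) * c b' a') =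
        W c M * W c N * (c ρ b' * c (M ρ) a') := by
    rcases h.cas with ⟨-, e1, e2, e3⟩ | ⟨-, e1, e2, e3, e4⟩
    · have e4 : a = a' := by rw [e3, ha', hbd, e1]
      have e5 : b = M ρ := by rw [hbd, e1]
      rw [e4, cj_self, e2]
      refine ⟨hN, fun _ _ => rfl, by rw [← e5], ?_⟩
      rw [← e5, hc.symm b' a', hc.symm b a', ← e1]
      linear_combination W c N * wX
    · have aT : a ∈ T := e1 ▸ h.hM _ h.hb
      have xT : M ρ ∈ T := h.hM _ h.hρ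
      have hYa : Y a = M ρ := flip h.hY e2
      have n1 : a ≠ a' := fun e => haT (e ▸ aT)
      have n2 : Y a ≠ a' := fun e => haT (e ▸ hYa ▸ xT)
      obtain ⟨-, -, u3, -⟩ := cj_vals (mem_Cl.1 h.hY).1 n1 n2
      have wY := W_cj hc (mem_Cl.1 h.hY).1 n1 n2
      rw [hYa, hYa'] at wY
      rw [hYa] at u3
      have ρa : ρ ≠ a := fun e => e3 (flip hM (e1.trans e.symm))
      refine ⟨cj_mem_Cl h.hY (U_ _ (h.orb _ aT)) (U_ _ oa) (hYa ▸ U_ _ (h.orb _ xT))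
        (hYa' ▸ U_ _ (h.orb _ h.hb)), fun v hv => ?_, u3, ?_⟩
      · have k : (v ∉ T ∧ v ≠ a') ∨ v = ρ := by
          rcases hv with hv | hv | hv
          · simp only [mem_insert, not_or] at hv
            exact Or.inl ⟨hv.2.2, hv.1⟩
          · exact Or.inr hv
          · exact Or.inl ⟨hv ▸ hbT, hv ▸ hab⟩
        have k2 : v ≠ a ∧ v ≠ a' ∧ v ≠ M ρ ∧ v ≠ b := by
          rcases k with ⟨k, k'⟩ | rfl
          · exact ⟨fun e => k (e ▸ aT), k', fun e => k (e ▸ xT), fun e => k (e ▸ h.hb)⟩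
          · exact ⟨ρa, hρa, (ne_of hM _).symm, (ne_of h.hX _).symm⟩
        rw [cj_of_ne k2.1 k2.2.1 (fun e => k2.2.2.1 (hYa ▸ (flip h.hY e).symm))
          fun e => k2.2.2.2 (hYa' ▸ (flip h.hY e).symm)]
        exact h.yout v (k.elim (fun k => Or.inl k.1) fun k => Or.inr (Or.inl k))
      · have p1 : 0 < c ρ b := hp _ _ (ne_of h.hX _).symm
        have p2 : 0 < c (M ρ) a := hp _ _ (e2 ▸ (ne_of h.hY _).symm)
        have p3 : 0 < c a' b := hp _ _ hba.symm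
        rw [hc.symm a (M ρ), hc.symm a b, hc.symm a' (M ρ)] at wY
        rw [hc.symm b' a']
        refine mul_right_cancel₀ (mul_pos (mul_pos p1 p2) p3).ne' ?_
        linear_combination (W c (cj a a' Y) * c ρ (M ρ) * c (M ρ) a * c a' b) * wX +
          (W c X * c a' b * c ρ b' * c ρ (M ρ)) * wY + (c a' b * c ρ b' * c (M ρ) a') * e4
  obtain ⟨y1, y2, y3, y4⟩ := hY'
  refine ⟨cj_mem_Cl h.hX (U_ _ orb_self) (U_ _ oa) (U_ _ (h.orb _ h.hb)) (hXa ▸ U_ _ ob), y1, ?_,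
    by simp [h.hρ], by simp [v1], ?_, ?_, ?_, ?_, by rw [v1]; exact y2, by rw [v1]; exact hab,
    Or.inr ⟨by omega, by rw [v1, hb', inv_of hM], y3, ?_, by rw [v1]; exact y4⟩⟩
  · rw [card_insert_of_notMem (by simp [hab.symm, haT]), card_insert_of_notMem hbT, h.card]; ring
  · intro v hv
    simp only [mem_insert] at hv ⊢
    rcases hv with rfl | rfl | hv
    · exact Or.inr (Or.inl rfl)
    · exact Or.inl (inv_of hM _)
    · exact Or.inr (Or.inr (h.hM v hv))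
  · intro v hv
    simp only [mem_insert] at hv
    rcases hv with rfl | rfl | hv
    exacts [oa, ob, h.orb v hv]
  · intro v hv h1 h2
    rw [v1] at h2
    simp only [mem_insert] at hv
    rcases hv with rfl | rfl | hv
    · rw [v2, ha', inv_of hN]
    · exact absurd rfl h2
    · by_cases e : v = b
      · rw [e, v3]
      · rw [same v h1 e (fun e => haT (e ▸ hv)) h2, h.xin v hv h1 e]
  · intro v hv
    simp only [mem_insert, not_or] at hv
    rw [same v (fun e => hv.2.2 (e ▸ h.hρ)) (fun e => hv.2.2 (e ▸ h.hb)) hv.1 hv.2.1,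
      h.xout v hv.2.2]
  · rw [v1]
    exact fun e => hbT (e ▸ h.hM _ h.hρ)

theorem inv_st (hc : Ker c) (hp : Pos c) (hM : M ∈ Cl U X0) (hN : N ∈ Cl U X0) (i : ℕ)
    (hv : Valid M N ρ i) : ∃ T, Inv c U X0 M N ρ i (st M N ρ i).1 (st M N ρ i).2.1
      (st M N ρ i).2.2 T := by
  induction i with
  | zero => exact ⟨_, inv_zero hM hN⟩
  | succ i ih =>
    obtain ⟨T, h⟩ := ih fun j hj => hv j (by omega)
    rw [st_succ]
    exact ⟨_, (h.step hc hp hM hN (hv 0 (by omega)) (hv i (by omega))).1⟩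

theorem Gi_st (hc : Ker c) (hp : Pos c) (hM : M ∈ Cl U X0) (hN : N ∈ Cl U X0) (i : ℕ)
    (hv : Valid M N ρ i) : (Gi ρ)^[i] (st M N ρ i) = (M, N, N (M ρ)) := by
  induction i with
  | zero => rfl
  | succ i ih =>
    have hv' : Valid M N ρ i := fun j hj => hv j (by omega)
    obtain ⟨T, h⟩ := inv_st hc hp hM hN i hv'
    rw [Function.iterate_succ_apply, st_succ, Gi_F h.ba (ne_of h.hY _).symm, ih hv']

theorem Inv.final (h : Inv c U X0 M N ρ i X Y a T) (hM : M ∈ Cl U X0) (hN : N ∈ Cl U X0)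
    (hb : X ρ = N ρ) :
    X = mix (Orb M N ρ) M N := by
  have h1 : ∀ v ∈ T, X v = N v := by
    intro v hv
    by_cases e1 : v = ρ
    · rw [e1, hb]
    by_cases e2 : v = X ρ
    · rw [e2, inv_of h.hX, hb, inv_of hN]
    exact h.xin v hv e1 e2
  have h2 : ∀ v ∈ T, N v ∈ T := by
    intro v hv
    by_contra hn
    have e3 : X (N v) = v := by rw [← h1 v hv, inv_of h.hX]
    exact hn (flip hM ((h.xout _ hn).symm.trans e3) ▸ h.hM v hv)
  have h3 : ∀ v ∈ Orb M N ρ, v ∈ T := by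
    intro v hv
    induction hv with
    | refl => exact h.hρ
    | tail _ e ih =>
      rcases e with rfl | rfl
      exacts [h.hM _ ih, h2 _ ih]
  funext v
  unfold mix
  split_ifs with hv
  · exact h1 v (h3 v hv)
  · exact h.xout v fun e => hv (h.orb v e)

end PA

end Vale.Agent.P308
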