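import Vale.Agent.P308.ArcA
import Vale.Agent.P308.PathA

/-! Basic facts on arcs and pairs of arcs (job ArcB). -/

namespace Vale.Agent.P308

open Finset

variable {V : Type} [Fintype V] [DecidableEq V] {c : V → V → ℝ} {o o1 o2 : Ob V}
  {X Y : V → V} {ρ : V} {h : Finset V → V} {f : (V → V) → ℝ}

namespace ArcBx

omit [Fintype V] [DecidableEq V] in
lemma fixN (ho : Arc o) (a : Bool) {v : V} (hv : v ∉ o.P) : o.A a v = v := by
  by_contra hn
  exact hv (ho.supp a v hn)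

omit [Fintype V] [DecidableEq V] in
lemma memP (ho : Arc o) (a : Bool) {v : V} (hv : v ∈ o.P) : o.A a v ∈ o.P := by
  by_cases hn : o.A a v = v
  · rwa [hn]
  · exact ho.supp a _ (by rw [ho.inv]; exact fun e => hn e.symm)

omit [Fintype V] [DecidableEq V] in
lemma cin (h2 : Two o1 o2) (a b : Bool) {v : V} (hv : v ∈ o1.P) :
    (o1.A a ∘ o2.A b) v = o1.A a v := by
  rw [Function.comp_apply, fixN h2.a2 b (disjoint_left.1 h2.dj hv)]

omit [Fintype V] [DecidableEq V] in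
lemma cnot (h2 : Two o1 o2) (b : Bool) {v : V} (hv : v ∉ o1.P) : o2.A b v ∉ o1.P := by
  by_cases hT : v ∈ o2.P
  · exact disjoint_right.1 h2.dj (memP h2.a2 b hT)
  · rwa [fixN h2.a2 b hT]

omit [Fintype V] [DecidableEq V] in
lemma cout (h2 : Two o1 o2) (a b : Bool) {v : V} (hv : v ∉ o1.P) :
    (o1.A a ∘ o2.A b) v = o2.A b v := fixN h2.a1 a (cnot h2 b hv)

omit [Fintype V] in
lemma fix_sub (ho : Arc o) (a : Bool) : (o.P.filter fun v => o.A a v = v) ⊆ {o.s, o.t} := by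
  intro v hv
  obtain ⟨h1, h2⟩ := mem_filter.1 hv
  simpa using ho.fix a v h1 h2

lemma one (ho : Arc o) (hodd : Odd o.P.card) (a : Bool) :
    ∃ e ∈ o.P, o.A a e = e ∧ ∀ v ∈ o.P, o.A a v = v → v = e := by
  have h1 := (card_le_card (fix_sub ho a)).trans card_le_two
  have h2 : ¬ Even (o.P.filter fun v => o.A a v = v).card := fun h =>
    Nat.not_even_iff_odd.2 hodd ((fix_par (ho.inv a) (ho.supp a)).1 h)
  have h3 : (o.P.filter fun v => o.A a v = v).card = 1 := by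
    rw [Nat.even_iff] at h2
    omega
  obtain ⟨e, he⟩ := card_eq_one.1 h3
  have h4 : e ∈ o.P.filter fun v => o.A a v = v := he ▸ mem_singleton_self e
  refine ⟨e, (mem_filter.1 h4).1, (mem_filter.1 h4).2, fun v hv hf => ?_⟩
  have h5 : v ∈ o.P.filter fun v => o.A a v = v := mem_filter.2 ⟨hv, hf⟩
  rwa [he, mem_singleton] at h5

lemma att_ex (ho : Arc o) (hρ : OK o.P ρ) (a : Bool) : ∃ X ∈ PMon (SP o.P ρ), Sub (o.A a) X :=
  ext_ex (ho.inv a) (fun v hv => sub_SP _ _ (ho.supp a v hv)) (SP_even hρ)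

omit [Fintype V] [DecidableEq V] in
lemma key {o o' : Ob V} (ho : Arc o) (ho' : Arc o') (hs : o.s = o'.s)
    (hA : ∀ b, ∀ v ∈ o.P, v ∈ o'.P → o.A b v = o'.A b v) : o.P ⊆ o'.P := by
  intro v hv
  have : ∀ u ∈ Orb (o.A false) (o.A true) o.s, u ∈ o.P ∧ u ∈ o'.P := by
    intro u hu
    induction hu with
    | refl => exact ⟨ho.hs, hs ▸ ho'.hs⟩
    | tail _ e ih =>
      rcases e with rfl | rfl
      · exact ⟨memP ho _ ih.1, hA _ _ ih.1 ih.2 ▸ memP ho' _ ih.2⟩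
      · exact ⟨memP ho _ ih.1, hA _ _ ih.1 ih.2 ▸ memP ho' _ ih.2⟩
  exact (this v (ho.conn v hv)).2

end ArcBx

open ArcBx

lemma Arc.fix_two (ho : Arc o) (hρ : OK o.P ρ) (a : Bool) :
    ((SP o.P ρ).filter fun v => o.A a v = v).card ≤ 2 := by
  unfold SP
  split_ifs with hodd
  · obtain ⟨e, -, -, he⟩ := ArcBx.one ho hodd a
    refine le_trans (card_le_card (t := {ρ, e}) fun v hv => ?_) card_le_two
    obtain ⟨h1, h2⟩ := mem_filter.1 hv
    rcases mem_insert.1 h1 with h1 | h1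
    · simp [h1]
    · simp [he v h1 h2]
  · exact (card_le_card (fix_sub ho a)).trans card_le_two

lemma Arc.fix_one (ho : Arc o) (hodd : Odd o.P.card) (a : Bool) :
    ∃ e ∈ o.P, o.A a e = e ∧ ∀ v ∈ o.P, o.A a v = v → v = e := by
  exact ArcBx.one ho hodd a

lemma att_mem (ho : Arc o) (hρ : OK o.P ρ) (a : Bool) : att o a ρ ∈ PMon (SP o.P ρ) := by
  rw [att, ext, dif_pos (att_ex ho hρ a)]
  exact (att_ex ho hρ a).choose_spec.1

lemma sub_att (ho : Arc o) (hρ : OK o.P ρ) (a : Bool) : Sub (o.A a) (att o a ρ) := by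
  rw [att, ext, dif_pos (att_ex ho hρ a)]
  exact (att_ex ho hρ a).choose_spec.2

lemma att_eq (ho : Arc o) (hρ : OK o.P ρ) {a : Bool} (hX : X ∈ PMon (SP o.P ρ))
    (h1 : Sub (o.A a) X) : att o a ρ = X := by
  exact ext_uniq (ho.inv a) (ho.fix_two hρ a) (att_mem ho hρ a) hX (sub_att ho hρ a) h1

lemma att_single (ho : Arc o) (h1 : o.P.card = 1) (ρ : V) : att o true ρ = att o false ρ := by
  have k : ∀ a v, o.A a v = v := fun a v => by
    by_contra hn
    have m1 := ho.supp a v hn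
    exact hn (card_le_one.1 h1.le _ (memP ho a m1) _ m1)
  have e : o.A true = o.A false := funext fun v => by rw [k, k]
  rw [att, att, e]

lemma Db_single (ho : Arc o) (h1 : o.P.card = 1) : Db c f h o = 0 := by
  rw [Db, att_single ho h1, sub_self]

lemma dev_single (ho : Arc o) (h1 : o.P.card = 1) (ρ : V) (C : V → V) : dev c f h o ρ C = 0 := by
  rw [dev, att_single ho h1, Db_single ho h1]
  simp

lemma Om_nonneg (c : V → V → ℝ) (h : Finset V → V) (o : Ob V) (ρ : V) : 0 ≤ Om c h o ρ := by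
  exact mul_nonneg (le_min (mul_nonneg (W_nonneg _ _) (W_nonneg _ _))
    (mul_nonneg (W_nonneg _ _) (W_nonneg _ _))) (H_nonneg _ _)

open Classical in
/-- an arc is determined by two maps that contain its colours and six vertices -/
lemma card_arc (a : Bool) (X Y : V → V) :
    (univ.filter fun o : Ob V => Arc o ∧ Sub (o.A a) X ∧ Sub (o.A (!a)) Y).card ≤
      Fintype.card V ^ 6 := by
  have hc : Fintype.card V ^ 6 = (univ : Finset (V × V × V × V × V × V)).card := by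
    simp only [card_univ, Fintype.card_prod]
    ring
  rw [hc]
  refine card_le_card_of_injOn
    (fun o : Ob V => (o.s, o.t, o.A a o.s, o.A a o.t, o.A (!a) o.s, o.A (!a) o.t))
    (fun _ _ => mem_coe.2 (mem_univ _)) fun o ho o' ho' e => ?_
  obtain ⟨h1, h2, h3⟩ := (mem_filter.1 (mem_coe.1 ho)).2
  obtain ⟨h1', h2', h3'⟩ := (mem_filter.1 (mem_coe.1 ho')).2
  simp only [Prod.mk.injEq] at e
  obtain ⟨e1, e2, e3, e4, e5, e6⟩ := e
  have k0 : ∀ (b : Bool) (Z : V → V), Sub (o.A b) Z → Sub (o'.A b) Z →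
      o.A b o.s = o'.A b o'.s → o.A b o.t = o'.A b o'.t →
      ∀ v ∈ o.P, v ∈ o'.P → o.A b v = o'.A b v := by
    intro b Z s1 s2 f1 f2 v hv hv'
    by_cases hs : v = o.s
    · rw [hs, f1, e1]
    by_cases ht : v = o.t
    · rw [ht, f2, e2]
    have n1 : o.A b v ≠ v := fun e => (h1.fix b v hv e).elim hs ht
    have n2 : o'.A b v ≠ v := fun e => (h1'.fix b v hv' e).elim (e1 ▸ hs) (e2 ▸ ht)
    rw [← s1 v n1, ← s2 v n2]
  have hA : ∀ b, ∀ v ∈ o.P, v ∈ o'.P → o.A b v = o'.A b v := by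
    intro b
    by_cases hb : b = a
    · rw [hb]
      exact k0 a X h2 h2' e3 e4
    · rw [Bool.eq_not_of_ne hb]
      exact k0 (!a) Y h3 h3' e5 e6
  have hP : o.P = o'.P :=
    Subset.antisymm (key h1 h1' e1 hA) (key h1' h1 e1.symm fun b v hv hv' => (hA b v hv' hv).symm)
  have hAA : o.A = o'.A := by
    funext b v
    by_cases hv : v ∈ o.P
    · exact hA b v hv (hP ▸ hv)
    · rw [fixN h1 b hv, fixN h1' b (hP ▸ hv)]
  cases o
  cases o'
  simp_all

omit [Fintype V] [DecidableEq V] in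
lemma Two.symm (h2 : Two o1 o2) : Two o2 o1 := by
  exact ⟨h2.a2, h2.a1, h2.dj.symm⟩

omit [Fintype V] in
lemma VP.symm {blk : Finset V → V → Finset V} {M N : V → V} (h2 : VP blk M N o1 o2) :
    VP blk M N o2 o1 := by
  refine ⟨h2.two.symm, h2.s2, h2.s1, fun a v hv e1 e2 => ?_⟩
  rw [union_comm] at hv ⊢
  exact h2.cr a v hv e2 e1

omit [Fintype V] in
lemma SU_comm (h : Finset V → V) (o1 o2 : Ob V) : SU h o1 o2 = SU h o2 o1 := by
  rw [SU, SU, union_comm]

omit [Fintype V] [DecidableEq V] in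
lemma Two.inv (h2 : Two o1 o2) (a b : Bool) (v : V) :
    (o1.A a ∘ o2.A b) ((o1.A a ∘ o2.A b) v) = v := by
  by_cases hv : v ∈ o1.P
  · rw [cin h2 a b hv, cin h2 a b (memP h2.a1 a hv), h2.a1.inv]
  · rw [cout h2 a b hv, cout h2 a b (cnot h2 b hv), h2.a2.inv]

omit [Fintype V] [DecidableEq V] in
lemma Two.fix_iff (h2 : Two o1 o2) (a b : Bool) (v : V) :
    (o1.A a ∘ o2.A b) v = v ↔ o1.A a v = v ∧ o2.A b v = v := by
  by_cases hv : v ∈ o1.P
  · rw [cin h2 a b hv, fixN h2.a2 b (disjoint_left.1 h2.dj hv)]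
    simp
  · rw [cout h2 a b hv, fixN h2.a1 a hv]
    simp

omit [Fintype V] in
lemma Two.supp (h2 : Two o1 o2) (a b : Bool) (v : V) (hv : (o1.A a ∘ o2.A b) v ≠ v) :
    v ∈ o1.P ∪ o2.P := by
  by_contra hn
  rw [mem_union, not_or] at hn
  exact hv ((h2.fix_iff a b v).2 ⟨fixN h2.a1 a hn.1, fixN h2.a2 b hn.2⟩)

omit [Fintype V] [DecidableEq V] in
lemma Two.sub_iff (h2 : Two o1 o2) (a b : Bool) :
    Sub (o1.A a ∘ o2.A b) X ↔ Sub (o1.A a) X ∧ Sub (o2.A b) X := by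
  refine ⟨fun h => ⟨fun v hv => ?_, fun v hv => ?_⟩, fun h v hv => ?_⟩
  · have e := cin h2 a b (h2.a1.supp a v hv)
    rw [h v (e ▸ hv), e]
  · have e := cout h2 a b (disjoint_right.1 h2.dj (h2.a2.supp b v hv))
    rw [h v (e ▸ hv), e]
  · by_cases hm : v ∈ o1.P
    · rw [cin h2 a b hm] at hv ⊢
      exact h.1 v hv
    · rw [cout h2 a b hm] at hv ⊢
      exact h.2 v hv

lemma Two.fix_four (h2 : Two o1 o2) (hh : ∀ P : Finset V, OK P (h P)) (a b : Bool) :
    ((SU h o1 o2).filter fun v => (o1.A a ∘ o2.A b) v = v).card ≤ 4 := by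
  have h1 : ((o1.P ∪ o2.P).filter fun v => (o1.A a ∘ o2.A b) v = v).card ≤ 4 := by
    refine le_trans (card_le_card (t := {o1.s, o1.t, o2.s, o2.t}) fun v hv => ?_) card_le_four
    obtain ⟨k1, k2⟩ := mem_filter.1 hv
    obtain ⟨k3, k4⟩ := (h2.fix_iff a b v).1 k2
    rcases mem_union.1 k1 with k | k
    · rcases h2.a1.fix a v k k3 with e | e <;> simp [e]
    · rcases h2.a2.fix b v k k4 with e | e <;> simp [e]
  unfold SU SP
  split_ifs with hodd
  · have h3 : ¬ Even ((o1.P ∪ o2.P).filter fun v => (o1.A a ∘ o2.A b) v = v).card := fun h =>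
      Nat.not_even_iff_odd.2 hodd ((fix_par (h2.inv a b) (h2.supp a b)).1 h)
    rw [Nat.even_iff] at h3
    rw [filter_insert]
    split_ifs
    · have := card_insert_le (h (o1.P ∪ o2.P))
        ((o1.P ∪ o2.P).filter fun v => (o1.A a ∘ o2.A b) v = v)
      omega
    · exact h1
  · exact h1

lemma Two.ga_split (h2 : Two o1 o2) (c : V → V → ℝ) (τ : V → ℝ) (h : Finset V → V) (a b : Bool) :
    ga c τ (SU h o1 o2) (o1.A a ∘ o2.A b) =
      ga c τ o1.P (o1.A a) * ga c τ (SU h o1 o2 \ o1.P) (o2.A b) := by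
  have hs : o1.P ⊆ SU h o1 o2 := subset_union_left.trans (sub_SP _ _)
  rw [ga, ← prod_sdiff hs, mul_comm, ga, ga]
  congr 1
  · exact prod_congr rfl fun v hv => by rw [cin h2 a b hv]
  · exact prod_congr rfl fun v hv => by rw [cout h2 a b (mem_sdiff.1 hv).2]

lemma Two.exs (h2 : Two o1 o2) (hh : ∀ P : Finset V, OK P (h P)) (a b : Bool) :
    (Exs h o1 o2 a b).Nonempty := by
  classical
  obtain ⟨X, hX, hs⟩ := ext_ex (S := SU h o1 o2) (h2.inv a b)
    (fun v hv => sub_SP _ _ (h2.supp a b v hv)) (SP_even (hh _))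
  exact ⟨X, by
    unfold Exs
    exact (@mem_filter _ _ (_) _ _).2 ⟨hX, (h2.sub_iff a b).1 hs⟩⟩

lemma Two.cfg (h2 : Two o1 o2) (hh : ∀ P : Finset V, OK P (h P)) (b : Bool) :
    (Cfg h o1 o2 b).Nonempty := by
  have hs : o1.P ⊆ SU h o1 o2 := subset_union_left.trans (sub_SP _ _)
  have hs2 : o2.P ⊆ SU h o1 o2 := subset_union_right.trans (sub_SP _ _)
  have hev : Even (SU h o1 o2).card := SP_even (hh _)
  have hsup : ∀ v, o2.A b v ≠ v → v ∈ SU h o1 o2 \ o1.P := fun v hv =>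
    mem_sdiff.2 ⟨hs2 (h2.a2.supp b v hv), disjoint_right.1 h2.dj (h2.a2.supp b v hv)⟩
  have hex : ∃ ρ, OK o1.P ρ ∧ SP o1.P ρ ⊆ SU h o1 o2 ∧ ∀ v, o2.A b v ≠ v → v ∉ SP o1.P ρ := by
    by_cases hodd : Odd o1.P.card
    · have c1 := card_sdiff_add_card_eq_card hs
      have c2 : ¬ Even ((SU h o1 o2 \ o1.P).filter fun v => o2.A b v = v).card := fun e => by
        have := (fix_par (h2.a2.inv b) hsup).1 e
        rw [Nat.even_iff] at this hev
        rw [Nat.odd_iff] at hodd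
        omega
      obtain ⟨ρ, hρ⟩ : ((SU h o1 o2 \ o1.P).filter fun v => o2.A b v = v).Nonempty := by
        rw [← card_pos, Nat.pos_iff_ne_zero]
        intro e
        exact c2 (by rw [e]; exact Even.zero)
      obtain ⟨k1, k2⟩ := mem_filter.1 hρ
      obtain ⟨k3, k4⟩ := mem_sdiff.1 k1
      refine ⟨ρ, fun _ => k4, ?_, fun v hv => ?_⟩
      · rw [SP, if_pos hodd]
        exact insert_subset k3 hs
      · rw [SP, if_pos hodd, mem_insert, not_or]
        exact ⟨fun e => hv (e ▸ k2), (mem_sdiff.1 (hsup v hv)).2⟩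
    · refine ⟨o1.s, fun e => absurd e hodd, ?_, fun v hv => ?_⟩
      · rwa [SP, if_neg hodd]
      · rw [SP, if_neg hodd]
        exact (mem_sdiff.1 (hsup v hv)).2
  obtain ⟨ρ, k1, k2, k3⟩ := hex
  have c1 := card_sdiff_add_card_eq_card k2
  have c2 := SP_even k1
  obtain ⟨r, hr, hr'⟩ := ext_ex (S := SU h o1 o2 \ SP o1.P ρ) (h2.a2.inv b)
    (fun v hv => mem_sdiff.2 ⟨(mem_sdiff.1 (hsup v hv)).1, k3 v hv⟩) (by
      rw [Nat.even_iff] at c2 hev ⊢
      omega)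
  exact ⟨(ρ, r), by
    unfold Cfg
    exact (@mem_filter _ _ (_) _ _).2 ⟨mem_univ _, k1, k2, hr, hr'⟩⟩

lemma Two.cfg_exs (h2 : Two o1 o2) {b : Bool} {z : V × (V → V)} (hz : z ∈ Cfg h o1 o2 b)
    (a : Bool) : att o1 a z.1 ∘ z.2 ∈ Exs h o1 o2 a b := by
  unfold Cfg at hz
  obtain ⟨-, k1, k2, k3, k4⟩ := (@mem_filter _ _ (_) _ _).1 hz
  have m := att_mem h2.a1 k1 a
  have e := comp_mem m k3 disjoint_sdiff
  rw [union_sdiff_of_subset k2] at e
  unfold Exs
  exact (@mem_filter _ _ (_) _ _).2 ⟨e,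
    (sub_att h2.a1 k1 a).trans (sub_comp_left m k3 disjoint_sdiff),
    k4.trans (sub_comp_right m k3 disjoint_sdiff)⟩

end Vale.Agent.P308
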