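import Vale.Agent.P308.Model

/-! Conjugation, classes and weights (job Basic). -/

namespace Vale.Agent.P308

open Finset

variable {V : Type} [Fintype V] [DecidableEq V] {c c' : V → V → ℝ} {X Y M N X0 : V → V}
  {S U : Finset V} {p q u v : V}

lemma mem_PMon : X ∈ PMon S ↔ ∀ v, X (X v) = v ∧ (X v ≠ v ↔ v ∈ S) := by simp [PMon]

lemma mem_PM : X ∈ PMon univ ↔ ∀ v, X (X v) = v ∧ X v ≠ v := by simp [PMon]

lemma mem_Cl : X ∈ Cl U X0 ↔ X ∈ PMon univ ∧ ∀ v, v ∉ U → X v = X0 v := by simp [Cl]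

lemma W_nonneg (c : V → V → ℝ) (X : V → V) : 0 ≤ W c X :=
  prod_nonneg fun v _ => by split_ifs <;> positivity

lemma W_pos (hp : Pos c) (X : V → V) : 0 < W c X :=
  prod_pos fun v _ => by
    split_ifs with h
    · exact one_pos
    · exact Real.sqrt_pos.2 (hp _ _ (Ne.symm h))

lemma H_nonneg (c : V → V → ℝ) (S : Finset V) : 0 ≤ H c S := sum_nonneg fun X _ => W_nonneg c X

lemma Q_nonneg (c : V → V → ℝ) (u v : V) : 0 ≤ Q c u v := H_nonneg c _

lemma Q_symm (c : V → V → ℝ) (u v : V) : Q c u v = Q c v u := by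
  rw [Q, Q, erase_right_comm]

omit [Fintype V] in
@[simp] lemma cj_cj (p q : V) (X : V → V) : cj p q (cj p q X) = X := by
  funext v; simp [cj]

omit [Fintype V] in
@[simp] lemma cj_self (p : V) (X : V → V) : cj p p X = X := by
  funext v; simp [cj]

omit [Fintype V] in
lemma cj_of_ne (h1 : v ≠ p) (h2 : v ≠ q) (h3 : X v ≠ p) (h4 : X v ≠ q) : cj p q X v = X v := by
  simp [cj, Equiv.swap_apply_of_ne_of_ne h1 h2, Equiv.swap_apply_of_ne_of_ne h3 h4]

lemma cj_mem (h : X ∈ PMon univ) (p q : V) : cj p q X ∈ PMon univ := by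
  rw [mem_PM] at h ⊢
  refine fun v => ⟨by simp [cj, (h _).1], fun hv => (h (Equiv.swap p q v)).2 ?_⟩
  rw [cj, Equiv.swap_apply_eq_iff] at hv
  exact hv

/-- the four new values -/
lemma cj_vals (h : X ∈ PMon univ) (hpq : p ≠ q) (hq : X p ≠ q) :
    cj p q X p = X q ∧ cj p q X q = X p ∧ cj p q X (X p) = q ∧ cj p q X (X q) = p := by
  rw [mem_PM] at h
  have h1 : X q ≠ p := fun e => hq (by rw [← e, (h q).1])
  refine ⟨?_, ?_, ?_, ?_⟩
  · rw [cj, Equiv.swap_apply_left, Equiv.swap_apply_of_ne_of_ne h1 (h q).2]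
  · rw [cj, Equiv.swap_apply_right, Equiv.swap_apply_of_ne_of_ne (h p).2 hq]
  · rw [cj, Equiv.swap_apply_of_ne_of_ne (h p).2 hq, (h p).1, Equiv.swap_apply_left]
  · rw [cj, Equiv.swap_apply_of_ne_of_ne h1 (h q).2, (h q).1, Equiv.swap_apply_right]

lemma W_PM (c : V → V → ℝ) (h : X ∈ PMon univ) : W c X = ∏ v, √(c v (X v)) :=
  prod_congr rfl fun v _ => if_neg (mem_PM.1 h v).2

lemma W_cj (hc : Ker c) (h : X ∈ PMon univ) (hpq : p ≠ q) (hq : X p ≠ q) :
    W c (cj p q X) * (c p (X p) * c q (X q)) = W c X * (c q (X p) * c p (X q)) := by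
  obtain ⟨v1, v2, v3, v4⟩ := cj_vals h hpq hq
  rw [W_PM c (cj_mem h p q), W_PM c h]
  rw [mem_PM] at h
  have h1 : X q ≠ p := fun e => hq (by rw [← e, (h q).1])
  have h2 : X p ≠ X q := fun e => hpq (by rw [← (h p).1, e, (h q).1])
  have n1 : p ∉ ({q, X p, X q} : Finset V) := by
    simp [hpq, (h p).2.symm, h1.symm]
  have n2 : q ∉ ({X p, X q} : Finset V) := by simp [hq.symm, (h q).2.symm]
  rw [← prod_mul_prod_compl {p, q, X p, X q}, ← prod_mul_prod_compl {p, q, X p, X q}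
    (fun v => √(c v (X v))), prod_insert n1, prod_insert n2, prod_pair h2, prod_insert n1,
    prod_insert n2, prod_pair h2, v1, v2, v3, v4, (h p).1, (h q).1]
  have e : ∏ v ∈ ({p, q, X p, X q} : Finset V)ᶜ, √(c v (cj p q X v)) =
      ∏ v ∈ ({p, q, X p, X q} : Finset V)ᶜ, √(c v (X v)) := by
    refine prod_congr rfl fun v hv => ?_
    simp only [mem_compl, mem_insert, mem_singleton, not_or] at hv
    rw [cj_of_ne hv.1 hv.2.1 (fun e => hv.2.2.1 (by rw [← e, (h v).1]))
      (fun e => hv.2.2.2 (by rw [← e, (h v).1]))]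
  rw [e, hc.symm (X p) q, hc.symm (X q) p, hc.symm (X p) p, hc.symm (X q) q]
  have s1 := Real.mul_self_sqrt (hc.nonneg p (X p))
  have s2 := Real.mul_self_sqrt (hc.nonneg q (X q))
  have s3 := Real.mul_self_sqrt (hc.nonneg q (X p))
  have s4 := Real.mul_self_sqrt (hc.nonneg p (X q))
  generalize √(c p (X p)) = a1 at *
  generalize √(c q (X q)) = a2 at *
  generalize √(c q (X p)) = a3 at *
  generalize √(c p (X q)) = a4 at *
  rw [← s1, ← s2, ← s3, ← s4]
  ring

lemma cj_mem_Cl (h : X ∈ Cl U X0) (h1 : p ∈ U) (h2 : q ∈ U) (h3 : X p ∈ U) (h4 : X q ∈ U) :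
    cj p q X ∈ Cl U X0 := by
  rw [mem_Cl] at h ⊢
  refine ⟨cj_mem h.1 p q, fun v hv => ?_⟩
  have hX := mem_PM.1 h.1
  rw [cj_of_ne (v := v) (fun e => hv (by rw [e]; exact h1)) (fun e => hv (by rw [e]; exact h2))
    (fun e => hv (by rw [← (hX v).1, e]; exact h3))
    (fun e => hv (by rw [← (hX v).1, e]; exact h4)), h.2 v hv]

lemma mem_of_ne (hM : M ∈ Cl U X0) (hN : N ∈ Cl U X0) (h : M v ≠ N v) : v ∈ U := by
  by_contra hv
  exact h (((mem_Cl.1 hM).2 v hv).trans ((mem_Cl.1 hN).2 v hv).symm)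

lemma mix_mem_Cl (hM : M ∈ Cl U X0) (hN : N ∈ Cl U X0) {T : Set V} (h1 : ∀ v ∈ T, M v ∈ T)
    (h2 : ∀ v ∈ T, N v ∈ T) : mix T M N ∈ Cl U X0 := by
  rw [mem_Cl] at hM hN ⊢
  have hM' := mem_PM.1 hM.1
  have hN' := mem_PM.1 hN.1
  refine ⟨mem_PM.2 fun v => ?_, fun v hv => ?_⟩
  · by_cases hv : v ∈ T
    · simp only [mix, hv, h2 v hv, if_true]
      exact hN' v
    · have : M v ∉ T := fun e => hv (by simpa [(hM' v).1] using h1 _ e)
      simp only [mix, hv, this, if_false]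
      exact hM' v
  · unfold mix
    split_ifs
    · exact hN.2 v hv
    · exact hM.2 v hv

lemma W_mix (c : V → V → ℝ) (T : Set V) (M N : V → V) :
    W c (mix T M N) * W c (mix T N M) = W c M * W c N := by
  simp only [W, ← prod_mul_distrib]
  refine prod_congr rfl fun v _ => ?_
  by_cases hv : v ∈ T
  · simp only [mix, hv, if_true]
    exact mul_comm _ _
  · simp only [mix, hv, if_false]

lemma W_le_of_le {lam : ℝ} (h1 : 1 ≤ lam) (h : ∀ u v, u ≠ v → c u v ≤ lam * c' u v) (X : V → V) :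
    W c X ≤ lam ^ Fintype.card V * W c' X := by
  rw [W, W, ← card_univ, ← prod_const, ← prod_mul_distrib]
  refine prod_le_prod (fun v _ => by split_ifs <;> positivity) fun v _ => ?_
  split_ifs with hv
  · simpa using h1
  · refine (Real.sqrt_le_sqrt (h _ _ (Ne.symm hv))).trans ?_
    rw [Real.sqrt_mul (by linarith)]
    exact mul_le_mul_of_nonneg_right (Real.sqrt_le_iff.2 ⟨by linarith, by nlinarith⟩) (Real.sqrt_nonneg _)

lemma H_le_of_le {lam : ℝ} (h1 : 1 ≤ lam) (h : ∀ u v, u ≠ v → c u v ≤ lam * c' u v)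
    (S : Finset V) : H c S ≤ lam ^ Fintype.card V * H c' S := by
  rw [H, H, mul_sum]
  exact sum_le_sum fun X _ => W_le_of_le h1 h X

lemma W_eq_prod_lt {n : ℕ} {c : Fin n → Fin n → ℝ} (hc : Ker c) {X : Fin n → Fin n}
    (h : X ∈ PMon univ) : W c X = ∏ v, if v < X v then c v (X v) else 1 := by
  rw [W_PM c h]
  rw [mem_PM] at h
  have hi : Function.Involutive X := fun v => (h v).1
  have e1 : ∀ v, √(c v (X v)) = (if v < X v then √(c v (X v)) else 1) *
      (if X v < v then √(c v (X v)) else 1) := fun v => by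
    rcases lt_or_gt_of_ne (h v).2 with h' | h'
    · simp [h', h'.not_gt]
    · simp [h', h'.not_gt]
  have e2 : ∏ v, (if X v < v then √(c v (X v)) else 1) =
      ∏ v, (if v < X v then √(c v (X v)) else 1) := by
    rw [← Equiv.prod_comp hi.toPerm]
    refine prod_congr rfl fun v _ => ?_
    simp only [Function.Involutive.coe_toPerm, (h v).1, hc.symm (X v) v]
  rw [prod_congr rfl fun v _ => e1 v, prod_mul_distrib, e2, ← prod_mul_distrib]
  refine prod_congr rfl fun v _ => ?_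
  split_ifs
  · exact Real.mul_self_sqrt (hc.nonneg _ _)
  · exact one_mul _

/-- no matching is much lighter than the total -/
lemma H_le_two_pow {β : ℕ} (h : ∀ u v, u ≠ v → (1 / 2 : ℝ) ^ β ≤ c u v ∧ c u v ≤ 2 ^ β)
    (X : V → V) :
    H c univ ≤ 2 ^ (Fintype.card V * (Fintype.card V + 2 * β)) * W c X := by
  have b1 : (1 : ℝ) ≤ 2 ^ β := one_le_pow₀ (by norm_num)
  have b2 : (1 / 2 : ℝ) ^ β ≤ 1 := pow_le_one₀ (by norm_num) (by norm_num)
  have b3 : (0 : ℝ) ≤ (1 / 2) ^ β := by positivity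
  have h1 : ∀ Y : V → V, W c Y ≤ (2 ^ β) ^ Fintype.card V := fun Y => by
    rw [W, ← card_univ, ← prod_const]
    refine prod_le_prod (fun v _ => by split_ifs <;> positivity) fun v _ => ?_
    split_ifs with hv
    · exact b1
    · exact Real.sqrt_le_iff.2 ⟨by positivity, by nlinarith [(h _ _ (Ne.symm hv)).2]⟩
  have h2 : ((1 / 2 : ℝ) ^ β) ^ Fintype.card V ≤ W c X := by
    rw [W, ← card_univ, ← prod_const]
    refine prod_le_prod (fun v _ => b3) fun v _ => ?_
    split_ifs with hv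
    · exact b2
    · exact Real.le_sqrt_of_sq_le (by nlinarith [(h _ _ (Ne.symm hv)).1])
  have h3 : ((PMon (univ : Finset V)).card : ℝ) ≤ 2 ^ (Fintype.card V * Fintype.card V) := by
    have : (PMon (univ : Finset V)).card ≤ 2 ^ (Fintype.card V * Fintype.card V) := by
      refine (card_le_univ _).trans ?_
      rw [Fintype.card_fun, pow_mul]
      exact Nat.pow_le_pow_left Nat.lt_two_pow_self.le _
    exact_mod_cast this
  have h4 : H c univ ≤ (PMon (univ : Finset V)).card * (2 ^ β) ^ Fintype.card V := by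
    rw [← nsmul_eq_mul]
    exact sum_le_card_nsmul (PMon univ) (W c) _ fun Y _ => h1 Y
  refine h4.trans ((mul_le_mul_of_nonneg_right h3 (by positivity)).trans ?_)
  refine le_trans (le_of_eq ?_) (mul_le_mul_of_nonneg_left h2 (by positivity))
  rw [mul_add, pow_add, mul_assoc]
  congr 1
  rw [show Fintype.card V * (2 * β) = β * Fintype.card V + β * Fintype.card V by ring, pow_add,
    pow_mul, mul_assoc, ← mul_pow, ← mul_pow, ← mul_pow]
  norm_num

end Vale.Agent.P308
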