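import Vale.Agent.P308.PathA

/-! One alternating cycle at a time (job Orbit). -/

namespace Vale.Agent.P308

open Finset

variable {V : Type} [Fintype V] [DecidableEq V]

namespace OA

variable {U : Finset V} {X0 M N : V → V}

def TA (A : Finset V) (M N : V → V) : Set V := {u | ∃ k ∈ A, u ∈ Orb M N k}

omit [Fintype V] [DecidableEq V] in
lemma orb_mix (T : Set V) (M N : V → V) (k : V) :
    Orb (mix T M N) (mix T N M) k = Orb M N k := by
  have : (fun a b => b = mix T M N a ∨ b = mix T N M a) = fun a b => b = M a ∨ b = N a := by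
    funext a b
    unfold mix
    split_ifs
    exacts [propext or_comm, rfl]
  rw [Orb, this, Orb]

omit [Fintype V] [DecidableEq V] in
lemma TA_mix (A : Finset V) (T : Set V) (M N : V → V) :
    TA A (mix T M N) (mix T N M) = TA A M N := by
  simp only [TA, orb_mix]

omit [Fintype V] [DecidableEq V] in
lemma mix_mix (T : Set V) (M N : V → V) : mix T (mix T M N) (mix T N M) = M := by
  funext v
  unfold mix
  split_ifs <;> rfl

noncomputable def Psi (A : Finset V) (z : (V → V) × (V → V)) : (V → V) × (V → V) :=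
  (mix (TA A z.1 z.2) z.1 z.2, mix (TA A z.1 z.2) z.2 z.1)

omit [Fintype V] [DecidableEq V] in
lemma Psi_Psi (A : Finset V) (z : (V → V) × (V → V)) : Psi A (Psi A z) = z := by
  simp only [Psi, TA_mix, mix_mix]

lemma Psi_mem (A : Finset V) {z : (V → V) × (V → V)} (h : z ∈ Cl U X0 ×ˢ Cl U X0) :
    Psi A z ∈ Cl U X0 ×ˢ Cl U X0 := by
  obtain ⟨h1, h2⟩ := mem_product.1 h
  have a1 : ∀ v ∈ TA A z.1 z.2, z.1 v ∈ TA A z.1 z.2 := fun v ⟨k, hk, h⟩ => ⟨k, hk, PA.orbM h⟩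
  have a2 : ∀ v ∈ TA A z.1 z.2, z.2 v ∈ TA A z.1 z.2 := fun v ⟨k, hk, h⟩ => ⟨k, hk, PA.orbN h⟩
  exact mem_product.2 ⟨mix_mem_Cl h1 h2 a1 a2, mix_mem_Cl h2 h1 a2 a1⟩

lemma step (hM : M ∈ Cl U X0) (hN : N ∈ Cl U X0) (A : Finset V) (k : V) :
    mix (TA (insert k A) M N) M N = mix (TA A M N) M N ∨ mix (TA (insert k A) M N) M N =
      mix (Orb (mix (TA A M N) M N) (mix (TA A M N) N M) k) (mix (TA A M N) M N)
        (mix (TA A M N) N M) := by
  classical
  have e : ∀ u, u ∈ TA (insert k A) M N ↔ u ∈ Orb M N k ∨ u ∈ TA A M N := fun u => by simp [TA]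
  by_cases hk : k ∈ TA A M N
  · left
    congr 1
    ext u
    rw [e, or_iff_right_iff_imp]
    obtain ⟨j, hj, h⟩ := hk
    exact fun hu => ⟨j, hj, PA.orb_eq hM hN h ▸ hu⟩
  · right
    funext u
    rw [orb_mix]
    by_cases hu : u ∈ Orb M N k
    · have : u ∉ TA A M N := fun ⟨j, hj, h⟩ => hk ⟨j, hj, by
        rw [PA.orb_eq hM hN h, ← PA.orb_eq hM hN hu]; exact PA.orb_self⟩
      simp only [mix]
      rw [if_pos ((e u).2 (Or.inl hu)), if_pos hu, if_neg this]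
    · simp only [mix]
      rw [if_neg hu, if_congr ((e u).trans (or_iff_right hu)) rfl rfl]

lemma incr (c : V → V → ℝ) (f : (V → V) → ℝ) (A : Finset V) (k : V) :
    ∑ z ∈ Cl U X0 ×ˢ Cl U X0, W c z.1 * W c z.2 *
      (f (mix (TA A z.1 z.2) z.1 z.2) - f (mix (TA (insert k A) z.1 z.2) z.1 z.2)) ^ 2 ≤
    ∑ z ∈ Cl U X0 ×ˢ Cl U X0, W c z.1 * W c z.2 *
      (f z.1 - f (mix (Orb z.1 z.2 k) z.1 z.2)) ^ 2 := by
  rw [← sum_nbij' (s := Cl U X0 ×ˢ Cl U X0) (Psi A) (Psi A) (fun _ => Psi_mem A)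
    (fun _ => Psi_mem A) (fun z _ => Psi_Psi A z) (fun z _ => Psi_Psi A z)
    (g := fun z => W c z.1 * W c z.2 * (f z.1 - f (mix (Orb z.1 z.2 k) z.1 z.2)) ^ 2)
    fun _ _ => rfl]
  refine sum_le_sum fun z hz => ?_
  simp only [Psi, W_mix]
  refine mul_le_mul_of_nonneg_left ?_ (mul_nonneg (W_nonneg _ _) (W_nonneg _ _))
  rcases step (mem_product.1 hz).1 (mem_product.1 hz).2 A k with h | h
  · rw [h, sub_self]; simpa using sq_nonneg _
  · rw [← h]

lemma ind (c : V → V → ℝ) (f : (V → V) → ℝ) (A : Finset V) :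
    ∑ z ∈ Cl U X0 ×ˢ Cl U X0, W c z.1 * W c z.2 * (f z.1 - f (mix (TA A z.1 z.2) z.1 z.2)) ^ 2 ≤
      A.card * ∑ k ∈ A, ∑ z ∈ Cl U X0 ×ˢ Cl U X0, W c z.1 * W c z.2 *
        (f z.1 - f (mix (Orb z.1 z.2 k) z.1 z.2)) ^ 2 := by
  have h0 : ∀ M N : V → V, mix (TA ∅ M N) M N = M := fun M N => by
    funext v; simp [mix, TA]
  induction A using Finset.induction_on with
  | empty => simp [h0]
  | insert k A hk ih =>
    have h1 := incr (U := U) (X0 := X0) c f A k
    rw [sum_insert hk, card_insert_of_notMem hk]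
    rcases A.eq_empty_or_nonempty with rfl | hA
    · simpa [h0] using h1
    have hm : (0 : ℝ) < A.card := by exact_mod_cast hA.card_pos
    refine le_of_mul_le_mul_left ?_ hm
    have h2 : (A.card : ℝ) * ∑ z ∈ Cl U X0 ×ˢ Cl U X0, W c z.1 * W c z.2 *
        (f z.1 - f (mix (TA (insert k A) z.1 z.2) z.1 z.2)) ^ 2 ≤
        (A.card + 1) * ∑ z ∈ Cl U X0 ×ˢ Cl U X0, W c z.1 * W c z.2 *
          (f z.1 - f (mix (TA A z.1 z.2) z.1 z.2)) ^ 2 +
        A.card * (A.card + 1) * ∑ z ∈ Cl U X0 ×ˢ Cl U X0, W c z.1 * W c z.2 *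
          (f (mix (TA A z.1 z.2) z.1 z.2) - f (mix (TA (insert k A) z.1 z.2) z.1 z.2)) ^ 2 := by
      rw [mul_sum, mul_sum, mul_sum, ← sum_add_distrib]
      refine sum_le_sum fun z _ => ?_
      have w := mul_nonneg (W_nonneg c z.1) (W_nonneg c z.2)
      nlinarith [mul_nonneg w (sq_nonneg (f z.1 - f (mix (TA A z.1 z.2) z.1 z.2) - A.card *
        (f (mix (TA A z.1 z.2) z.1 z.2) - f (mix (TA (insert k A) z.1 z.2) z.1 z.2))))]
    have h3 := mul_le_mul_of_nonneg_left ih (show (0 : ℝ) ≤ A.card + 1 by positivity)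
    have h4 := mul_le_mul_of_nonneg_left h1 (show (0 : ℝ) ≤ A.card * (A.card + 1) by positivity)
    push_cast
    nlinarith

end OA

theorem tele (c : V → V → ℝ) (U : Finset V) (X0 : V → V) (f : (V → V) → ℝ) :
    ∑ M ∈ Cl U X0, ∑ N ∈ Cl U X0, W c M * W c N * (f M - f N) ^ 2 ≤
      Fintype.card V * ∑ k, ∑ M ∈ Cl U X0, ∑ N ∈ Cl U X0,
        W c M * W c N * (f M - f (mix (Orb M N k) M N)) ^ 2 := by
  have h := OA.ind (U := U) (X0 := X0) c f univ
  have h0 : ∀ M N : V → V, mix (OA.TA univ M N) M N = N := fun M N => by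
    funext v
    exact if_pos ⟨v, mem_univ v, PA.orb_self⟩
  simpa only [h0, sum_product, card_univ] using h

end Vale.Agent.P308
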