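import Vale.Agent.P308.ArcB
import Vale.Agent.P308.Orbit

/-! Collisions control the deviations (job CL). -/

namespace Vale.Agent.P308

open Finset

variable {V : Type} [Fintype V] [DecidableEq V] {c : V → V → ℝ} {h : Finset V → V}
  {X Y : V → V}

lemma Col_mem (hX : X ∈ PMon univ) (hY : Y ∈ PMon univ) (k p q : V) :
    (Col k p q X Y).1 ∈ PMon univ ∧ (Col k p q X Y).2 ∈ PMon univ := by
  have a : ∀ Z : V → V, Z ∈ Cl univ id ↔ Z ∈ PMon univ := fun Z => by simp [mem_Cl]
  have hX' := (a _).2 hX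
  have hY' := (a _).2 (cj_mem hY p q)
  exact ⟨(a _).1 (mix_mem_Cl hX' hY' (fun _ => PA.orbM) fun _ => PA.orbN),
    cj_mem ((a _).1 (mix_mem_Cl hY' hX' (fun _ => PA.orbN) fun _ => PA.orbM)) p q⟩

omit [Fintype V] in
lemma Col_Col (k p q : V) (X Y : V → V) :
    Col k p q (Col k p q X Y).1 (Col k p q X Y).2 = (X, Y) := by
  simp only [Col, cj_cj, OA.orb_mix, OA.mix_mix]

namespace CLX

omit [Fintype V] in
lemma cj_comp (p q : V) (B C : V → V) : cj p q (B ∘ C) = cj p q B ∘ cj p q C := by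
  funext v; simp [cj]

lemma cj_PMon {S T : Finset V} {p q : V} {B : V → V} (hB : B ∈ PMon S)
    (h : ∀ v, v ∈ T ↔ Equiv.swap p q v ∈ S) : cj p q B ∈ PMon T := by
  rw [mem_PMon] at hB ⊢
  refine fun v => ⟨by simp [cj, (hB _).1], ?_⟩
  rw [h, ← (hB _).2, cj, Ne, Equiv.swap_apply_eq_iff]

lemma fix_of {S : Finset V} {B : V → V} (hB : B ∈ PMon S) {v : V} (hv : v ∉ S) : B v = v := by
  by_contra e
  exact hv ((mem_PMon.1 hB v).2.1 e)

lemma map_mem {S : Finset V} {B : V → V} (hB : B ∈ PMon S) {v : V} (hv : v ∈ S) : B v ∈ S := by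
  refine (mem_PMon.1 hB _).2.1 ?_
  rw [(mem_PMon.1 hB v).1]
  exact ((mem_PMon.1 hB v).2.2 hv).symm

omit [Fintype V] in
lemma swap_fix {P : Finset V} {ρ η v : V} (hρ : OK P ρ) (hη : OK P η) (hv : v ∈ P) :
    Equiv.swap ρ (if Odd P.card then η else ρ) v = v := by
  split_ifs with e
  · exact Equiv.swap_apply_of_ne_of_ne (fun a => hρ e (a ▸ hv)) fun a => hη e (a ▸ hv)
  · simp

omit [Fintype V] in
lemma swap_SP {P : Finset V} {ρ η : V} (hρ : OK P ρ) (hη : OK P η) (v : V) :
    v ∈ SP P ρ ↔ Equiv.swap ρ (if Odd P.card then η else ρ) v ∈ SP P η := by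
  unfold SP
  split_ifs with e
  · have a := hρ e
    have b := hη e
    by_cases h1 : v = ρ
    · simp [h1]
    · by_cases h2 : v = η
      · subst h2
        simp [h1, a, b, Ne.symm h1]
      · rw [Equiv.swap_apply_of_ne_of_ne h1 h2]
        simp [h1, h2]
  · simp

lemma cj_att {o : Ob V} (ho : Arc o) {ρ η : V} (hρ : OK o.P ρ) (hη : OK o.P η) (a : Bool) :
    cj ρ (if Odd o.P.card then η else ρ) (att o a η) = att o a ρ := by
  refine (att_eq ho hρ (cj_PMon (att_mem ho hη a) (swap_SP hρ hη)) fun v hv => ?_).symm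
  have h1 := ho.supp a v hv
  have h2 := ho.supp a (o.A a v) (by rw [ho.inv]; exact hv.symm)
  rw [cj, swap_fix hρ hη h1, sub_att ho hη a v hv, swap_fix hρ hη h2]

lemma orb_att {o : Ob V} (ho : Arc o) {ρ : V} (hρ : OK o.P ρ) {C C' : V → V}
    (hC : C ∈ PMon (SP o.P ρ)ᶜ) (hC' : C' ∈ PMon (SP o.P ρ)ᶜ) (v : V) :
    v ∈ Orb (att o true ρ ∘ C) (att o false ρ ∘ C') o.s ↔ v ∈ SP o.P ρ := by
  have f1 : ∀ u ∈ SP o.P ρ, C u = u := fun u hu => fix_of hC (by simpa using hu)
  have f2 : ∀ u ∈ SP o.P ρ, C' u = u := fun u hu => fix_of hC' (by simpa using hu)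
  have hP : ∀ u, u ∈ Orb (o.A false) (o.A true) o.s →
      u ∈ Orb (att o true ρ ∘ C) (att o false ρ ∘ C') o.s := fun u hu => by
    induction hu with
    | refl => exact PA.orb_self
    | @tail x y _ e ih =>
      by_cases e0 : y = x
      · exact e0 ▸ ih
      rcases e with e | e
      · have g : o.A false x ≠ x := e ▸ e0
        have := PA.orbN ih
        rwa [Function.comp_apply, f2 x (sub_SP _ _ (ho.supp _ _ g)), sub_att ho hρ _ x g,
          ← e] at this
      · have g : o.A true x ≠ x := e ▸ e0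
        have := PA.orbM ih
        rwa [Function.comp_apply, f1 x (sub_SP _ _ (ho.supp _ _ g)), sub_att ho hρ _ x g,
          ← e] at this
  constructor
  · intro hv
    induction hv with
    | refl => exact sub_SP _ _ ho.hs
    | @tail x y _ e ih =>
      rcases e with rfl | rfl
      · rw [Function.comp_apply, f1 x ih]; exact map_mem (att_mem ho hρ _) ih
      · rw [Function.comp_apply, f2 x ih]; exact map_mem (att_mem ho hρ _) ih
  · intro hv
    by_cases h1 : v ∈ o.P
    · exact hP v (ho.conn v h1)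
    have hB := att_mem ho hρ true
    have h2 := map_mem hB hv
    have h3 : att o true ρ v ∈ o.P := by
      have h4 := (mem_PMon.1 hB v).2.2 hv
      unfold SP at hv h2
      split_ifs at hv h2
      · rcases mem_insert.1 hv with a | a
        · rcases mem_insert.1 h2 with b | b
          exacts [absurd (b.trans a.symm) h4, b]
        · exact absurd a h1
      · exact h2
    have := PA.orbM (hP _ (ho.conn _ h3))
    rwa [Function.comp_apply, f1 _ h2, (mem_PMon.1 hB v).1] at this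

lemma mix_comp {S : Finset V} {T : Set V} (hT : ∀ v, v ∈ T ↔ v ∈ S) {B B' C C' : V → V}
    (hB : B ∈ PMon S) (hB' : B' ∈ PMon S) (hC : C ∈ PMon Sᶜ) (hC' : C' ∈ PMon Sᶜ) :
    mix T (B ∘ C) (B' ∘ C') = B' ∘ C := by
  funext v
  by_cases hv : v ∈ S
  · simp only [mix, (hT v).2 hv, if_true, Function.comp_apply]
    rw [fix_of hC (by simpa using hv), fix_of hC' (by simpa using hv)]
  · have h1 : C v ∉ S := by simpa using map_mem hC (mem_compl.2 hv)
    simp only [mix, hT v, hv, if_false, Function.comp_apply]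
    rw [fix_of hB h1, fix_of hB' h1]

open Classical in
lemma count_le {ι α : Type} [Fintype ι] (A : Finset α) (R : ι → α → Prop) (g : α → ℝ) (N : ℝ)
    (hg : ∀ x ∈ A, 0 ≤ g x) (hc : ∀ x ∈ A, ((univ.filter fun o => R o x).card : ℝ) ≤ N) :
    ∑ o, ∑ x ∈ A, (if R o x then g x else 0) ≤ N * ∑ x ∈ A, g x := by
  rw [sum_comm, mul_sum]
  refine sum_le_sum fun x hx => ?_
  rw [← sum_filter, sum_const, nsmul_eq_mul]
  exact mul_le_mul_of_nonneg_right (hc x hx) (hg x hx)

noncomputable def tm (c : V → V → ℝ) (f : (V → V) → ℝ) (k p q : V) (X Y : V → V) : ℝ :=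
  min (W c X * W c Y) (W c (Col k p q X Y).1 * W c (Col k p q X Y).2) *
    (f X + f Y - f (Col k p q X Y).1 - f (Col k p q X Y).2) ^ 2

lemma tm_nonneg (c : V → V → ℝ) (f : (V → V) → ℝ) (k p q : V) (X Y : V → V) :
    0 ≤ tm c f k p q X Y :=
  mul_nonneg (le_min (mul_nonneg (W_nonneg _ _) (W_nonneg _ _))
    (mul_nonneg (W_nonneg _ _) (W_nonneg _ _))) (sq_nonneg _)

end CLX

open CLX

/-- the collision exchanges the two colours of the arc -/
lemma Col_att {o : Ob V} (ho : Arc o) {ρ η : V} (hρ : OK o.P ρ) (hη : OK o.P η) {C C' : V → V}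
    (hC : C ∈ PMon (SP o.P ρ)ᶜ) (hC' : C' ∈ PMon (SP o.P η)ᶜ) :
    Col o.s ρ (if Odd o.P.card then η else ρ) (att o true ρ ∘ C) (att o false η ∘ C') =
      (att o false ρ ∘ C, att o true η ∘ C') := by
  have h1 : cj ρ (if Odd o.P.card then η else ρ) C' ∈ PMon (SP o.P ρ)ᶜ :=
    cj_PMon hC' fun v => by rw [mem_compl, mem_compl, swap_SP hρ hη]
  have a := att_mem ho hρ true
  have b := att_mem ho hρ false
  simp only [Col, cj_comp, cj_att ho hρ hη]
  rw [mix_comp (orb_att ho hρ hC h1) a b hC h1, mix_comp (orb_att ho hρ hC h1) b a h1 hC, cj_comp,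
    cj_cj, ← cj_att ho hρ hη true, cj_cj]

lemma Ecol_nonneg (c : V → V → ℝ) (f : (V → V) → ℝ) : 0 ≤ Ecol c f :=
  sum_nonneg fun k _ => sum_nonneg fun p _ => sum_nonneg fun q _ => sum_nonneg fun X _ =>
    sum_nonneg fun Y _ => tm_nonneg c f k p q X Y

open Classical in
lemma CLX.one_le (hc : Ker c) (hp : Pos c) (he : Even (Fintype.card V))
    (hh : ∀ P : Finset V, OK P (h P)) (f : (V → V) → ℝ) {o : Ob V} (ho : Arc o) {ρ : V}
    (hρ : OK o.P ρ) : ∑ C ∈ PMon (SP o.P ρ)ᶜ, Om c h o ρ * (W c C * dev c f h o ρ C) ≤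
      ∑ z ∈ PMon univ ×ˢ PMon univ, if Arc o ∧ Sub (o.A true) z.1 ∧ Sub (o.A (!true)) z.2 then
        ∑ k, ∑ q, tm c f k ρ q z.1 z.2 else 0 := by
  have hη := hh o.P
  set η := h o.P with e
  set q0 := if Odd o.P.card then η else ρ with hq
  have d1 : Disjoint (SP o.P ρ) (SP o.P ρ)ᶜ := disjoint_compl_right
  have d2 : Disjoint (SP o.P η) (SP o.P η)ᶜ := disjoint_compl_right
  have s1 : ∑ C ∈ PMon (SP o.P ρ)ᶜ, Om c h o ρ * (W c C * dev c f h o ρ C) ≤
      ∑ C ∈ PMon (SP o.P ρ)ᶜ, ∑ C' ∈ PMon (SP o.P η)ᶜ,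
        tm c f o.s ρ q0 (att o true ρ ∘ C) (att o false η ∘ C') := by
    refine sum_le_sum fun C hC => ?_
    have m := mu_sq (f := f) (H_compl_pos hc hp he (SP_even hη)) (att o true η) (att o false η)
      (f (att o true ρ ∘ C) - f (att o false ρ ∘ C))
    have w : 0 ≤ min (W c (att o true ρ) * W c (att o false η))
        (W c (att o false ρ) * W c (att o true η)) * W c C :=
      mul_nonneg (le_min (mul_nonneg (W_nonneg _ _) (W_nonneg _ _))
        (mul_nonneg (W_nonneg _ _) (W_nonneg _ _))) (W_nonneg _ _)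
    refine le_trans (le_of_eq ?_) ((mul_le_mul_of_nonneg_left m w).trans (le_of_eq ?_))
    · simp only [Om, dev, Db, ← e]
      ring
    · rw [mul_sum]
      refine sum_congr rfl fun C' hC' => ?_
      rw [tm, Col_att ho hρ hη hC hC', W_comp c (att_mem ho hρ _) hC d1,
        W_comp c (att_mem ho hρ _) hC d1, W_comp c (att_mem ho hη _) hC' d2,
        W_comp c (att_mem ho hη _) hC' d2]
      have w2 := mul_nonneg (W_nonneg c C) (W_nonneg c C')
      have e1 : ∀ a b : ℝ, a * W c C * (b * W c C') = a * b * (W c C * W c C') :=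
        fun _ _ => by ring
      rw [e1, e1, ← min_mul_of_nonneg _ _ w2]
      ring
  refine s1.trans ?_
  rw [← sum_ext (att_mem ho hρ true) fun X => ∑ C' ∈ PMon (SP o.P η)ᶜ,
    tm c f o.s ρ q0 X (att o false η ∘ C'), sum_product]
  refine sum_le_sum fun X _ => ?_
  have n : ∀ Y, 0 ≤ ∑ k, ∑ q, tm c f k ρ q X Y := fun Y =>
    sum_nonneg fun _ _ => sum_nonneg fun _ _ => tm_nonneg _ _ _ _ _ _ _
  split_ifs with h1
  · rw [← sum_ext (att_mem ho hη false) fun Y => tm c f o.s ρ q0 X Y]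
    refine sum_le_sum fun Y _ => ?_
    by_cases h2 : Sub (att o false η) Y
    · rw [if_pos h2, if_pos ⟨ho, (sub_att ho hρ _).trans h1, (sub_att ho hη _).trans h2⟩]
      exact (single_le_sum (f := fun q => tm c f o.s ρ q X Y)
        (fun _ _ => tm_nonneg _ _ _ _ _ _ _) (mem_univ q0)).trans
        (single_le_sum (f := fun k => ∑ q, tm c f k ρ q X Y)
          (fun _ _ => sum_nonneg fun _ _ => tm_nonneg _ _ _ _ _ _ _) (mem_univ o.s))
    · rw [if_neg h2]
      split_ifs
      exacts [n Y, le_rfl]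
  · refine sum_nonneg fun Y _ => ?_
    split_ifs
    exacts [n Y, le_rfl]

theorem CLs_le (hc : Ker c) (hp : Pos c) (he : Even (Fintype.card V))
    (hh : ∀ P : Finset V, OK P (h P)) (f : (V → V) → ℝ) :
    CLs c f h ≤ (Fintype.card V : ℝ) ^ 6 * Ecol c f := by
  classical
  have n : ∀ ρ X Y, 0 ≤ ∑ k, ∑ q, tm c f k ρ q X Y := fun ρ X Y =>
    sum_nonneg fun _ _ => sum_nonneg fun _ _ => tm_nonneg _ _ _ _ _ _ _
  have e : Ecol c f = ∑ ρ, ∑ z ∈ PMon univ ×ˢ PMon univ, ∑ k, ∑ q, tm c f k ρ q z.1 z.2 := by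
    rw [Ecol, sum_comm]
    refine sum_congr rfl fun ρ _ => ?_
    rw [sum_comm (s := PMon univ ×ˢ PMon univ)]
    refine sum_congr rfl fun k _ => ?_
    rw [sum_comm (s := PMon univ ×ˢ PMon univ)]
    refine sum_congr rfl fun q _ => ?_
    rw [sum_product]
    rfl
  rw [e, CLs, sum_comm, mul_sum]
  refine sum_le_sum fun ρ _ => ?_
  refine le_trans (sum_le_sum fun o _ => ?_) (count_le (PMon univ ×ˢ PMon univ)
    (fun (o : Ob V) z => Arc o ∧ Sub (o.A true) z.1 ∧ Sub (o.A (!true)) z.2) _ _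
    (fun z _ => n ρ z.1 z.2) fun z _ => ?_)
  · split_ifs with h1
    · refine (CLX.one_le hc hp he hh f h1.1 h1.2).trans (le_of_eq ?_)
      exact sum_congr rfl fun z _ => by congr
    · refine sum_nonneg fun z _ => ?_
      split_ifs
      exacts [n _ _ _, le_rfl]
  · have := card_arc true z.1 z.2
    rw [← Nat.cast_pow, Nat.cast_le]
    convert this

open Classical in
/-- the deviations at the roots -/
theorem root_le (hh : ∀ P : Finset V, OK P (h P)) (f : (V → V) → ℝ) :
    ∑ M ∈ PMon univ, ∑ N ∈ PMon univ, W c M * W c N * ∑ o : Ob V,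
      (if Arc o ∧ Even o.P.card ∧ Sub (att o false o.s) M ∧ Sub (att o true o.s) N then
        dev c f h o o.s (att o false o.s ∘ M) else 0) ≤ CLs c f h := by
  simp only [mul_sum]
  rw [sum_congr rfl fun M _ => sum_comm, sum_comm, CLs]
  refine sum_le_sum fun o _ => ?_
  have n : ∀ ρ ∈ (univ : Finset V), 0 ≤ if Arc o ∧ OK o.P ρ then
      ∑ C ∈ PMon (SP o.P ρ)ᶜ, Om c h o ρ * (W c C * dev c f h o ρ C) else 0 := fun ρ _ => by
    split_ifs
    · exact sum_nonneg fun C _ => mul_nonneg (Om_nonneg _ _ _ _)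
        (mul_nonneg (W_nonneg _ _) (sq_nonneg _))
    · exact le_rfl
  by_cases h1 : Arc o ∧ Even o.P.card
  swap
  · refine le_trans (le_of_eq ?_) (sum_nonneg n)
    refine sum_eq_zero fun M _ => sum_eq_zero fun N _ => ?_
    rw [if_neg fun a => h1 ⟨a.1, a.2.1⟩, mul_zero]
  obtain ⟨ho, hev⟩ := h1
  have no : ¬ Odd o.P.card := Nat.not_odd_iff_even.2 hev
  have ok : OK o.P o.s := fun a => absurd a no
  have e1 : SP o.P (h o.P) = SP o.P o.s := by simp [SP, no]
  have e2 : ∀ a, att o a (h o.P) = att o a o.s := fun a => by rw [att, att, e1]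
  have d1 : Disjoint (SP o.P o.s) (SP o.P o.s)ᶜ := disjoint_compl_right
  refine le_trans (le_of_eq ?_) (single_le_sum n (mem_univ o.s))
  rw [if_pos ⟨ho, ok⟩]
  have e3 : ∑ N ∈ PMon univ, (if Sub (att o true o.s) N then W c N else 0) =
      W c (att o true o.s) * H c (SP o.P o.s)ᶜ := by
    rw [sum_ext (att_mem ho ok true), H, mul_sum]
    exact sum_congr rfl fun C hC => W_comp c (att_mem ho ok true) hC d1
  have e4 : ∀ M : V → V, ∑ N ∈ PMon univ, W c M * W c N *
      (if Arc o ∧ Even o.P.card ∧ Sub (att o false o.s) M ∧ Sub (att o true o.s) N then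
        dev c f h o o.s (att o false o.s ∘ M) else 0) = if Sub (att o false o.s) M then
        W c M * dev c f h o o.s (att o false o.s ∘ M) *
          (W c (att o true o.s) * H c (SP o.P o.s)ᶜ) else 0 := fun M => by
    split_ifs with a
    · rw [← e3, mul_sum]
      refine sum_congr rfl fun N _ => ?_
      by_cases b : Sub (att o true o.s) N
      · rw [if_pos ⟨ho, hev, a, b⟩, if_pos b]; ring
      · rw [if_neg fun x => b x.2.2.2, if_neg b]; ring
    · exact sum_eq_zero fun N _ => by rw [if_neg fun x => a x.2.2.1, mul_zero]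
  rw [sum_congr rfl fun M _ => e4 M, sum_ext (att_mem ho ok false)]
  refine sum_congr rfl fun C hC => ?_
  rw [W_comp c (att_mem ho ok false) hC d1, comp_cancel (att_mem ho ok false), Om, e1, e2, e2,
    mul_comm (W c (att o false o.s)) (W c (att o true o.s)), min_self]
  ring

end Vale.Agent.P308
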