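import Vale.Agent.P308.GU

/-! The errors of the children (job Child). -/

namespace Vale.Agent.P308

open Finset

variable {V : Type} [Fintype V] [DecidableEq V] {c : V → V → ℝ} {L : ℝ}
  {blk : Finset V → V → Finset V} {τ : Finset V → V → ℝ} {h : Finset V → V}

namespace ChX

lemma sum_inj {α β : Type} [Fintype β] (s : Finset α) (g : α → β) (hg : Set.InjOn g s)
    {F : α → ℝ} {G : β → ℝ} (h0 : ∀ y, 0 ≤ G y) (hF : ∀ x ∈ s, F x ≤ G (g x)) :
    ∑ x ∈ s, F x ≤ ∑ y, G y := by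
  classical
  refine (sum_le_sum hF).trans ?_
  rw [← sum_image hg]
  exact sum_le_sum_of_subset_of_nonneg (subset_univ _) fun y _ _ => h0 y

lemma ga_SP (c : V → V → ℝ) (t : V → ℝ) {o : Ob V} (ho : Arc o) {η : V} (hη : OK o.P η)
    (a : Bool) : ga c t (SP o.P η) (o.A a) =
      ga c t o.P (o.A a) * if Odd o.P.card then t η else 1 := by
  unfold SP
  split_ifs with g
  · rw [ga_insert c t (hη g), mul_comm]
    by_contra hn
    exact hη g (ho.supp a η hn)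
  · rw [mul_one]

lemma compl_eq {S T : Finset V} (h : S ⊆ T) : T \ S ∪ Tᶜ = Sᶜ := by
  ext v
  have := @h v
  simp only [mem_union, mem_sdiff, mem_compl]
  tauto

lemma dj (S T : Finset V) : Disjoint (T \ S) Tᶜ :=
  disjoint_left.2 fun _ h1 h2 => mem_compl.1 h2 (mem_sdiff.1 h1).1

open Classical in
noncomputable def Ps (c : V → V → ℝ) (f : (V → V) → ℝ) (h : Finset V → V) (o : Ob V)
    (y : V × (V → V)) : ℝ :=
  if OK o.P y.1 ∧ y.2 ∈ PMon (SP o.P y.1)ᶜ then Om c h o y.1 * (W c y.2 * dev c f h o y.1 y.2)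
  else 0

noncomputable def Xi (c : V → V → ℝ) (o : Ob V) (y : V × (V → V)) : ℝ :=
  if y.2 ∈ PMon (SP o.P y.1)ᶜ then W c y.2 / H c (SP o.P y.1)ᶜ else 0

lemma Ps_nonneg (f : (V → V) → ℝ) (o : Ob V) (y : V × (V → V)) : 0 ≤ Ps c f h o y := by
  unfold Ps
  split_ifs
  exacts [mul_nonneg (Om_nonneg _ _ _ _) (mul_nonneg (W_nonneg _ _) (sq_nonneg _)), le_rfl]

lemma Xi_nonneg (o : Ob V) (y : V × (V → V)) : 0 ≤ Xi c o y := by
  unfold Xi
  split_ifs
  exacts [div_nonneg (W_nonneg _ _) (H_nonneg _ _), le_rfl]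

lemma sum_Xi (o : Ob V) : ∑ y, Xi c o y ≤ Fintype.card V := by
  rw [Fintype.sum_prod_type]
  refine (sum_le_card_nsmul _ _ 1 fun ρ _ => ?_).trans (by simp)
  simp only [Xi]
  rw [sum_ite_mem, univ_inter, ← sum_div]
  exact div_self_le_one _

open Classical in
lemma sum_Ps (f : (V → V) → ℝ) :
    ∑ o : Ob V, (if Arc o then ∑ y, Ps c f h o y else 0) = CLs c f h := by
  refine sum_congr rfl fun o _ => ?_
  by_cases ho : Arc o
  · rw [if_pos ho, Fintype.sum_prod_type]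
    refine sum_congr rfl fun ρ _ => ?_
    by_cases g : OK o.P ρ
    · simp only [Ps, g, ho, true_and, if_true]
      rw [sum_ite_mem, univ_inter]
    · simp [Ps, g]
  · simp [ho]

end ChX

open ChX

/-- the gauge of a larger set is compared with the helper vertex of the arc -/
theorem K1 (hc : Ker c) (hl : Lam c L blk τ h) {o : Ob V} (ho : Arc o) (h2 : 2 ≤ o.P.card)
    {P : Finset V} (hP : o.P ⊆ P) {ρ ρ' : V} (hρ : OK o.P ρ) (hρ' : OK o.P ρ') :
    ga c (τ P) o.P (o.A true) * ga c (τ P) o.P (o.A false) *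
      (if Odd o.P.card then τ P ρ * τ P ρ' else 1) * H c (SP o.P ρ')ᶜ ≤ L ^ 5 * Om c h o ρ := by
  have L1 := hl.one
  have hh : OK o.P (h o.P) := hl.out _
  have gl : ∀ (Q : Finset V) a η, OK o.P η →
      ga c (τ Q) o.P (o.A a) * (if Odd o.P.card then τ Q η else 1) ≤ L ^ 2 * W c (att o a η) :=
    fun Q a η hη => ga_SP c (τ Q) ho hη a ▸ ga_le hc L1 (fun v => (hl.pos Q v).le) (hl.lo Q)
      (ho.inv a) ((ho.fix_two hη a).trans (by norm_num)) (att_mem ho hη a) (sub_att ho hη a)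
  have k2 : ∀ a, ga c (τ P) o.P (o.A a) * (if Odd o.P.card then τ P ρ' else 1) * H c (SP o.P ρ')ᶜ ≤
      L ^ 3 * (W c (att o a (h o.P)) * H c (SP o.P (h o.P))ᶜ) := by
    intro a
    have w0 := W_nonneg c (att o a (h o.P))
    by_cases g : Odd o.P.card
    · obtain ⟨e, he, e1, e2⟩ := ho.fix_one g a
      have sp : ∀ t : V → ℝ, ga c t o.P (o.A a) = t e * ∏ v ∈ o.P.erase e, √(c v (o.A a v)) := by
        intro t
        rw [ga, ← mul_prod_erase _ _ he, if_pos e1]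
        congr 1
        exact prod_congr rfl fun v hv =>
          if_neg fun k => ne_of_mem_erase hv (e2 v (mem_of_mem_erase hv) k)
      have k := gl o.P a _ hh
      have m := hl.max _ g ρ' (hρ' g)
      have q := hl.cmp P _ hP h2 e he ρ'
      simp only [SP, if_pos g, sp] at k ⊢
      have R0 : 0 ≤ ∏ v ∈ o.P.erase e, √(c v (o.A a v)) := prod_nonneg fun _ _ => Real.sqrt_nonneg _
      generalize ∏ v ∈ o.P.erase e, √(c v (o.A a v)) = R at k R0 ⊢
      have t0 := (hl.pos o.P e).le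
      have H0 := H_nonneg c (insert ρ' o.P)ᶜ
      have H1 := H_nonneg c (insert (h o.P) o.P)ᶜ
      calc τ P e * R * τ P ρ' * H c (insert ρ' o.P)ᶜ
          = τ P e * τ P ρ' * (R * H c (insert ρ' o.P)ᶜ) := by ring
        _ ≤ L * (τ o.P e * τ o.P ρ') * (R * H c (insert ρ' o.P)ᶜ) :=
          mul_le_mul_of_nonneg_right q (mul_nonneg R0 H0)
        _ = L * τ o.P e * R * (τ o.P ρ' * H c (insert ρ' o.P)ᶜ) := by ring
        _ ≤ L * τ o.P e * R * (τ o.P (h o.P) * H c (insert (h o.P) o.P)ᶜ) :=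
          mul_le_mul_of_nonneg_left m (by positivity)
        _ = L * H c (insert (h o.P) o.P)ᶜ * (τ o.P e * R * τ o.P (h o.P)) := by ring
        _ ≤ L * H c (insert (h o.P) o.P)ᶜ * (L ^ 2 * W c (att o a (h o.P))) :=
          mul_le_mul_of_nonneg_left k (by positivity)
        _ = _ := by ring
    · have k := gl P a _ hh
      simp only [SP, if_neg g] at k ⊢
      have H0 := H_nonneg c o.Pᶜ
      refine (mul_le_mul_of_nonneg_right k H0).trans ?_
      rw [mul_assoc]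
      exact mul_le_mul_of_nonneg_right (pow_le_pow_right₀ L1 (by norm_num)) (mul_nonneg w0 H0)
  have k3 : ∀ a, ga c (τ P) o.P (o.A a) * ga c (τ P) o.P (o.A !a) *
      (if Odd o.P.card then τ P ρ * τ P ρ' else 1) * H c (SP o.P ρ')ᶜ ≤
      L ^ 5 * (W c (att o a ρ) * W c (att o (!a) (h o.P)) * H c (SP o.P (h o.P))ᶜ) := by
    intro a
    have t0 : 0 ≤ if Odd o.P.card then τ P ρ' else 1 := by
      split_ifs
      exacts [(hl.pos _ _).le, zero_le_one]
    have := mul_le_mul (gl P a ρ hρ) (k2 (!a)) (mul_nonneg (mul_nonneg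
      (ga_nonneg c (fun v => (hl.pos P v).le) _ _) t0) (H_nonneg _ _))
      (mul_nonneg (by positivity) (W_nonneg _ _))
    refine le_trans (le_of_eq ?_) (this.trans (le_of_eq (by ring)))
    split_ifs <;> ring
  rw [Om, min_mul_of_nonneg _ _ (H_nonneg _ _), mul_min_of_nonneg _ _ (by positivity)]
  refine le_min (k3 true) (le_trans (le_of_eq ?_) (k3 false))
  rw [mul_comm (ga c (τ P) o.P (o.A true))]
  rfl

theorem cfg_le (hc : Ker c) (hl : Lam c L blk τ h) {o1 o2 : Ob V} (h2 : Two o1 o2) {b : Bool}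
    {z : V × (V → V)} (hz : z ∈ Cfg h o1 o2 b) (P : Finset V) :
    ga c (τ P) (SU h o1 o2 \ o1.P) (o2.A b) ≤
      (if Odd o1.P.card then τ P z.1 else 1) * (L ^ 2 * W c z.2) := by
  classical
  obtain ⟨-, z1, z2, z3, z4⟩ := mem_filter.1 hz
  have k : ga c (τ P) (SU h o1 o2 \ SP o1.P z.1) (o2.A b) ≤ L ^ 2 * W c z.2 := by
    refine ga_le hc hl.one (fun v => (hl.pos P v).le) (hl.lo P) (h2.a2.inv b)
      (le_trans (card_le_card fun v hv => ?_) (h2.fix_four hl.out b b)) z3 z4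
    obtain ⟨v1, v2⟩ := mem_filter.1 hv
    obtain ⟨v3, v4⟩ := mem_sdiff.1 v1
    refine mem_filter.2 ⟨v3, (h2.fix_iff b b v).2 ⟨?_, v2⟩⟩
    by_contra hn
    exact v4 (sub_SP _ _ (h2.a1.supp b v hn))
  by_cases g : Odd o1.P.card
  · have e0 : SP o1.P z.1 = insert z.1 o1.P := if_pos g
    have e : SU h o1 o2 \ o1.P = insert z.1 (SU h o1 o2 \ SP o1.P z.1) := by
      ext v
      have := @z2 z.1
      have := z1 g
      simp only [e0, mem_insert, mem_sdiff] at *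
      by_cases q : v = z.1
      · subst q; tauto
      · tauto
    have n1 : z.1 ∉ SU h o1 o2 \ SP o1.P z.1 := by simp [e0]
    have fx : o2.A b z.1 = z.1 := by
      by_contra hn
      exact n1 (((mem_PMon.1 z3 z.1).2).1 (z4 _ hn ▸ hn))
    rw [if_pos g, e, ga_insert c _ n1 fx]
    exact mul_le_mul_of_nonneg_left k (hl.pos _ _).le
  · have e0 : SP o1.P z.1 = o1.P := if_neg g
    rwa [if_neg g, one_mul, ← e0]

namespace ChX

lemma one (hc : Ker c) (hp : Pos c) (he : Even (Fintype.card V)) (hl : Lam c L blk τ h)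
    (f : (V → V) → ℝ) {o1 o2 : Ob V} (h2 : Two o1 o2) (hc2 : 2 ≤ o1.P.card) {b : Bool}
    {z z' : V × (V → V)} (hz : z ∈ Cfg h o1 o2 b) (hz' : z' ∈ Cfg h o1 o2 (!b)) :
    Fl c blk o1 o2 * (mu c f (SU h o1 o2) (att o1 true z.1 ∘ z.2) -
      mu c f (SU h o1 o2) (att o1 false z.1 ∘ z.2) - Db c f h o1) ^ 2 ≤
    (Fintype.card V * L) ^ 8 * L ^ 9 *
      ((∑ C ∈ PMon (SU h o1 o2)ᶜ, Ps c f h o1 (z.1, z.2 ∘ C)) *
        ∑ C ∈ PMon (SU h o1 o2)ᶜ, Xi c o1 (z'.1, z'.2 ∘ C)) := by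
  classical
  have L1 := hl.one
  obtain ⟨-, z1, z2, z3, -⟩ := mem_filter.1 hz
  obtain ⟨-, y1, y2, y3, -⟩ := mem_filter.1 hz'
  have HS : 0 < H c (SU h o1 o2)ᶜ := H_compl_pos hc hp he (SP_even (hl.out _))
  have H1 : 0 < H c (SP o1.P z'.1)ᶜ := H_compl_pos hc hp he (SP_even y1)
  have a1 := Fl_le hc hl h2 true b
  rw [h2.ga_split, h2.ga_split] at a1
  have a2 := mu_sq (f := f) HS (att o1 true z.1 ∘ z.2) (att o1 false z.1 ∘ z.2) (Db c f h o1)
  have a3 := cfg_le hc hl h2 hz (o1.P ∪ o2.P)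
  have a4 := cfg_le hc hl h2 hz' (o1.P ∪ o2.P)
  have a5 := K1 hc hl h2.a1 hc2 (subset_union_left (s₂ := o2.P)) z1 y1
  have e1 : ∑ C ∈ PMon (SU h o1 o2)ᶜ, Ps c f h o1 (z.1, z.2 ∘ C) = Om c h o1 z.1 * W c z.2 *
      ∑ C ∈ PMon (SU h o1 o2)ᶜ, W c C * (f ((att o1 true z.1 ∘ z.2) ∘ C) -
        f ((att o1 false z.1 ∘ z.2) ∘ C) - Db c f h o1) ^ 2 := by
    rw [mul_sum]
    refine sum_congr rfl fun C hC => ?_
    have m := comp_mem z3 hC (dj _ _)
    rw [compl_eq z2] at m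
    rw [Ps, if_pos ⟨z1, m⟩, W_comp c z3 hC (dj _ _), dev,
      Function.comp_assoc, Function.comp_assoc]
    ring
  have e2 : ∑ C ∈ PMon (SU h o1 o2)ᶜ, Xi c o1 (z'.1, z'.2 ∘ C) =
      W c z'.2 * H c (SU h o1 o2)ᶜ / H c (SP o1.P z'.1)ᶜ := by
    rw [H, mul_sum, sum_div]
    refine sum_congr rfl fun C hC => ?_
    have m := comp_mem y3 hC (dj _ _)
    rw [compl_eq y2] at m
    rw [Xi, if_pos m, W_comp c y3 hC (dj _ _)]
  rw [e1, e2]
  have t0 := fun v => (hl.pos (o1.P ∪ o2.P) v).le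
  have g1 := ga_nonneg c t0 o1.P (o1.A true)
  have g2 := ga_nonneg c t0 o1.P (o1.A false)
  have g3 := ga_nonneg c t0 (SU h o1 o2 \ o1.P) (o2.A (!b))
  have w1 := W_nonneg c z.2
  have w2 := W_nonneg c z'.2
  have e3 : (if Odd o1.P.card then τ (o1.P ∪ o2.P) z.1 * τ (o1.P ∪ o2.P) z'.1 else 1) =
      (if Odd o1.P.card then τ (o1.P ∪ o2.P) z.1 else 1) *
        if Odd o1.P.card then τ (o1.P ∪ o2.P) z'.1 else 1 := by split_ifs <;> simp
  have p1 : 0 ≤ if Odd o1.P.card then τ (o1.P ∪ o2.P) z.1 else 1 := by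
    split_ifs
    exacts [t0 _, zero_le_one]
  have p2 : 0 ≤ if Odd o1.P.card then τ (o1.P ∪ o2.P) z'.1 else 1 := by
    split_ifs
    exacts [t0 _, zero_le_one]
  rw [e3, ← le_div_iff₀ H1] at a5
  rw [Bool.not_true] at a1
  have a6 := mul_le_mul a3 a4 g3 (by positivity)
  generalize (if Odd o1.P.card then τ (o1.P ∪ o2.P) z.1 else 1) = u at *
  generalize (if Odd o1.P.card then τ (o1.P ∪ o2.P) z'.1 else 1) = u' at *
  generalize ∑ C ∈ PMon (SU h o1 o2)ᶜ, W c C * (f ((att o1 true z.1 ∘ z.2) ∘ C) -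
    f ((att o1 false z.1 ∘ z.2) ∘ C) - Db c f h o1) ^ 2 = D at *
  generalize (mu c f (SU h o1 o2) (att o1 true z.1 ∘ z.2) -
    mu c f (SU h o1 o2) (att o1 false z.1 ∘ z.2) - Db c f h o1) = x at *
  generalize ga c (τ (o1.P ∪ o2.P)) o1.P (o1.A true) = G1 at *
  generalize ga c (τ (o1.P ∪ o2.P)) o1.P (o1.A false) = G2 at *
  generalize ga c (τ (o1.P ∪ o2.P)) (SU h o1 o2 \ o1.P) (o2.A b) = G3 at *
  generalize ga c (τ (o1.P ∪ o2.P)) (SU h o1 o2 \ o1.P) (o2.A (!b)) = G4 at *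
  generalize H c (SU h o1 o2)ᶜ = S at *
  have k0 : (0 : ℝ) ≤ (Fintype.card V * L) ^ 8 := by positivity
  generalize ((Fintype.card V : ℝ) * L) ^ 8 = κ at *
  have D0 : 0 ≤ D := le_trans (by positivity) a2
  calc _ ≤ κ * (G1 * G3 * (G2 * G4) * S ^ 2) * x ^ 2 := mul_le_mul_of_nonneg_right a1 (sq_nonneg _)
    _ = κ * G1 * G2 * S * (S * x ^ 2) * (G3 * G4) := by ring
    _ ≤ κ * G1 * G2 * S * (S * x ^ 2) * (u * (L ^ 2 * W c z.2) * (u' * (L ^ 2 * W c z'.2))) :=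
      mul_le_mul_of_nonneg_left a6 (by positivity)
    _ = κ * L ^ 4 * W c z.2 * W c z'.2 * S * (G1 * G2 * (u * u') * (S * x ^ 2)) := by ring
    _ ≤ κ * L ^ 4 * W c z.2 * W c z'.2 * S * (L ^ 5 * Om c h o1 z.1 / H c (SP o1.P z'.1)ᶜ * D) :=
      mul_le_mul_of_nonneg_left (mul_le_mul a5 a2 (by positivity)
        (le_trans (by positivity) a5)) (by positivity)
    _ = _ := by ring

open Classical in
lemma pair (hc : Ker c) (hp : Pos c) (he : Even (Fintype.card V)) (hl : Lam c L blk τ h)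
    (f : (V → V) → ℝ) (o1 o2 : Ob V) (b : Bool) :
    Fl c blk o1 o2 * ∑ z ∈ Cfg h o1 o2 b, (mu c f (SU h o1 o2) (att o1 true z.1 ∘ z.2) -
      mu c f (SU h o1 o2) (att o1 false z.1 ∘ z.2) - Db c f h o1) ^ 2 ≤
    (Fintype.card V * L) ^ 8 * L ^ 9 * if Arc o1 then ∑ y, ∑ y',
      (if Arc o2 ∧ Sub (o2.A b) y.2 ∧ Sub (o2.A (!b)) y'.2 then Ps c f h o1 y * Xi c o1 y' else 0)
      else 0 := by
  have L1 := hl.one
  have r0 : 0 ≤ (Fintype.card V * L) ^ 8 * L ^ 9 * if Arc o1 then ∑ y, ∑ y',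
      (if Arc o2 ∧ Sub (o2.A b) y.2 ∧ Sub (o2.A (!b)) y'.2 then Ps c f h o1 y * Xi c o1 y' else 0)
      else 0 := by
    refine mul_nonneg (by positivity) ?_
    split_ifs
    · refine sum_nonneg fun y _ => sum_nonneg fun y' _ => ?_
      split_ifs
      exacts [mul_nonneg (Ps_nonneg _ _ _) (Xi_nonneg _ _), le_rfl]
    · exact le_rfl
  by_cases h2 : Two o1 o2
  swap
  · rwa [Fl_zero c blk h2, zero_mul]
  by_cases h1 : o1.P.card = 1
  · simp only [att_single h2.a1 h1, Db_single h2.a1 h1, sub_self]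
    simpa using r0
  have hc2 : 2 ≤ o1.P.card := by
    have := card_pos.2 ⟨_, h2.a1.hs⟩
    omega
  obtain ⟨z', hz'⟩ := h2.cfg hl.out (!b)
  rw [mul_sum, if_pos h2.a1]
  refine (sum_le_sum fun z hz => one hc hp he hl f h2 hc2 hz hz').trans ?_
  rw [← mul_sum, ← sum_mul]
  refine mul_le_mul_of_nonneg_left ?_ (by positivity)
  obtain ⟨-, -, -, y3, y4⟩ := mem_filter.1 hz'
  have k1 : ∑ z ∈ Cfg h o1 o2 b, ∑ C ∈ PMon (SU h o1 o2)ᶜ, Ps c f h o1 (z.1, z.2 ∘ C) ≤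
      ∑ y : V × (V → V), if Sub (o2.A b) y.2 then Ps c f h o1 y else 0 := by
    rw [← sum_product' (f := fun (z : V × (V → V)) C => Ps c f h o1 (z.1, z.2 ∘ C))]
    refine sum_inj _ (fun x => (x.1.1, x.1.2 ∘ x.2)) ?_ (fun y => ?_) fun x hx => ?_
    · rintro ⟨⟨ρ, r⟩, C⟩ hx ⟨⟨ρ', r'⟩, C'⟩ hx' e
      obtain ⟨x1, x2⟩ := mem_product.1 (mem_coe.1 hx)
      obtain ⟨x3, x4⟩ := mem_product.1 (mem_coe.1 hx')
      obtain ⟨rfl, e2⟩ := Prod.mk.inj e
      obtain ⟨rfl, rfl⟩ := comp_inj (mem_filter.1 x1).2.2.2.1 (mem_filter.1 x3).2.2.2.1 x2 x4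
        (dj _ _) e2
      rfl
    · split_ifs
      exacts [Ps_nonneg _ _ _, le_rfl]
    · obtain ⟨x1, x2⟩ := mem_product.1 hx
      obtain ⟨-, -, -, z3, z4⟩ := mem_filter.1 x1
      rw [if_pos (z4.trans (sub_comp_left z3 x2 (dj _ _)))]
  have k2 : ∑ C ∈ PMon (SU h o1 o2)ᶜ, Xi c o1 (z'.1, z'.2 ∘ C) ≤
      ∑ y : V × (V → V), if Sub (o2.A (!b)) y.2 then Xi c o1 y else 0 := by
    refine sum_inj _ (fun C => (z'.1, z'.2 ∘ C)) ?_ (fun y => ?_) fun x hx => ?_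
    · intro C hC C' hC' e
      exact (comp_inj y3 y3 (mem_coe.1 hC) (mem_coe.1 hC') (dj _ _) (Prod.mk.inj e).2).2
    · split_ifs
      exacts [Xi_nonneg _ _, le_rfl]
    · rw [if_pos (y4.trans (sub_comp_left y3 hx (dj _ _)))]
  refine (mul_le_mul k1 k2 (sum_nonneg fun _ _ => Xi_nonneg _ _) (sum_nonneg fun y _ => ?_)).trans
    (le_of_eq ?_)
  · split_ifs
    exacts [Ps_nonneg _ _ _, le_rfl]
  · rw [sum_mul_sum]
    refine sum_congr rfl fun y _ => sum_congr rfl fun y' _ => ?_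
    by_cases g1 : Sub (o2.A b) y.2 <;> by_cases g2 : Sub (o2.A (!b)) y'.2 <;> simp [g1, g2, h2.a2]

end ChX

theorem child_le (hc : Ker c) (hp : Pos c) (he : Even (Fintype.card V)) (hl : Lam c L blk τ h)
    (f : (V → V) → ℝ) :
    ∑ o1, ∑ o2, Fl c blk o1 o2 * errS c f h o1 o2 ≤
      2 * (Fintype.card V : ℝ) ^ 15 * L ^ 17 * CLs c f h := by
  classical
  have L1 := hl.one
  rw [← sum_Ps, mul_sum]
  refine sum_le_sum fun o1 _ => ?_
  simp only [errS, mul_sum (s := univ)]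
  refine (sum_le_sum fun o2 _ => sum_le_sum fun b _ => pair hc hp he hl f o1 o2 b).trans ?_
  by_cases h1 : Arc o1
  swap
  · simp [h1]
  simp only [if_pos h1, ← mul_sum]
  rw [sum_comm]
  have k : ∀ b : Bool, ∑ o2 : Ob V, ∑ y, ∑ y', (if Arc o2 ∧ Sub (o2.A b) y.2 ∧ Sub (o2.A (!b)) y'.2
      then Ps c f h o1 y * Xi c o1 y' else 0) ≤
      (Fintype.card V : ℝ) ^ 7 * ∑ y, Ps c f h o1 y := by
    intro b
    rw [sum_comm, mul_sum]
    refine sum_le_sum fun y _ => ?_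
    rw [sum_comm]
    refine (sum_le_sum (g := fun y' => (Fintype.card V : ℝ) ^ 6 * Ps c f h o1 y * Xi c o1 y')
      fun y' _ => ?_).trans ?_
    · rw [← sum_filter, sum_const, nsmul_eq_mul, mul_assoc]
      exact mul_le_mul_of_nonneg_right (by exact_mod_cast card_arc b y.2 y'.2)
        (mul_nonneg (Ps_nonneg _ _ _) (Xi_nonneg _ _))
    · rw [← mul_sum]
      refine (mul_le_mul_of_nonneg_left (sum_Xi o1)
        (mul_nonneg (by positivity) (Ps_nonneg _ _ _))).trans (le_of_eq (by ring))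
  refine (mul_le_mul_of_nonneg_left (sum_le_sum fun b _ => k b) (by positivity)).trans
    (le_of_eq ?_)
  rw [sum_const, card_univ, Fintype.card_bool, nsmul_eq_mul]
  push_cast
  ring

end Vale.Agent.P308
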