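import Vale.Agent.P308.Sem
import Vale.Agent.P308.Anneal

/-! One round of the annealing (job Stage). -/

namespace Vale.Agent.P308

open Finset P317 P317.Prog P328

variable {n : ℕ} (G : SimpleGraph (Fin n))

lemma adj_length : (adj G).length = n := by simp [adj]

lemma tab_get {β : Type} (F : ℕ → ℕ → β) (d : β) {i j : ℕ} (hi : i < n) (hj : j < n) :
    ((tab n n F).getD i []).getD j d = F i j := by
  simp [tab, List.getD_eq_getElem?_getD, hi, hj]

lemma aent_adj (u v : Fin n) : ((aent (adj G) u v : ℚ) : ℝ) = aK G u v := by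
  classical
  simp only [aent, aK, adj, List.getD_eq_getElem?_getD, List.getElem?_ofFn, u.2, v.2, dif_pos,
    Option.getD_some, Fin.eta, decide_eq_true_eq]
  split_ifs <;> simp

lemma ker_aM : ker n (aM (adj G)) = aK G := by
  funext u v
  rw [ker, cent, aM, adj_length, tab_get _ _ u.2 v.2, aent_adj]

lemma ker_cM (e : ℕ) (k : List (List ℕ)) : ker n (cM (adj G) e k) = aK G + bK n e k := by
  funext u v
  rw [ker, cent, cM, adj_length, tab_get _ _ u.2 v.2, Rat.cast_add, aent_adj]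
  rfl

lemma aK_le_one (u v : Fin n) : aK G u v ≤ 1 := by
  unfold aK; split_ifs <;> norm_num

/-- the invariant after `t` rounds -/
structure Inv (e t : ℕ) (s : St) : Prop where
  symm : ∀ u v : Fin n, kent s.1 u v = kent s.1 v u
  lo : ∀ u v : Fin n, TT n e ≤ kent s.1 u v + t
  hi : ∀ u v : Fin n, kent s.1 u v ≤ TT n e + t
  marg : ∀ u v, u ≠ v → del (Fin n) / 2 ≤ pv (aK G) (bK n e s.1) u v
  rlo : (1 - 8 / (GG n e : ℝ)) ^ t * H (aK G + bK n e s.1) univ ≤
    s.2.1 * (2 / (NN n e : ℝ)) ^ t * H (aK G + bK n e (s0 n e).1) univ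
  rhi : s.2.1 * (2 / (NN n e : ℝ)) ^ t * H (aK G + bK n e (s0 n e).1) univ ≤
    (1 + 8 / (GG n e : ℝ)) ^ t * H (aK G + bK n e s.1) univ
  done : s.2.2 = true → ∀ u v, u ≠ v → pv (aK G) (bK n e s.1) u v ≤ 41 / 10 * del (Fin n)
  pot : s.2.2 = false → Phi (aK G) (bK n e s.1) ≤
    Phi (aK G) (bK n e (s0 n e).1) - t * (eta (Fin n) * del (Fin n) / 4)

variable {G}

lemma kap_eq : ((kap n : ℚ) : ℝ) = 1 + eta (Fin n) := by
  simp [kap, eta]

lemma eta_pos (h2 : 2 ≤ n) : 0 < eta (Fin n) := by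
  have : (0 : ℝ) < n := by exact_mod_cast (by omega : 0 < n)
  simp only [eta, Fintype.card_fin]; positivity

lemma eta_le (h2 : 2 ≤ n) : eta (Fin n) ≤ 1 := by
  have : (2 : ℝ) ≤ n := by exact_mod_cast h2
  simp only [eta, Fintype.card_fin]
  rw [div_le_one (by positivity)]; linarith

lemma kap_pow (h2 : 2 ≤ n) : (1 + eta (Fin n)) ^ Fintype.card (Fin n) ≤ 2 := by
  have h0 : (0 : ℝ) < n := by exact_mod_cast (by omega : 0 < n)
  have h1 : (1 + eta (Fin n)) ^ Fintype.card (Fin n) ≤ Real.exp (eta (Fin n)) ^ n := by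
    rw [Fintype.card_fin]
    exact pow_le_pow_left₀ (by linarith [eta_pos h2]) (by linarith [Real.add_one_le_exp (eta (Fin n))]) _
  have h3 : (n : ℝ) * eta (Fin n) = 1 / 8 := by
    simp only [eta, Fintype.card_fin]; field_simp
  rw [← Real.exp_nat_mul, h3] at h1
  have h4 := Real.exp_bound_div_one_sub_of_interval (x := 1 / 8) (by norm_num) (by norm_num)
  linarith [show (1 : ℝ) / (1 - 1 / 8) ≤ 2 by norm_num]

lemma bq_cast (e k : ℕ) : ((bq n e k : ℚ) : ℝ) =
    BB n e * (1 + eta (Fin n)) ^ min k (2 * TT n e) / (1 + eta (Fin n)) ^ TT n e := by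
  rw [bq, ← kap_eq]; push_cast; rfl

lemma BB_pos {e : ℕ} (h2 : 2 ≤ n) (he : 1 ≤ e) : (1 : ℝ) ≤ BB n e := by
  have : 1 ≤ BB n e := Nat.mul_pos (by omega) he
  exact_mod_cast this

lemma bK_pos {e : ℕ} (h2 : 2 ≤ n) (he : 1 ≤ e) (k : List (List ℕ)) (u v : Fin n) :
    0 < bK n e k u v := by
  have := eta_pos h2
  have := BB_pos h2 he
  rw [bK, bq_cast]; positivity

lemma bK_s0 (e : ℕ) (u v : Fin n) : bK n e (s0 n e).1 u v = BB n e := by
  have : 0 ≤ eta (Fin n) := by unfold eta; positivity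
  rw [bK, bq_cast, kent, s0, tab_get _ _ u.2 v.2, min_eq_left (by omega),
    mul_div_cancel_right₀ _ (by positivity)]

lemma ker_bK {e : ℕ} (h2 : 2 ≤ n) (he : 1 ≤ e) {k : List (List ℕ)}
    (h : ∀ u v : Fin n, kent k u v = kent k v u) : Ker (bK n e k) :=
  ⟨fun u v => by rw [bK, bK, h], fun u v => (bK_pos h2 he k u v).le⟩

theorem Inv.good {e t : ℕ} {s : St} (h : Inv G e t s) (hn : Even n) (h2 : 2 ≤ n) (he : 1 ≤ e) :
    Good n e (cM (adj G) e s.1) := by
  have kb := ker_bK h2 he h.symm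
  refine ⟨hn, h2, ?_, fun u v _ => ?_, ?_⟩ <;> rw [ker_cM]
  · exact (ker_aK G).add kb
  · have h0 := eta_pos h2
    have h1 := eta_le h2
    have hB := BB_pos h2 he
    have a0 := (ker_aK G).nonneg u v
    have a1 := aK_le_one G u v
    have p1 : 1 ≤ (1 + eta (Fin n)) ^ min (kent s.1 u v) (2 * TT n e) := one_le_pow₀ (by linarith)
    have p2 : (1 + eta (Fin n)) ^ min (kent s.1 u v) (2 * TT n e) ≤
        (1 + eta (Fin n)) ^ TT n e * (1 + eta (Fin n)) ^ TT n e := by
      rw [← pow_add]; exact pow_le_pow_right₀ (by linarith) (by omega)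
    have p3 : (1 + eta (Fin n)) ^ TT n e ≤ 2 ^ TT n e := pow_le_pow_left₀ (by linarith) (by linarith) _
    have p4 : (0 : ℝ) < (1 + eta (Fin n)) ^ TT n e := by positivity
    have p5 : (BB n e : ℝ) + 1 ≤ 2 ^ BB n e := by exact_mod_cast Nat.lt_two_pow_self
    have p6 : (1 : ℝ) ≤ 2 ^ TT n e := one_le_pow₀ one_le_two
    rw [Pi.add_apply, Pi.add_apply, bK, bq_cast]
    constructor
    · refine le_add_of_nonneg_of_le a0 ?_
      rw [le_div_iff₀ p4, one_div, inv_pow, inv_mul_le_iff₀ (by positivity)]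
      have : (2 : ℝ) ^ TT n e ≤ 2 ^ bet n e := pow_le_pow_right₀ one_le_two (by unfold bet; omega)
      exact (p3.trans this).trans (le_mul_of_one_le_right (by positivity)
        (one_le_mul_of_one_le_of_one_le hB p1))
    · have : (BB n e : ℝ) * (1 + eta (Fin n)) ^ min (kent s.1 u v) (2 * TT n e) /
          (1 + eta (Fin n)) ^ TT n e ≤ BB n e * 2 ^ TT n e := by
        rw [div_le_iff₀ p4, mul_assoc]
        exact mul_le_mul_of_nonneg_left (p2.trans (mul_le_mul_of_nonneg_right p3 p4.le)) (by linarith)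
      rw [bet, pow_succ, pow_add]
      nlinarith [mul_le_mul_of_nonneg_left p5 (by linarith : (0 : ℝ) ≤ 2 ^ TT n e)]
  · exact marg_of_pv (ker_aK G) kb (fun u v _ => bK_pos h2 he _ u v) (by simpa) h.marg

theorem inv_zero {e : ℕ} (hn : Even n) (h2 : 2 ≤ n) (he : 1 ≤ e) : Inv G e 0 (s0 n e) := by
  have k : ∀ u v : Fin n, kent (s0 n e).1 u v = TT n e := fun u v => tab_get _ _ u.2 v.2
  refine ⟨fun u v => by rw [k, k], fun u v => by rw [k]; omega, fun u v => by rw [k]; omega,
    pv_init (ker_aK G) (aK_le_one G) (by simpa) (BB_pos h2 he) (bK_s0 e), by simp [s0],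
    by simp [s0], fun h => by simp [s0] at h, fun _ => by simp⟩

lemma anyP_iff {f : ℕ → ℕ → Bool} : anyP n f = true ↔ ∃ u v : Fin n, f u v = true := by
  simp only [anyP, List.any_eq_true, List.mem_range]
  exact ⟨fun ⟨i, hi, j, hj, h⟩ => ⟨⟨i, hi⟩, ⟨j, hj⟩, h⟩, fun ⟨u, v, h⟩ => ⟨u, u.2, v, v.2, h⟩⟩

lemma GG_ge {e : ℕ} (h2 : 2 ≤ n) (he : 1 ≤ e) : 200 * n ^ 2 ≤ GG n e := by
  have h1 : n ^ 2 ≤ n ^ 5 := Nat.pow_le_pow_right (by omega) (by norm_num)
  have h3 : n ^ 5 ≤ n ^ 5 * e * e := by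
    rw [mul_assoc]; exact Nat.le_mul_of_pos_right _ (Nat.mul_pos he he)
  have : GG n e = 192000 * (n ^ 5 * e * e) := by rw [GG, TT]; ring
  omega

/-- the deterministic part of a round -/
theorem Inv.next {e t : ℕ} (hn : Even n) (h2 : 2 ≤ n) (he : 1 ≤ e) (ht : t < TT n e) {s : St}
    (h : Inv G e t s) {Xs : List (List ℕ)}
    (hX : ∀ u v : Fin n, u ≠ v → |((phat (adj G) e s.1 Xs u v : ℚ) : ℝ) -
      pv (aK G) (bK n e s.1) u v| ≤ del (Fin n) / 10) :
    (∀ u v : Fin n, kent (nxt (adj G) e s Xs) u v = kent (nxt (adj G) e s Xs) v u) ∧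
    (∀ u v : Fin n, kent s.1 u v ≤ kent (nxt (adj G) e s Xs) u v + 1 ∧
      kent (nxt (adj G) e s Xs) u v ≤ kent s.1 u v + 1) ∧
    (∀ u v, u ≠ v → del (Fin n) / 2 ≤ pv (aK G) (bK n e (nxt (adj G) e s Xs)) u v) ∧
    ((s.2.2 || (!anyP n (low (adj G) e s.1 Xs) && !anyP n (high (adj G) e s.1 Xs))) = true →
      ∀ u v, u ≠ v → pv (aK G) (bK n e (nxt (adj G) e s Xs)) u v ≤ 41 / 10 * del (Fin n)) ∧
    ((s.2.2 || (!anyP n (low (adj G) e s.1 Xs) && !anyP n (high (adj G) e s.1 Xs))) = false →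
      Phi (aK G) (bK n e (nxt (adj G) e s Xs)) ≤
        Phi (aK G) (bK n e s.1) - eta (Fin n) * del (Fin n) / 4) := by
  have kb := ker_bK h2 he h.symm
  have pb : Pos (bK n e s.1) := fun u v _ => bK_pos h2 he _ u v
  have hn' : Even (Fintype.card (Fin n)) := by simpa
  have h0 := eta_pos h2
  have ps : ∀ u v : Fin n, phat (adj G) e s.1 Xs u v = phat (adj G) e s.1 Xs v u := by
    intro u v
    have : aent (adj G) u v = aent (adj G) v u := by
      have := (ker_aK G).symm u v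
      rw [← aent_adj, ← aent_adj] at this
      exact_mod_cast this
    rw [phat, phat, min_comm, max_comm, h.symm u v, this]
  have dl : ((1 / (10 * ((adj G).length : ℚ) ^ 2) : ℚ) : ℝ) = del (Fin n) := by
    simp [del, adj_length]
  have dh : ((4 / (10 * ((adj G).length : ℚ) ^ 2) : ℚ) : ℝ) = 4 * del (Fin n) := by
    simp only [del, adj_length, Fintype.card_fin]; push_cast; ring
  have li : ∀ u v : Fin n, low (adj G) e s.1 Xs u v = true ↔
      u ≠ v ∧ ((phat (adj G) e s.1 Xs u v : ℚ) : ℝ) < del (Fin n) := fun u v => by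
    rw [low, Bool.and_eq_true, decide_eq_true_eq, decide_eq_true_eq, ← dl, Rat.cast_lt,
      ne_eq, Fin.val_inj]
  have hi : ∀ u v : Fin n, high (adj G) e s.1 Xs u v = true ↔
      u ≠ v ∧ 4 * del (Fin n) < ((phat (adj G) e s.1 Xs u v : ℚ) : ℝ) := fun u v => by
    rw [high, Bool.and_eq_true, decide_eq_true_eq, decide_eq_true_eq, ← dh, Rat.cast_lt,
      ne_eq, Fin.val_inj]
  have ls : ∀ u v : Fin n, low (adj G) e s.1 Xs u v = true → low (adj G) e s.1 Xs v u = true :=
    fun u v => by rw [li, li, ps u v]; exact fun h => ⟨h.1.symm, h.2⟩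
  have hs : ∀ u v : Fin n, high (adj G) e s.1 Xs u v = true → high (adj G) e s.1 Xs v u = true :=
    fun u v => by rw [hi, hi, ps u v]; exact fun h => ⟨h.1.symm, h.2⟩
  have nl : ∀ u v : Fin n, u ≠ v → ¬ low (adj G) e s.1 Xs u v = true →
      9 / 10 * del (Fin n) ≤ pv (aK G) (bK n e s.1) u v := fun u v uv hl => by
    have := not_lt.1 fun k => hl ((li u v).2 ⟨uv, k⟩)
    linarith [(abs_le.1 (hX u v uv)).2]
  by_cases hd : s.2.2 = true
  · rw [nxt, if_pos hd]
    exact ⟨h.symm, fun u v => by omega, h.marg, fun _ => h.done hd, fun k => by simp [hd] at k⟩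
  rw [nxt, if_neg hd, upd, adj_length]
  by_cases hl : anyP n (low (adj G) e s.1 Xs) = true
  · rw [if_pos hl]
    set k' := tab n n fun i j => if low (adj G) e s.1 Xs i j = true then kent s.1 i j + 1
      else kent s.1 i j
    have e1 : ∀ u v : Fin n, kent k' u v = if low (adj G) e s.1 Xs u v = true then
        kent s.1 u v + 1 else kent s.1 u v := fun u v => tab_get _ _ u.2 v.2
    obtain ⟨u, v, huv⟩ := anyP_iff.1 hl
    obtain ⟨r1, r2⟩ := raise (b' := bK n e k') (ker_aK G) kb pb hn'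
      (fun u v => low (adj G) e s.1 Xs u v = true) ls ⟨u, v, ((li u v).1 huv).1, huv⟩
      (fun u v _ => by
        have := h.hi u v
        rw [bK, e1]
        split_ifs
        · rw [bK, bq_cast, bq_cast, min_eq_left (by omega), min_eq_left (by omega)]; ring
        · rfl) h.marg
      (fun u v uv k => by linarith [((li u v).1 k).2, (abs_le.1 (hX u v uv)).1]) nl
    refine ⟨fun u v => ?_, fun u v => ?_, r1, fun k => by simp [hd, hl] at k, fun _ => r2⟩
    · rw [e1, e1, h.symm u v, if_congr ⟨ls u v, ls v u⟩ rfl rfl]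
    · rw [e1]; split_ifs <;> omega
  rw [if_neg hl]
  set k' := tab n n fun i j => if high (adj G) e s.1 Xs i j = true then kent s.1 i j - 1
    else kent s.1 i j
  have e1 : ∀ u v : Fin n, kent k' u v = if high (adj G) e s.1 Xs u v = true then
      kent s.1 u v - 1 else kent s.1 u v := fun u v => tab_get _ _ u.2 v.2
  have nl' := fun u v uv => nl u v uv fun k => hl (anyP_iff.2 ⟨u, v, k⟩)
  refine ⟨fun u v => ?_, fun u v => ?_, ?_⟩
  · rw [e1, e1, h.symm u v, if_congr ⟨hs u v, hs v u⟩ rfl rfl]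
  · rw [e1]; split_ifs <;> omega
  by_cases hh : anyP n (high (adj G) e s.1 Xs) = true
  · obtain ⟨u, v, huv⟩ := anyP_iff.1 hh
    obtain ⟨r1, r2⟩ := lower (b' := bK n e k') (ker_aK G) kb pb hn'
      (fun u v => high (adj G) e s.1 Xs u v = true) hs ⟨u, v, ((hi u v).1 huv).1, huv⟩
      (fun u v _ => by
        have := h.hi u v
        have := h.lo u v
        rw [bK, e1]
        split_ifs
        · obtain ⟨j, hj⟩ : ∃ j, kent s.1 u v = j + 1 := ⟨kent s.1 u v - 1, by omega⟩
          rw [bK, bq_cast, bq_cast, min_eq_left (by omega), min_eq_left (by omega), hj,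
            Nat.add_sub_cancel]
          field_simp
          ring
        · rfl)
      (fun u v uv k => by linarith [((hi u v).1 k).2, (abs_le.1 (hX u v uv)).2]) nl'
    exact ⟨r1, fun k => by simp [hd, hh] at k, fun _ => r2⟩
  · have e2 : bK n e k' = bK n e s.1 := by
      funext u v
      rw [bK, e1, if_neg fun k => hh (anyP_iff.2 ⟨u, v, k⟩), bK]
    rw [e2]
    refine ⟨h.marg, fun _ u v uv => ?_, fun k => by simp [hl, hh] at k⟩
    have := not_lt.1 fun k => hh (anyP_iff.2 ⟨u, v, (hi u v).2 ⟨uv, k⟩⟩)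
    linarith [(abs_le.1 (hX u v uv)).1]

lemma bK_le {e : ℕ} (h2 : 2 ≤ n) (he : 1 ≤ e) {k k' : List (List ℕ)}
    (h : ∀ u v : Fin n, kent k u v ≤ kent k' u v + 1) (u v : Fin n) :
    (aK G + bK n e k) u v ≤ (1 + eta (Fin n)) * (aK G + bK n e k') u v := by
  have h0 := eta_pos h2
  have hB := BB_pos h2 he
  have a0 := (ker_aK G).nonneg u v
  have : bK n e k u v ≤ (1 + eta (Fin n)) * bK n e k' u v := by
    rw [bK, bK, bq_cast, bq_cast, ← mul_div_assoc, mul_left_comm, ← pow_succ']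
    have := h u v
    gcongr
    · linarith
    · omega
  simp only [Pi.add_apply]
  nlinarith

theorem round_good {e t : ℕ} (hn : Even n) (h2 : 2 ≤ n) (he : 1 ≤ e) (ht : t < TT n e) {s : St}
    (h : Inv G e t s) :
    1 - ((n : ℝ) ^ 2 + 1) * ((GG n e : ℝ) ^ 2 / NN n e) ≤
      Pr O0 (roundP (adj G) e (LL n e) s) (Inv G e (t + 1)) := by
  have hg := h.good hn h2 he
  have h0 := eta_pos h2
  have n0 : (0 : ℝ) < n := by exact_mod_cast (by omega : 0 < n)
  have G1 : (200 : ℝ) * n ^ 2 ≤ GG n e := by exact_mod_cast GG_ge h2 he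
  have n2 : (2 : ℝ) ≤ n := by exact_mod_cast h2
  have G0 : (0 : ℝ) < GG n e := by nlinarith
  have w0 : 0 ≤ 1 - 8 / (GG n e : ℝ) := by
    rw [sub_nonneg, div_le_one G0]; nlinarith
  rw [roundP, adj_length]
  refine le_trans (le_of_eq (by ring)) (Pr_bind (freq_close he hg) (fun Xs hX => ?_)
    (η' := (GG n e : ℝ) ^ 2 / NN n e) (by positivity))
  obtain ⟨a1, a2, a3, a4, a5⟩ := h.next hn h2 he ht (Xs := Xs) fun u v uv => by
    have b0 := bK_pos h2 he s.1 u v
    have a0 := (ker_aK G).nonneg u v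
    have y1 : bK n e s.1 u v / (aK G u v + bK n e s.1 u v) ≤ 1 :=
      (div_le_one (by linarith)).2 (by linarith)
    have e1 : ((phat (adj G) e s.1 Xs u v : ℚ) : ℝ) - pv (aK G) (bK n e s.1) u v =
        (((Xs.countP fun X => decide (X.getD (min (u : ℕ) v) 0 = max (u : ℕ) v) : ℕ) : ℝ) / NN n e -
          (aK G + bK n e s.1) u v * Q (aK G + bK n e s.1) u v / H (aK G + bK n e s.1) univ) *
          (bK n e s.1 u v / (aK G u v + bK n e s.1 u v)) := by
      rw [phat, adj_length, pv, Pi.add_apply, Pi.add_apply]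
      push_cast
      rw [aent_adj]
      have : aK G u v + bK n e s.1 u v ≠ 0 := by linarith
      simp only [bK] at this ⊢
      field_simp
    have h1 := hX u v uv
    rw [ker_cM] at h1
    rw [e1, abs_mul, abs_of_nonneg (a := _ / (_ + _)) (by positivity)]
    refine (mul_le_of_le_one_right (abs_nonneg _) y1).trans (h1.trans ?_)
    simp only [del, Fintype.card_fin]
    rw [div_div, div_le_div_iff₀ G0 (by positivity)]
    linarith
  have kb := ker_bK h2 he a1
  have r := rat_close (c' := cM (adj G) e (nxt (adj G) e s Xs)) he hg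
    (by rw [ker_cM]; exact (ker_aK G).add kb)
    (fun X _ => by
      rw [ker_cM, ker_cM]
      exact (W_le_of_le (by linarith) (fun u v _ => bK_le h2 he (fun u v => (a2 u v).2) u v) X).trans
        (mul_le_mul_of_nonneg_right (kap_pow h2) (W_nonneg _ _)))
    (by
      rw [ker_cM, ker_cM]
      exact (H_le_of_le (by linarith) (fun u v _ => bK_le h2 he (fun u v => (a2 u v).1) u v) _).trans
        (mul_le_mul_of_nonneg_right (kap_pow h2) (H_nonneg _ _)))
  rw [Pr_bind_ret]
  refine r.trans (Pr_mono _ fun r hr => ?_)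
  rw [ker_cM, ker_cM] at hr
  have f0 : (0 : ℝ) ≤ r * (2 / NN n e) := by positivity
  refine ⟨a1, fun u v => ?_, fun u v => ?_, a3, ?_, ?_, a4, fun k => ?_⟩
  · have := (a2 u v).1
    have := h.lo u v
    dsimp only
    omega
  · have := (a2 u v).2
    have := h.hi u v
    dsimp only
    omega
  · have h1 := mul_le_mul_of_nonneg_left hr.1 (pow_nonneg w0 t)
    have h3 := mul_le_mul_of_nonneg_left h.rlo f0
    dsimp only
    push_cast
    simp only [pow_succ]
    linarith
  · have h1 := mul_le_mul_of_nonneg_left hr.2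
      (show 0 ≤ (1 + 8 / (GG n e : ℝ)) ^ t by positivity)
    have h3 := mul_le_mul_of_nonneg_left h.rhi f0
    dsimp only
    push_cast
    simp only [pow_succ]
    linarith
  · have h1 := a5 k
    have h3 := h.pot (by simpa using (Bool.or_eq_false_iff.1 k).1)
    dsimp only
    push_cast
    linarith

end Vale.Agent.P308
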