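import Vale.Agent.P308.Sem2
import Vale.Agent.P308.Stage

/-! The estimates from an approximate sampler (job Est2). -/

namespace Vale.Agent.P308

open Finset P317 P317.Prog P328 SemA

namespace Est2X

lemma est2 {β : Type} (p : Prog Unit β) (f : β → Bool) {N G : ℕ} (hN : 0 < N) (hG : 0 < G) {m : ℝ}
    (hm : |(Pr O0 p fun b => f b = true) - m| ≤ 1 / G) :
    Pr O0 (rep N p) (fun bs => ¬ |((bs.countP f : ℕ) : ℝ) / N - m| ≤ 2 / G) ≤ (G : ℝ) ^ 2 / N := by
  have hG' : (0 : ℝ) < G := by exact_mod_cast hG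
  have hN' : (0 : ℝ) < N := by exact_mod_cast hN
  have h1 := cheb (O := O0) p f hN (ζ := 1 / G) (by positivity)
  have e : 1 / ((N : ℝ) * (1 / G) ^ 2) = (G : ℝ) ^ 2 / N := by field_simp
  rw [e] at h1
  refine (Pr_mono _ fun bs hb => ?_).trans h1
  by_contra h2
  refine hb ?_
  have h4 := abs_sub_le (((bs.countP f : ℕ) : ℝ) / N) (Pr O0 p fun b => f b = true) m
  have e2 : (2 : ℝ) / G = 1 / G + 1 / G := by ring
  rw [not_lt] at h2
  linarith

end Est2X

open Est2X

variable {n e : ℕ} {c c' : List (List ℚ)} {p : Prog Unit (List ℕ)}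

theorem rat_close2 (hn : Even n) (h2 : 2 ≤ n) (he : 1 ≤ e) (hc : Ker (ker n c))
    (hp : Pos (ker n c)) (h : Close (ker n c) p (1 / GG n e)) (hc' : Ker (ker n c'))
    (h1 : ∀ X ∈ PMon univ, W (ker n c') X ≤ 2 * W (ker n c) X)
    (h3 : H (ker n c) univ ≤ 2 * H (ker n c') univ) :
    1 - (GG n e : ℝ) ^ 2 / NN n e ≤ Pr O0 (ratQ p c c' (NN n e)) fun r =>
      (1 - 8 / (GG n e : ℝ)) * H (ker n c') univ ≤ r * (2 / (NN n e : ℝ)) * H (ker n c) univ ∧
      r * (2 / (NN n e : ℝ)) * H (ker n c) univ ≤ (1 + 8 / (GG n e : ℝ)) * H (ker n c') univ := by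
  have hG := GG_pos he h2
  have hN := NN_pos he h2
  have hG' : (0 : ℝ) < GG n e := by exact_mod_cast hG
  have hN' : (0 : ℝ) < NN n e := by exact_mod_cast hN
  have hH : 0 < H (ker n c) univ := H_pos hc hp (by simpa using hn)
  have h0 := h (fun X => cl (wt c' X / (2 * wt c X))) fun X =>
    abs_le.2 ⟨by linarith [cl_nonneg (wt c' X / (2 * wt c X))], cl_le_one _⟩
  have e1 : ∑ X ∈ PMon univ, W (ker n c) X * cl (wt c' (enc X) / (2 * wt c (enc X))) =
      H (ker n c') univ / 2 := by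
    rw [H, sum_div]
    refine sum_congr rfl fun X hX => ?_
    have hW := W_pos hp X
    have e : ((wt c' (enc X) / (2 * wt c (enc X)) : ℚ) : ℝ) =
        W (ker n c') X / (2 * W (ker n c) X) := by
      rw [Rat.cast_div, Rat.cast_mul, wt_enc hc hX, wt_enc hc' hX, Rat.cast_ofNat]
    rw [cl_of_nonneg (by rw [e]; exact div_nonneg (W_nonneg _ _) (by positivity)), e,
      min_eq_right ((div_le_one (by positivity)).2 (h1 X hX))]
    field_simp
  rw [e1] at h0
  have h4 := est2 (bind p fun X => coinP (wt c' X / (2 * wt c X))) (fun b => b)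
    hN hG (m := H (ker n c') univ / 2 / H (ker n c) univ) (by rw [Pr_coin]; exact h0)
  rw [ratQ, Pr_bind_ret]
  refine le_trans (by linarith) ((Pr_not _ fun bs => |((bs.countP (fun b => b) : ℕ) : ℝ) / NN n e -
    H (ker n c') univ / 2 / H (ker n c) univ| ≤ 2 / GG n e).trans (Pr_mono _ fun bs hb => ?_))
  obtain ⟨h5, h6⟩ := abs_le.1 hb
  generalize ((bs.countP (fun b => b) : ℕ) : ℝ) = r at h5 h6 ⊢
  generalize H (ker n c) univ = A at hH h3 h5 h6 ⊢
  generalize H (ker n c') univ = A' at h3 h5 h6 ⊢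
  have e2 : r * (2 / (NN n e : ℝ)) * A = A' + 2 * A * (r / NN n e - A' / 2 / A) := by
    field_simp
    ring
  have e3 : (8 : ℝ) / GG n e = 4 * (2 / GG n e) := by ring
  have hz : (0 : ℝ) < 2 / GG n e := by positivity
  rw [e2, e3]
  generalize (2 : ℝ) / GG n e = z at h5 h6 hz ⊢
  generalize r / NN n e - A' / 2 / A = y at h5 h6 ⊢
  have h7 := mul_le_mul_of_nonneg_left h5 hH.le
  have h8 := mul_le_mul_of_nonneg_left h6 hH.le
  have h9 := mul_le_mul_of_nonneg_left h3 hz.le
  constructor <;> nlinarith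

theorem rat_small (h2 : 2 ≤ n) (he : 1 ≤ e) (h : Close (ker n c) p (1 / GG n e))
    (hc' : Ker (ker n c')) (h0 : H (ker n c') univ = 0) :
    1 - (GG n e : ℝ) ^ 2 / NN n e ≤ Pr O0 (ratQ p c c' (NN n e)) fun r => 8 * r < NN n e := by
  have hG := GG_pos he h2
  have hN := NN_pos he h2
  have hG' : (0 : ℝ) < GG n e := by exact_mod_cast hG
  have hN' : (0 : ℝ) < NN n e := by exact_mod_cast hN
  have hW : ∀ X ∈ PMon (univ : Finset (Fin n)), W (ker n c') X = 0 :=
    (sum_eq_zero_iff_of_nonneg fun X _ => W_nonneg _ X).1 h0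
  have h1 := h (fun X => cl (wt c' X / (2 * wt c X))) fun X =>
    abs_le.2 ⟨by linarith [cl_nonneg (wt c' X / (2 * wt c X))], cl_le_one _⟩
  have e1 : ∑ X ∈ PMon univ, W (ker n c) X * cl (wt c' (enc X) / (2 * wt c (enc X))) = 0 := by
    refine sum_eq_zero fun X hX => ?_
    have e : wt c' (enc X) = 0 := by
      have := wt_enc hc' hX
      rw [hW X hX] at this
      exact_mod_cast this
    simp [e, cl]
  rw [e1, zero_div] at h1
  have h4 := est2 (bind p fun X => coinP (wt c' X / (2 * wt c X))) (fun b => b)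
    hN hG (m := 0) (by rw [Pr_coin]; exact h1)
  rw [ratQ, Pr_bind_ret]
  refine le_trans (by linarith) ((Pr_not _ fun bs => |((bs.countP (fun b => b) : ℕ) : ℝ) / NN n e -
    0| ≤ 2 / GG n e).trans (Pr_mono _ fun bs hb => ?_))
  have h6 := (abs_le.1 hb).2
  have g1 : 800 ≤ GG n e := le_trans (by nlinarith) (GG_ge h2 he)
  have g2 : (800 : ℝ) ≤ GG n e := by exact_mod_cast g1
  rw [sub_zero, div_le_div_iff₀ hN' hG'] at h6
  rw [← @Nat.cast_lt ℝ]
  push_cast
  have g3 : (0 : ℝ) ≤ ((bs.countP (fun b => b) : ℕ) : ℝ) := Nat.cast_nonneg _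
  nlinarith [mul_le_mul_of_nonneg_left g2 g3]

theorem freq_close2 (h2 : 2 ≤ n) (he : 1 ≤ e) {c : Fin n → Fin n → ℝ} (hc : Ker c)
    (h : Close c p (1 / GG n e)) :
    1 - (n : ℝ) ^ 2 * ((GG n e : ℝ) ^ 2 / NN n e) ≤
      Pr O0 (rep (NN n e) p) fun Xs => ∀ u v : Fin n, u ≠ v →
        |((Xs.countP fun X => decide (X.getD (min (u : ℕ) v) 0 = max (u : ℕ) v) : ℕ) : ℝ) / NN n e -
          c u v * Q c u v / H c univ| ≤ 2 / GG n e := by
  have hG := GG_pos he h2
  have hN := NN_pos he h2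
  have key : ∀ u v : Fin n, u ≠ v → Pr O0 (rep (NN n e) p) (fun Xs => ¬
      |((Xs.countP fun X => decide (X.getD (min (u : ℕ) v) 0 = max (u : ℕ) v) : ℕ) : ℝ) / NN n e -
        c u v * Q c u v / H c univ| ≤ 2 / GG n e) ≤
      (GG n e : ℝ) ^ 2 / NN n e := by
    intro u v huv
    refine est2 _ _ hN hG ?_
    have h3 := h (fun X => if X.getD (min (u : ℕ) v) 0 = max (u : ℕ) v then 1 else 0)
      fun X => by split_ifs <;> simp
    have e1 : ∀ a b : Fin n, a ≠ b → ∑ X ∈ PMon univ, W c X *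
        (if (enc X).getD a 0 = b then 1 else 0) = c a b * Q c a b := by
      intro a b hab
      rw [Q, ← fib hc (mem_univ a) (mem_univ b) hab, sum_filter]
      refine sum_congr rfl fun X _ => ?_
      rw [get_enc]
      simp only [Fin.val_inj]
      split_ifs <;> simp
    have e2 : ∑ X ∈ PMon univ, W c X *
        (if (enc X).getD (min (u : ℕ) v) 0 = max (u : ℕ) v then 1 else 0) =
        c u v * Q c u v := by
      rcases le_total (u : ℕ) v with h1 | h1
      · rw [min_eq_left h1, max_eq_right h1, e1 u v huv]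
      · rw [min_eq_right h1, max_eq_left h1, e1 v u huv.symm, Q_symm, hc.symm]
    rw [e2] at h3
    have e3 : (Pr O0 p fun X =>
        decide (X.getD (min (u : ℕ) v) 0 = max (u : ℕ) v) = true) = E O0 p
        fun X => if X.getD (min (u : ℕ) v) 0 = max (u : ℕ) v then 1 else 0 := by
      unfold Pr
      refine congrArg _ (funext fun X => ?_)
      by_cases hX : X.getD (min (u : ℕ) v) 0 = max (u : ℕ) v
      · rw [if_pos hX, if_pos (decide_eq_true hX)]
      · rw [if_neg hX, if_neg fun h => hX (of_decide_eq_true h)]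
    rw [e3]
    exact h3
  have h1 := Pr_union (O := O0) (univ : Finset (Fin n × Fin n))
    (rep (NN n e) p) fun t Xs => t.1 ≠ t.2 ∧ ¬
      |((Xs.countP fun X => decide (X.getD (min (t.1 : ℕ) t.2) 0 = max (t.1 : ℕ) t.2) : ℕ) : ℝ) /
        NN n e - c t.1 t.2 * Q c t.1 t.2 / H c univ| ≤ 2 / GG n e
  refine le_trans ?_ (h1.trans (Pr_mono _ fun Xs hX u v huv => ?_))
  · refine sub_le_sub_left ((sum_le_card_nsmul _ _ ((GG n e : ℝ) ^ 2 / NN n e) fun t _ => ?_).trans
      (le_of_eq ?_)) _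
    · by_cases ht : t.1 = t.2
      · refine (Pr_mono (G' := fun _ => False) _ fun Xs hX => hX.1 ht).trans ?_
        simp only [Pr, if_false, E_const]
        positivity
      · exact (Pr_mono _ fun Xs hX => hX.2).trans (key t.1 t.2 ht)
    · simp [sq]
  · by_contra h2
    exact hX (u, v) (mem_univ _) ⟨huv, h2⟩

end Vale.Agent.P308
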