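import Vale.Agent.P308.Defs

/-! Fully polynomial randomized approximation schemes for the number of perfect matchings. -/

namespace Vale.Agent.P308

open Vale.Agent.PT

/-- `A` is a polynomial-time Turing machine which reads the graph, `ε`, `δ` and a string of `T`
random bits, `T = p (n + ⌈1/ε⌉ + ⌈log₂ ⌈1/δ⌉⌉)`, and for at least a fraction `1 - δ` of the strings
its output is within the factors `1 - ε`, `1 + ε` of the number of perfect matchings -/
def IsFPRAS (A : (List (List Bool) × ℚ × ℚ) × List Bool → ℚ) : Prop :=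
  PolyTimeTM A ∧ ∃ p : Polynomial ℕ, ∀ (n : ℕ) (G : SimpleGraph (Fin n)) (ε δ : ℚ),
    0 < ε → ε < 1 → 0 < δ → δ < 1 / 2 →
    ∀ T : ℕ, T = p.eval (n + ⌈ε⁻¹⌉₊ + Nat.clog 2 ⌈δ⁻¹⌉₊) →
      (1 - δ) * 2 ^ T ≤ (({r : Fin T → Bool |
        (1 - ε) * numPM G ≤ A ((adj G, ε, δ), List.ofFn r) ∧
        A ((adj G, ε, δ), List.ofFn r) ≤ (1 + ε) * numPM G}.ncard : ℕ) : ℚ)

end Vale.Agent.P308
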