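import Vale.Agent.P308.Stage
import Vale.Agent.P308.AlgoPP

/-! The approximation scheme (job Final). -/

namespace Vale.Agent.P308

open Finset P317 P317.Prog P328 Vale.Agent.PT

lemma pow_le_of {x y : ℝ} {m : ℕ} (hx : 0 ≤ x) (h : m * x ≤ y) (hy : y ≤ 1 / 2) :
    (1 + x) ^ m ≤ 1 + 2 * y := by
  have h0 : 0 ≤ y := le_trans (by positivity) h
  have h1 : (1 + x) ^ m ≤ Real.exp x ^ m :=
    pow_le_pow_left₀ (by linarith) (by linarith [Real.add_one_le_exp x]) _
  rw [← Real.exp_nat_mul] at h1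
  have h2 := Real.exp_bound_div_one_sub_of_interval h0 (by linarith)
  refine h1.trans ((Real.exp_le_exp.2 h).trans (h2.trans ?_))
  rw [div_le_iff₀ (by linarith)]
  nlinarith

lemma numerics {P Z Hc H0 a b w R r y ε : ℝ} (hP : 0 ≤ P) (hR : 0 ≤ R) (hr : 0 ≤ r) (ha : 0 ≤ a)
    (hb : 0 ≤ b) (hy : 0 ≤ y) (h1 : (1 - w) * P ≤ r * Hc) (h2 : r * Hc ≤ (1 + w) * P)
    (h3 : a * Hc ≤ R * H0) (h4 : R * H0 ≤ b * Hc) (z1 : Z ≤ H0) (z2 : H0 ≤ (1 + 2 * y) * Z)
    (w2 : b * (1 + w) ≤ 1 + 2 * (2 * y)) (w3 : 1 - 2 * y ≤ a * (1 - w)) (hε : 8 * y ≤ ε) :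
    (1 - ε) * P ≤ Z * R * r ∧ Z * R * r ≤ (1 + ε) * P := by
  have u1 := mul_le_mul_of_nonneg_left z1 (mul_nonneg hR hr)
  have u2 := mul_le_mul_of_nonneg_left z2 (mul_nonneg hR hr)
  have u3 := mul_le_mul_of_nonneg_left h1 ha
  have u4 := mul_le_mul_of_nonneg_left h2 hb
  have u5 := mul_le_mul_of_nonneg_left h3 hr
  have u6 := mul_le_mul_of_nonneg_left h4 hr
  have u7 := mul_le_mul_of_nonneg_right w2 hP
  have u8 := mul_le_mul_of_nonneg_right w3 hP
  have u9 := mul_le_mul_of_nonneg_right hε hP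
  have u10 := mul_nonneg hy hP
  have u11 := mul_le_mul_of_nonneg_left u9 hy
  have u12 := mul_nonneg hy u10
  refine ⟨le_of_mul_le_mul_left ?_ (show 0 < 1 + 2 * y by linarith), ?_⟩ <;> linarith

theorem run_good {n : ℕ} (G : SimpleGraph (Fin n)) (hn : Even n) (h2 : 2 ≤ n) {e : ℕ} {ε : ℚ}
    (hε : ε < 1) (he : 1 ≤ e) (heε : 1 ≤ ε * e) :
    14 / 15 ≤ Pr O0 (runP (adj G) e (LL n e)) fun v =>
      (1 - ε) * numPM G ≤ v ∧ v ≤ (1 + ε) * numPM G := by
  have n2 : (2 : ℝ) ≤ n := by exact_mod_cast h2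
  have e1 : (1 : ℝ) ≤ e := by exact_mod_cast he
  have hT : (TT n e : ℝ) = 3000 * n ^ 5 * e := by rw [TT]; push_cast; rfl
  have T1 : (1 : ℝ) ≤ TT n e := by
    have : 0 < TT n e := by unfold TT; positivity
    exact_mod_cast this
  have hG : (GG n e : ℝ) = 64 * TT n e * e := by rw [GG]; push_cast; rfl
  have hN : (NN n e : ℝ) = 60 * n ^ 2 * TT n e * GG n e ^ 2 := by rw [NN]; push_cast; rfl
  have hB : (BB n e : ℝ) = 8 * n * e := by rw [BB]; push_cast; rfl
  have G0 : (0 : ℝ) < GG n e := by rw [hG]; positivity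
  have r0 : (0 : ℝ) ≤ (GG n e : ℝ) ^ 2 / NN n e := by positivity
  have hn' : Even (Fintype.card (Fin n)) := by simpa
  have h1 := Pr_foldP_range (O := O0) (TT n e) (fun s _ => roundP (adj G) e (LL n e) s) (Inv G e)
    (by positivity) (fun t ht s hs => round_good hn h2 he ht hs) _ (inv_zero hn h2 he)
  rw [runP, adj_length]
  refine le_trans ?_ (Pr_bind h1 (fun s hs => ?_) r0)
  · have : (GG n e : ℝ) ^ 2 / NN n e = 1 / (60 * n ^ 2 * TT n e) := by rw [hN]; field_simp
    rw [this]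
    have h3 : (TT n e * (n ^ 2 + 1) + 1) * (1 / (60 * n ^ 2 * TT n e)) ≤ (1 / 15 : ℝ) := by
      rw [mul_one_div, div_le_div_iff₀ (by positivity) (by norm_num)]
      nlinarith [mul_le_mul_of_nonneg_left (show (1 : ℝ) ≤ n ^ 2 by nlinarith)
        (by linarith : (0 : ℝ) ≤ TT n e)]
    linarith
  have hg := hs.good hn h2 he
  have kb := ker_bK h2 he hs.symm
  have pb : Pos (bK n e s.1) := fun u v _ => bK_pos h2 he _ u v
  have ka : Ker (ker n (aM (adj G))) := by rw [ker_aM]; exact ker_aK G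
  rw [Pr_bind_ret]
  by_cases h0 : H (aK G) univ = 0
  · have hz : numPM G = 0 := by exact_mod_cast (numPM_eq G).trans h0
    have := rat_zero hn h2 hg.kc (by rw [ker_cM]; exact Pos.add (ker_aK G) pb) ka
      (by rw [ker_aM, h0]) (LL n e) (NN n e)
    refine le_trans (by linarith) (this.trans (Pr_mono _ fun r hr => ?_))
    simp [hr, hz]
  obtain ⟨M, hM, hM1⟩ := exists_pm G h0
  have hd : s.2.2 = true := by
    by_contra hd
    have a1 := hs.pot (by simpa using hd)
    have a2 := Phi_nonneg (ker_aK G) kb pb hM fun u v _ h => (h ▸ hM1 u).ge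
    have a3 := Phi_init (ker_aK G) (aK_le_one G) hn' (BB_pos h2 he) (bK_s0 e)
    have a4 : (TT n e : ℝ) * (eta (Fin n) * del (Fin n) / 4) = 75 / 8 * (n ^ 2 * e) := by
      simp only [hT, eta, del, Fintype.card_fin]; field_simp; ring
    rw [Fintype.card_fin, hB] at a3
    nlinarith [mul_le_mul_of_nonneg_left e1 (sq_nonneg (n : ℝ))]
  have le1 : ∀ (b : Fin n → Fin n → ℝ), Ker b → ∀ u v, u ≠ v → aK G u v ≤ 1 * (aK G + b) u v :=
    fun b hb u v _ => by simpa using hb.nonneg u v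
  have r := rat_close (c' := aM (adj G)) he hg ka
    (fun X _ => by
      have := W_le_of_le le_rfl (le1 _ kb) X
      rw [ker_cM, ker_aM]
      rw [one_pow, one_mul] at this
      linarith [W_nonneg (aK G + bK n e s.1) X])
    (by rw [ker_cM, ker_aM]; exact H_half (ker_aK G) kb pb hn' (hs.done hd))
  refine r.trans (Pr_mono _ fun r hr => ?_)
  rw [ker_cM, ker_aM, ← numPM_eq] at hr
  obtain ⟨k, hk⟩ := hn
  have z0 : (Z0 n e : ℝ) = H (fun _ _ : Fin n => (BB n e : ℝ)) univ := by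
    rw [H_const (k := k) (by positivity) (by simp; omega), Z0, show n / 2 = k by omega]
    push_cast; rfl
  have B1 := BB_pos h2 he
  have z1 : (Z0 n e : ℝ) ≤ H (aK G + bK n e (s0 n e).1) univ := by
    have := H_le_of_le (c := fun _ _ : Fin n => (BB n e : ℝ)) (c' := aK G + bK n e (s0 n e).1) le_rfl
      (fun u v _ => by simpa [bK_s0] using (ker_aK G).nonneg u v) univ
    rwa [one_pow, one_mul, ← z0] at this
  have y0 : 0 < 1 / (8 * (e : ℝ)) := by positivity
  have y1 : 1 / (8 * (e : ℝ)) ≤ 1 / 8 := one_div_le_one_div_of_le (by norm_num) (by linarith)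
  set y := 1 / (8 * (e : ℝ)) with hy
  have z2 : H (aK G + bK n e (s0 n e).1) univ ≤ (1 + 2 * y) * Z0 n e := by
    have := H_le_of_le (c' := fun _ _ : Fin n => (BB n e : ℝ)) (c := aK G + bK n e (s0 n e).1)
      (lam := 1 + 1 / BB n e) (le_add_of_nonneg_right (by positivity)) (fun u v _ => by
        rw [Pi.add_apply, Pi.add_apply, bK_s0, add_mul, one_div_mul_cancel (by linarith)]
        linarith [aK_le_one G u v]) univ
    rw [← z0, Fintype.card_fin] at this
    refine this.trans (mul_le_mul_of_nonneg_right (pow_le_of (by positivity) (le_of_eq ?_)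
      (by linarith)) (by positivity))
    rw [hB, hy]; field_simp
  have w1 : ((TT n e + 1 : ℕ) : ℝ) * (8 / GG n e) ≤ 2 * y := by
    rw [hG, hy, ← mul_div_assoc, ← mul_div_assoc, div_le_div_iff₀ (by positivity) (by positivity)]
    push_cast
    nlinarith
  have w0 : 0 ≤ 8 / (GG n e : ℝ) := by positivity
  have w2 := pow_le_of w0 w1 (by linarith)
  have w4 : 8 / (GG n e : ℝ) ≤ 1 := by push_cast at w1; nlinarith
  have w3 := one_add_mul_le_pow (a := -(8 / (GG n e : ℝ))) (by linarith) (TT n e + 1)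
  have hε' : 8 * y ≤ ε := by
    have : (1 : ℝ) ≤ ε * e := by exact_mod_cast heε
    rw [hy, mul_one_div, div_le_iff₀ (by positivity)]; linarith
  rw [← sub_eq_add_neg, pow_succ] at w3
  rw [pow_succ] at w2
  have k := numerics (Nat.cast_nonneg _) (by positivity) (by positivity)
    (pow_nonneg (sub_nonneg.2 w4) _) (by positivity) y0.le hr.1 hr.2 hs.rlo hs.rhi z1 z2 w2
    (by linarith) hε'
  rw [← @Rat.cast_le _ _ ℝ, ← @Rat.cast_le _ _ ℝ]
  push_cast
  rw [pow_succ]
  constructor <;> linarith [k.1, k.2]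

/-- the unary parameters of the main program -/
def dec (z : (List (List Bool) × ℚ × ℚ) × List Bool) :
    List (List Bool) × List Unit × List Unit × List Unit :=
  (z.1.1, List.replicate (min ⌈z.1.2.1⁻¹⌉.toNat z.2.length) (),
    List.replicate (min (Nat.log 2 ⌈z.1.2.2⁻¹⌉.toNat + 1) z.2.length) (),
    List.replicate (min (LL z.1.1.length ⌈z.1.2.1⁻¹⌉.toNat) z.2.length) ())

attribute [local irreducible] PTime PB in
lemma ptime_dec : PTime dec := by
  have hb : ∀ f : (List (List Bool) × ℚ × ℚ) × List Bool → ℕ, PB fun z => min (f z) z.2.length :=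
    fun f => (PB.length (l := fun z : (List (List Bool) × ℚ × ℚ) × List Bool => z.2)
      (by fun_prop)).of_le fun _ => min_le_right _ _
  unfold dec LL CC bet GG TT BB
  refine PTime.prodMk (by fun_prop) (PTime.prodMk ?_ (PTime.prodMk ?_ ?_)) <;>
    exact PTime.replicate (by fun_prop) (hb _) (by fun_prop)

lemma sz_rep (k : ℕ) : sz (List.replicate k ()) = 2 * k + 1 := by
  induction k with
  | zero => rfl
  | succ k ih => simp [List.replicate_succ, ih]; omega

lemma eval_mul_le (p : Polynomial ℕ) {a : ℕ} (ha : 1 ≤ a) (y : ℕ) :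
    p.eval (a * y) ≤ a ^ p.natDegree * p.eval y := by
  rw [Polynomial.eval_eq_sum_range, Polynomial.eval_eq_sum_range, mul_sum]
  refine sum_le_sum fun i hi => ?_
  rw [mul_pow, mul_left_comm]
  exact Nat.mul_le_mul_right _ (Nat.pow_le_pow_right ha (Nat.lt_succ_iff.1 (mem_range.1 hi)))

lemma size_le (n e l x : ℕ) (he : e ≤ x) (hl : l ≤ x + 1) :
    n * (n * 4 + 2) + 2 * (e + l + LL n e) + 10 ≤
      ((n + 2) ^ (Nat.log 2 n + 1)) ^ 100 * (10 ^ 7 * (x + 1) ^ 2) := by
  set a := (n + 2) ^ (Nat.log 2 n + 1) with ha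
  have a1 : n + 2 ≤ a := Nat.le_self_pow (Nat.succ_ne_zero _) _
  have a2 : CC n ≤ a ^ 90 := by
    rw [CC, ha, ← pow_mul, mul_comm 90]
    exact Nat.pow_le_pow_left (by omega) _
  have n1 : n ≤ a := by omega
  have o : ∀ i j, i ≤ j → a ^ i ≤ a ^ j := fun i j h => Nat.pow_le_pow_right (by omega) h
  have y1 : 1 ≤ x + 1 := by omega
  have e1 : e ≤ x + 1 := by omega
  set y := x + 1
  have y2 : y ≤ y ^ 2 := Nat.le_self_pow two_ne_zero _
  have a3 : n * (n + 2 * bet n e) + 2 * GG n e ≤ a ^ 6 * (400000 * y ^ 2) := by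
    have h1 : n * (n + 2 * bet n e) + 2 * GG n e ≤
        a * (a + 2 * (3000 * a ^ 5 * y + 8 * a * y + 1)) + 2 * (64 * (3000 * a ^ 5 * y) * y) := by
      unfold bet GG TT BB; gcongr
    have h3 := Nat.mul_le_mul (o 2 6 (by norm_num)) (y1.trans y2)
    have h4 := Nat.mul_le_mul (le_refl (a ^ 6)) y2
    have h5 := Nat.mul_le_mul (o 2 6 (by norm_num)) y2
    have h6 := Nat.mul_le_mul (o 1 6 (by norm_num)) (y1.trans y2)
    have h7 := Nat.mul_le_mul (o 5 6 (by norm_num)) (le_refl (y ^ 2))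
    nlinarith
  have a4 : LL n e ≤ a ^ 100 * (1600000 * y ^ 2) := by
    have h1 := Nat.mul_le_mul (Nat.mul_le_mul_left 4 a2) a3
    have h3 := Nat.mul_le_mul (o 96 100 (by norm_num)) (le_refl (y ^ 2))
    rw [LL]
    nlinarith
  have h3 := Nat.mul_le_mul (o 2 100 (by norm_num)) (y1.trans y2)
  have h4 := Nat.mul_le_mul (o 0 100 (by norm_num)) y2
  have h5 := Nat.mul_le_mul n1 n1
  nlinarith

theorem exists_qpras : ∃ A, IsQPRAS A := by
  classical
  obtain ⟨A, hA, p, hp⟩ := exists_run _ pp_mainP 0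
  set q : Polynomial ℕ := Polynomial.C (10 ^ 7) * (Polynomial.X + Polynomial.C 1) ^ 2 with hq
  refine ⟨fun z => A (dec z, z.2), (hA.comp (f := fun z => (dec z, z.2))
    (PTime.prodMk ptime_dec PTime.snd_id)).toTM, 100 * (p.natDegree + 1), p.comp q + q,
    fun n G ε δ hε0 hε1 hδ0 hδ1 T hT => ?_⟩
  set e := ⌈ε⁻¹⌉₊ with he
  set l := Nat.log 2 ⌈δ⁻¹⌉₊ + 1 with hl
  have hlc : l ≤ Nat.clog 2 ⌈δ⁻¹⌉₊ + 1 := by
    have := Nat.log_le_clog 2 ⌈δ⁻¹⌉₊
    omega
  have hs := size_le n e l (e + Nat.clog 2 ⌈δ⁻¹⌉₊) (by omega) (by omega)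
  simp only [hq, Polynomial.eval_add, Polynomial.eval_comp, Polynomial.eval_mul, Polynomial.eval_C,
    Polynomial.eval_X, Polynomial.eval_pow] at hT
  rw [show (n + 2) ^ (100 * (p.natDegree + 1) * (Nat.log 2 n + 1)) =
    (((n + 2) ^ (Nat.log 2 n + 1)) ^ 100) ^ (p.natDegree + 1) by
      rw [← pow_mul, ← pow_mul]; congr 1; ring] at hT
  have b1 : 1 ≤ ((n + 2) ^ (Nat.log 2 n + 1)) ^ 100 := Nat.one_le_pow _ _ (by positivity)
  set b := ((n + 2) ^ (Nat.log 2 n + 1)) ^ 100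
  set y := 10 ^ 7 * (e + Nat.clog 2 ⌈δ⁻¹⌉₊ + 1) ^ 2
  let a : List (List Bool) × List Unit × List Unit × List Unit :=
    (adj G, List.replicate e (), List.replicate l (), List.replicate (LL n e) ())
  have hG : sz (adj G) ≤ n * (n * 4 + 2) + 1 := by
    have := sz_list_le (adj G) (B := n * 4 + 1) fun row hrow => by
      obtain ⟨i, rfl⟩ := List.mem_ofFn.1 hrow
      simpa using sz_list_le (List.ofFn fun j => decide (G.Adj i j)) fun x _ => sz_bool_le x
    rwa [adj_length] at this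
  have hsz : sz a = sz (adj G) + 2 * (e + l + LL n e) + 6 := by
    simp only [a, sz_prod, sz_rep]; omega
  have t1 : b * y ≤ T := by
    rw [hT]
    exact Nat.mul_le_mul (Nat.le_self_pow (Nat.succ_ne_zero _) _) (Nat.le_add_left _ _)
  have h1 : p.eval (sz a) ≤ T := by
    refine (eval_mono p (show sz a ≤ b * y by omega)).trans ((eval_mul_le p b1 y).trans ?_)
    rw [hT]
    exact Nat.mul_le_mul (Nat.pow_le_pow_right b1 (Nat.le_succ _)) (Nat.le_add_right _ _)
  have h2 : ∀ r : Fin T → Bool, dec ((adj G, ε, δ), List.ofFn r) = a := by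
    intro r
    have e1 : ⌈ε⁻¹⌉.toNat = e := rfl
    have e2 : ⌈δ⁻¹⌉.toNat = ⌈δ⁻¹⌉₊ := rfl
    simp only [dec, a, List.length_ofFn, e1, e2, adj_length]
    rw [min_eq_left (by omega), min_eq_left (by omega), min_eq_left (by omega)]
  set P : ℚ → Prop := fun v => (1 - ε) * numPM G ≤ v ∧ v ≤ (1 + ε) * numPM G with hP
  have h5 := (hp a T h1).2 (fun v => if P v then 1 else 0) fun y => by split_ifs <;> norm_num
  have he0 : 0 < e := Nat.ceil_pos.2 (inv_pos.2 hε0)
  have heε : 1 ≤ ε * e := by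
    have := Nat.le_ceil ε⁻¹
    calc (1 : ℚ) = ε * ε⁻¹ := (mul_inv_cancel₀ hε0.ne').symm
      _ ≤ ε * e := by gcongr
  have h6 : 1 - (1 / 2 : ℝ) ^ (l + 1) ≤ Pr O0 (mainP (adj G) e l (LL n e)) P := by
    have hp : (0 : ℝ) ≤ (1 / 2) ^ (l + 1) := by positivity
    rw [mainP, adj_length]
    split_ifs with h0 h0'
    · subst h0
      have : numPM G = 1 := by
        have := numPM_eq G
        rw [univ_eq_empty, H_empty] at this
        exact_mod_cast this
      have : P 1 := by simp only [hP, this]; constructor <;> push_cast <;> linarith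
      simp [Pr, this]
    · have : numPM G = 0 := by
        have := numPM_eq G
        rw [H_odd (ker_aK G) (by simpa using Nat.odd_iff.2 h0')] at this
        exact_mod_cast this
      have : P 0 := by simp [hP, this]
      simp [Pr, this]
    · exact amplify _ _ _ (run_good G (Nat.even_iff.2 (by omega)) (by omega) hε1 he0 heε) (by omega)
  have h7 : mainP a.1 a.2.1.length a.2.2.1.length a.2.2.2.length = mainP (adj G) e l (LL n e) := by
    simp [a]
  rw [h7] at h5
  have h8 : (1 / 2 : ℝ) ^ sz a ≤ (1 / 2) ^ (l + 1) :=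
    pow_le_pow_of_le_one (by norm_num) (by norm_num) (by omega)
  have h9 : (1 / 2 : ℝ) ^ l ≤ δ := by
    have h10 : ⌈δ⁻¹⌉₊ < 2 ^ l := Nat.lt_pow_succ_log_self (by norm_num) _
    have h11 : δ⁻¹ ≤ (2 : ℚ) ^ l := (Nat.le_ceil _).trans (by exact_mod_cast h10.le)
    have h12 : (δ : ℝ)⁻¹ ≤ 2 ^ l := by exact_mod_cast h11
    have hδ : (0 : ℝ) < δ := by exact_mod_cast hδ0
    rw [one_div, inv_pow]
    exact (inv_le_comm₀ (by positivity) hδ).2 h12
  have h10 : E O0 (mainP (adj G) e l (LL n e)) (fun v => if P v then 1 else 0) =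
      Pr O0 (mainP (adj G) e l (LL n e)) P := by
    unfold Pr; congr!
  rw [h10, sum_boole] at h5
  have h13 : (1 - (δ : ℝ)) * 2 ^ T ≤ _ := le_trans (by
    have : (1 / 2 : ℝ) ^ (l + 1) = (1 / 2) ^ l / 2 := by ring
    exact mul_le_mul_of_nonneg_right (by linarith) (by positivity)) h5
  simp only [h2]
  rw [← Set.ncard_coe_finset, coe_filter] at h13
  simp only [mem_univ, true_and] at h13
  exact_mod_cast h13

end Vale.Agent.P308
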