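import Vale.Agent.P308.Stage2
import Vale.Agent.P308.Algo2PP
import Vale.Agent.P308.FDefs

/-! The approximation scheme (job Final2). -/

namespace Vale.Agent.P308

open Finset P317 P317.Prog P328 Vale.Agent.PT

/-- the unary parameters of the main program -/
def dec2 (z : (List (List Bool) × ℚ × ℚ) × List Bool) :
    List (List Bool) × List Unit × List Unit :=
  (z.1.1, List.replicate (min ⌈z.1.2.1⁻¹⌉.toNat z.2.length) (),
    List.replicate (min (Nat.log 2 ⌈z.1.2.2⁻¹⌉.toNat + 1) z.2.length) ())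

attribute [local irreducible] PTime PB in
lemma ptime_dec2 : PTime dec2 := by
  have hb : ∀ f : (List (List Bool) × ℚ × ℚ) × List Bool → ℕ, PB fun z => min (f z) z.2.length :=
    fun f => (PB.length (l := fun z : (List (List Bool) × ℚ × ℚ) × List Bool => z.2)
      (by fun_prop)).of_le fun _ => min_le_right _ _
  unfold dec2
  refine PTime.prodMk (by fun_prop) (PTime.prodMk ?_ ?_) <;>
    exact PTime.replicate (by fun_prop) (hb _) (by fun_prop)

theorem exists_fpras : ∃ A, IsFPRAS A := by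
  classical
  obtain ⟨A, hA, p, hp⟩ := exists_run _ pp_main2 0
  set q : Polynomial ℕ := Polynomial.C 20 * (Polynomial.X + Polynomial.C 1) ^ 2 with hq
  refine ⟨fun z => A (dec2 z, z.2), (hA.comp (f := fun z => (dec2 z, z.2))
    (PTime.prodMk ptime_dec2 PTime.snd_id)).toTM, p.comp q + q,
    fun n G ε δ hε0 hε1 hδ0 hδ1 T hT => ?_⟩
  set e := ⌈ε⁻¹⌉₊ with he
  set l := Nat.log 2 ⌈δ⁻¹⌉₊ + 1 with hl
  have hlc : l ≤ Nat.clog 2 ⌈δ⁻¹⌉₊ + 1 := by
    have := Nat.log_le_clog 2 ⌈δ⁻¹⌉₊
    omega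
  simp only [hq, Polynomial.eval_add, Polynomial.eval_comp, Polynomial.eval_mul, Polynomial.eval_C,
    Polynomial.eval_X, Polynomial.eval_pow] at hT
  have hs : n * (n * 4 + 2) + 2 * (e + l) + 10 ≤ 20 * (n + e + Nat.clog 2 ⌈δ⁻¹⌉₊ + 1) ^ 2 := by
    generalize Nat.clog 2 ⌈δ⁻¹⌉₊ = x at hlc ⊢
    nlinarith [Nat.zero_le (n * e), Nat.zero_le (n * x), Nat.zero_le (e * x), Nat.zero_le (e * e),
      Nat.zero_le (x * x)]
  set y := 20 * (n + e + Nat.clog 2 ⌈δ⁻¹⌉₊ + 1) ^ 2
  let a : List (List Bool) × List Unit × List Unit :=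
    (adj G, List.replicate e (), List.replicate l ())
  have hG : sz (adj G) ≤ n * (n * 4 + 2) + 1 := by
    have := sz_list_le (adj G) (B := n * 4 + 1) fun row hrow => by
      obtain ⟨i, rfl⟩ := List.mem_ofFn.1 hrow
      simpa using sz_list_le (List.ofFn fun j => decide (G.Adj i j)) fun x _ => sz_bool_le x
    rwa [adj_length] at this
  have hsz : sz a = sz (adj G) + 2 * (e + l) + 4 := by
    simp only [a, sz_prod, sz_rep]; omega
  have t1 : y ≤ T := by omega
  have h1 : p.eval (sz a) ≤ T :=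
    (eval_mono p (show sz a ≤ y by omega)).trans (by omega)
  have h2 : ∀ r : Fin T → Bool, dec2 ((adj G, ε, δ), List.ofFn r) = a := by
    intro r
    have e1 : ⌈ε⁻¹⌉.toNat = e := rfl
    have e2 : ⌈δ⁻¹⌉.toNat = ⌈δ⁻¹⌉₊ := rfl
    simp only [dec2, a, List.length_ofFn, e1, e2]
    rw [min_eq_left (by omega), min_eq_left (by omega)]
  set P : ℚ → Prop := fun v => (1 - ε) * numPM G ≤ v ∧ v ≤ (1 + ε) * numPM G with hP
  have h5 := (hp a T h1).2 (fun v => if P v then 1 else 0) fun y => by split_ifs <;> norm_num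
  have he0 : 0 < e := Nat.ceil_pos.2 (inv_pos.2 hε0)
  have heε : 1 ≤ ε * e := by
    have := Nat.le_ceil ε⁻¹
    calc (1 : ℚ) = ε * ε⁻¹ := (mul_inv_cancel₀ hε0.ne').symm
      _ ≤ ε * e := by gcongr
  have h6 : 1 - (1 / 2 : ℝ) ^ (l + 1) ≤ Pr O0 (main2 (adj G) e l) P := by
    have hp : (0 : ℝ) ≤ (1 / 2) ^ (l + 1) := by positivity
    rw [main2, adj_length]
    split_ifs with h0 h0'
    · subst h0
      have : numPM G = 1 := by
        have := numPM_eq G
        rw [univ_eq_empty, H_empty] at this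
        exact_mod_cast this
      have : P 1 := by simp only [hP, this]; constructor <;> push_cast <;> linarith
      simp [Pr, this]
    · have : numPM G = 0 := by
        have := numPM_eq G
        rw [H_odd (ker_aK G) (by simpa using Nat.odd_iff.2 h0')] at this
        exact_mod_cast this
      have : P 0 := by simp [hP, this]
      simp [Pr, this]
    · exact amplify _ _ _ (run_good2 G (Nat.even_iff.2 (by omega)) (by omega) hε1 he0 heε)
        (by omega)
  have h7 : main2 a.1 a.2.1.length a.2.2.length = main2 (adj G) e l := by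
    simp [a]
  rw [h7] at h5
  have h8 : (1 / 2 : ℝ) ^ sz a ≤ (1 / 2) ^ (l + 1) :=
    pow_le_pow_of_le_one (by norm_num) (by norm_num) (by omega)
  have h9 : (1 / 2 : ℝ) ^ l ≤ δ := by
    have h10 : ⌈δ⁻¹⌉₊ < 2 ^ l := Nat.lt_pow_succ_log_self (by norm_num) _
    have h11 : δ⁻¹ ≤ (2 : ℚ) ^ l := (Nat.le_ceil _).trans (by exact_mod_cast h10.le)
    have h12 : (δ : ℝ)⁻¹ ≤ 2 ^ l := by exact_mod_cast h11
    have hδ : (0 : ℝ) < δ := by exact_mod_cast hδ0
    rw [one_div, inv_pow]
    exact (inv_le_comm₀ (by positivity) hδ).2 h12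
  have h10 : E O0 (main2 (adj G) e l) (fun v => if P v then 1 else 0) =
      Pr O0 (main2 (adj G) e l) P := by
    unfold Pr; congr!
  rw [h10, sum_boole] at h5
  have h13 : (1 - (δ : ℝ)) * 2 ^ T ≤ _ := le_trans (by
    have : (1 / 2 : ℝ) ^ (l + 1) = (1 / 2) ^ l / 2 := by ring
    exact mul_le_mul_of_nonneg_right (by linarith) (by positivity)) h5
  simp only [h2]
  rw [← Set.ncard_coe_finset, coe_filter] at h13
  simp only [mem_univ, true_and] at h13
  exact_mod_cast h13

end Vale.Agent.P308
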