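import Vale.Agent.P308.ArcB

/-! The flow through a pair of arcs (job GU). -/

namespace Vale.Agent.P308

open Finset

variable {V : Type} [Fintype V] [DecidableEq V] {c : V → V → ℝ} {L : ℝ}

namespace GUX

/-- join two uncovered vertices -/
def jn (u w : V) (B : V → V) : V → V := fun v => Equiv.swap u w (B v)

variable {u w : V} {B M : V → V}

omit [Fintype V] in
lemma jn_left (hu : B u = u) : jn u w B u = w := by simp [jn, hu]

omit [Fintype V] in
lemma jn_right (hw : B w = w) : jn u w B w = u := by simp [jn, hw]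

omit [Fintype V] in
lemma jn_other (hi : ∀ v, B (B v) = v) (hu : B u = u) (hw : B w = w) {v : V} (h1 : v ≠ u)
    (h2 : v ≠ w) : jn u w B v = B v :=
  Equiv.swap_apply_of_ne_of_ne (fun e => h1 (by rw [← hi v, e, hu]))
    (fun e => h2 (by rw [← hi v, e, hw]))

omit [Fintype V] in
lemma jn_inv (hi : ∀ v, B (B v) = v) (hu : B u = u) (hw : B w = w) (v : V) :
    jn u w B (jn u w B v) = v := by
  by_cases h1 : v = u
  · rw [h1, jn_left hu, jn_right hw]
  by_cases h2 : v = w
  · rw [h2, jn_right hw, jn_left hu]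
  rw [jn_other hi hu hw h1 h2, jn_other hi hu hw (fun e => h1 (by rw [← hi v, e, hu]))
    (fun e => h2 (by rw [← hi v, e, hw])), hi]

omit [Fintype V] in
lemma jn_fix (hi : ∀ v, B (B v) = v) (hu : B u = u) (hw : B w = w) (h : u ≠ w) {v : V}
    (hv : jn u w B v = v) : v ≠ u ∧ v ≠ w ∧ B v = v := by
  have h1 : v ≠ u := fun e => h (by rw [e, jn_left hu] at hv; exact hv.symm)
  have h2 : v ≠ w := fun e => h (by rw [e, jn_right hw] at hv; exact hv)
  exact ⟨h1, h2, by rwa [jn_other hi hu hw h1 h2] at hv⟩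

omit [Fintype V] in
lemma jn_sub (hi : ∀ v, B (B v) = v) (hu : B u = u) (hw : B w = w) (hM : ∀ v, M (M v) = v)
    (h : Sub B M) (e : M u = w) : Sub (jn u w B) M := by
  intro v hv
  by_cases h1 : v = u
  · rw [h1, jn_left hu, e]
  by_cases h2 : v = w
  · rw [h2, jn_right hw, ← e, hM]
  rw [jn_other hi hu hw h1 h2] at hv ⊢
  exact h v hv

omit [Fintype V] in
lemma ga_jn (hc : Ker c) {τ : V → ℝ} (h0 : ∀ v, 0 < τ v) (hi : ∀ v, B (B v) = v) (hu : B u = u)
    (hw : B w = w) (h : u ≠ w) (hup : c u w ≤ τ u * τ w) {S : Finset V} (h1 : u ∈ S)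
    (h2 : w ∈ S) : ga c τ S (jn u w B) ≤ ga c τ S B := by
  have hw' : w ∈ S.erase u := mem_erase.2 ⟨h.symm, h2⟩
  rw [ga, ga, ← mul_prod_erase _ _ h1, ← mul_prod_erase _ _ hw', ← mul_prod_erase _ _ h1,
    ← mul_prod_erase _ _ hw', jn_left hu, jn_right hw, if_neg h.symm, if_neg h, if_pos hu,
    if_pos hw, ← mul_assoc, ← mul_assoc, hc.symm w u, Real.mul_self_sqrt (hc.nonneg _ _)]
  have e : ∏ v ∈ (S.erase u).erase w, (if jn u w B v = v then τ v else √(c v (jn u w B v))) =
      ∏ v ∈ (S.erase u).erase w, (if B v = v then τ v else √(c v (B v))) := by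
    refine prod_congr rfl fun v hv => ?_
    rw [jn_other hi hu hw (ne_of_mem_erase (mem_of_mem_erase hv)) (ne_of_mem_erase hv)]
  rw [e]
  refine mul_le_mul_of_nonneg_right hup (prod_nonneg fun v _ => ?_)
  split_ifs
  · exact (h0 v).le
  · positivity

lemma term (hc : Ker c) {S : Finset V} (hu : u ∈ S) (hw : w ∈ S) (h : u ≠ w) :
    c u w * H c ((S.erase u).erase w) ≤ H c S := by
  rw [H_rec hc hu]
  exact single_le_sum (f := fun w => c u w * H c ((S.erase u).erase w))
    (fun w _ => mul_nonneg (hc.nonneg _ _) (H_nonneg _ _)) (mem_erase.2 ⟨h.symm, hw⟩)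

open Classical in
lemma base {τ : V → ℝ} (c : V → V → ℝ) {P : Finset V} {R : ℝ} (hi : ∀ v, B (B v) = v)
    (hs : ∀ v, B v ≠ v → v ∈ P) (h : ∀ v ∈ P, B v ≠ v) (hR : Even P.card → H c Pᶜ ≤ R)
    (q : (V → V) → Prop) [DecidablePred q] :
    ∑ M ∈ PMon univ, (if Sub B M ∧ q M then W c M else 0) ≤ ga c τ P B * R := by
  have hB : B ∈ PMon P := mem_PMon.2 fun v => ⟨hi v, hs v, h v⟩
  calc ∑ M ∈ PMon univ, (if Sub B M ∧ q M then W c M else 0)
      ≤ ∑ M ∈ PMon univ, (if Sub B M then W c M else 0) := by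
        refine sum_le_sum fun M _ => ?_
        by_cases h1 : Sub B M ∧ q M
        · rw [if_pos h1, if_pos h1.1]
        · rw [if_neg h1]
          split_ifs
          · exact W_nonneg _ _
          · exact le_rfl
    _ = W c B * H c Pᶜ := by
        rw [sum_ext hB, H, mul_sum]
        exact sum_congr rfl fun C hC => W_comp c hB hC disjoint_compl_right
    _ ≤ _ := by
        rw [ga_eq_W c τ hB]
        exact mul_le_mul_of_nonneg_left (hR (PMon_even hB)) (W_nonneg _ _)

end GUX

open GUX

open Classical in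
/-- the weight of the perfect matchings that contain `B` and join the uncovered vertices to other
blocks -/
theorem gu [Nonempty V] (hc : Ker c) {τ : V → ℝ} {blk : V → Finset V} (hL : 1 ≤ L) (h0 : ∀ v, 0 < τ v)
    (hlo : ∀ a b, a ≠ b → τ a * τ b ≤ L * c a b)
    (hup : ∀ a b, blk a ≠ blk b → c a b ≤ τ a * τ b) (k : ℕ) :
    ∀ (P : Finset V) (B : V → V) (R : ℝ), (∀ v, B (B v) = v) → (∀ v, B v ≠ v → v ∈ P) →
      (P.filter fun v => B v = v).card ≤ k → 0 ≤ R → (Even P.card → H c Pᶜ ≤ R) →
      (Odd P.card → ∀ v, v ∉ P → τ v * H c (insert v P)ᶜ ≤ R) →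
      ∑ M ∈ PMon univ, (if Sub B M ∧ ∀ v ∈ P, B v = v → blk v ≠ blk (M v) then W c M else 0) ≤
        (Fintype.card V * L) ^ k * (ga c τ P B * R) := by
  have hn : (1 : ℝ) ≤ Fintype.card V := by exact_mod_cast Fintype.card_pos
  have hnL : (1 : ℝ) ≤ Fintype.card V * L := one_le_mul_of_one_le_of_one_le hn hL
  have h0' : ∀ v, 0 ≤ τ v := fun v => (h0 v).le
  induction k with
  | zero =>
    intro P B R hi hs hk hR he ho
    rw [pow_zero, one_mul]
    refine base c hi hs (fun v hv e => ?_) he _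
    have := card_pos.2 ⟨v, (mem_filter.2 ⟨hv, e⟩ : v ∈ P.filter fun v => B v = v)⟩
    omega
  | succ k ih =>
    intro P B R hi hs hk hR he ho
    have hg : 0 ≤ ga c τ P B * R := mul_nonneg (ga_nonneg c h0' P B) hR
    by_cases hf : ∀ v ∈ P, B v ≠ v
    · exact (base c hi hs hf he _).trans (le_mul_of_one_le_left hg (one_le_pow₀ hnL))
    push Not at hf
    obtain ⟨u, huP, hu⟩ := hf
    have key : ∀ w, ∑ M ∈ PMon univ,
        (if (Sub B M ∧ ∀ v ∈ P, B v = v → blk v ≠ blk (M v)) ∧ M u = w then W c M else 0) ≤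
        (Fintype.card V * L) ^ k * (L * (ga c τ P B * R)) := by
      intro w
      by_cases hex : ∃ M ∈ PMon (univ : Finset V),
          (Sub B M ∧ ∀ v ∈ P, B v = v → blk v ≠ blk (M v)) ∧ M u = w
      swap
      · rw [sum_eq_zero fun M hM => if_neg fun h => hex ⟨M, hM, h⟩]
        positivity
      obtain ⟨M0, hM0, ⟨s0, b0⟩, e0⟩ := hex
      have hM0' := mem_PM.1 hM0
      have huw : u ≠ w := fun e => (hM0' u).2 (e0.trans e.symm)
      have hb : blk u ≠ blk w := e0 ▸ b0 u huP hu
      have hw : B w = w := by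
        by_contra hw
        have h1 := s0 w hw
        rw [← e0, (hM0' u).1, e0] at h1
        exact huw (by rw [← hu, h1, hi])
      have hcard : ∀ P' : Finset V, (∀ v ∈ P', v ≠ w → v ∈ P) →
          (P'.filter fun v => jn u w B v = v).card ≤ k := by
        intro P' hP'
        have h1 : (P'.filter fun v => jn u w B v = v) ⊆ (P.filter fun v => B v = v).erase u := by
          intro v hv
          obtain ⟨h1, h2⟩ := mem_filter.1 hv
          obtain ⟨h3, h4, h5⟩ := jn_fix hi hu hw huw h2
          exact mem_erase.2 ⟨h3, mem_filter.2 ⟨hP' v h1 h4, h5⟩⟩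
        have h2 := card_le_card h1
        have h3 := card_erase_add_one (mem_filter.2 ⟨huP, hu⟩ : u ∈ P.filter fun v => B v = v)
        omega
      have hsupp : ∀ P' : Finset V, P ⊆ P' → w ∈ P' → ∀ v, jn u w B v ≠ v → v ∈ P' := by
        intro P' hP' hw' v hv
        by_cases h1 : v = u
        · exact h1 ▸ hP' huP
        by_cases h2 : v = w
        · exact h2 ▸ hw'
        rw [jn_other hi hu hw h1 h2] at hv
        exact hP' (hs v hv)
      have hle : ∀ P' : Finset V, (∀ v ∈ P', v ≠ w → v ∈ P) → ∑ M ∈ PMon univ,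
          (if (Sub B M ∧ ∀ v ∈ P, B v = v → blk v ≠ blk (M v)) ∧ M u = w then W c M else 0) ≤
          ∑ M ∈ PMon univ, (if Sub (jn u w B) M ∧ ∀ v ∈ P', jn u w B v = v → blk v ≠ blk (M v)
            then W c M else 0) := by
        intro P' hP'
        refine sum_le_sum fun M hM => ?_
        by_cases h1 : (Sub B M ∧ ∀ v ∈ P, B v = v → blk v ≠ blk (M v)) ∧ M u = w
        · rw [if_pos h1, if_pos]
          refine ⟨jn_sub hi hu hw (fun v => (mem_PM.1 hM v).1) h1.1.1 h1.2, fun v hv e => ?_⟩
          obtain ⟨_, h4, h5⟩ := jn_fix hi hu hw huw e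
          exact h1.1.2 v (hP' v hv h4) h5
        · rw [if_neg h1]
          split_ifs
          · exact W_nonneg _ _
          · exact le_rfl
      have hp0 : 0 ≤ (Fintype.card V * L) ^ k := by positivity
      by_cases hwP : w ∈ P
      · refine (hle P fun v hv _ => hv).trans ((ih P (jn u w B) R (jn_inv hi hu hw)
          (hsupp P subset_rfl hwP) (hcard P fun v hv _ => hv) hR he ho).trans ?_)
        refine mul_le_mul_of_nonneg_left ?_ hp0
        exact (mul_le_mul_of_nonneg_right (ga_jn hc h0 hi hu hw huw (hup _ _ hb) huP hwP)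
          hR).trans (le_mul_of_one_le_left hg hL)
      · have hins : ∀ v ∈ insert w P, v ≠ w → v ∈ P := fun v hv h =>
          (mem_insert.1 hv).resolve_left h
        have hci := card_insert_of_notMem hwP
        have hτ := h0 w
        refine (hle _ hins).trans ((ih (insert w P) (jn u w B) (L * R / τ w) (jn_inv hi hu hw)
          (hsupp _ (subset_insert _ _) (mem_insert_self _ _)) (hcard _ hins) (by positivity)
          (fun h => ?_) (fun h v hv => ?_)).trans ?_)
        · have h1 : Odd P.card := by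
            rw [hci, Nat.even_add_one] at h
            exact Nat.not_even_iff_odd.1 h
          rw [le_div_iff₀ hτ, mul_comm]
          exact (ho h1 w hwP).trans (le_mul_of_one_le_left hR hL)
        · have h1 : Even P.card := by
            rw [hci, Nat.odd_add_one] at h
            exact Nat.not_odd_iff_even.1 h
          have hvw : w ≠ v := fun e => hv (e ▸ mem_insert_self _ _)
          have h2 := term hc (S := Pᶜ) (mem_compl.2 hwP)
            (mem_compl.2 fun e => hv (mem_insert_of_mem e)) hvw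
          have h3 : (Pᶜ.erase w).erase v = (insert v (insert w P))ᶜ := by
            rw [compl_insert, compl_insert]
          rw [h3] at h2
          rw [le_div_iff₀ hτ]
          have h4 := mul_le_mul_of_nonneg_right (hlo w v hvw)
            (H_nonneg c (insert v (insert w P))ᶜ)
          have h5 := mul_le_mul_of_nonneg_left (h2.trans (he h1)) (zero_le_one.trans hL)
          linarith
        · refine mul_le_mul_of_nonneg_left ?_ hp0
          have h1 := ga_jn hc h0 hi hu hw huw (hup _ _ hb) (mem_insert_of_mem huP)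
            (mem_insert_self w P)
          rw [ga_insert c τ hwP hw] at h1
          refine (mul_le_mul_of_nonneg_right h1 (by positivity)).trans (le_of_eq ?_)
          field_simp
    calc ∑ M ∈ PMon univ, (if Sub B M ∧ ∀ v ∈ P, B v = v → blk v ≠ blk (M v) then W c M else 0)
        = ∑ w, ∑ M ∈ PMon univ, (if (Sub B M ∧ ∀ v ∈ P, B v = v → blk v ≠ blk (M v)) ∧ M u = w
            then W c M else 0) := by
          rw [sum_comm]
          refine sum_congr rfl fun M _ => ?_
          simp only [ite_and]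
          split_ifs <;> simp
      _ ≤ ∑ _w : V, (Fintype.card V * L) ^ k * (L * (ga c τ P B * R)) :=
          sum_le_sum fun w _ => key w
      _ = _ := by
          rw [sum_const, card_univ, nsmul_eq_mul, pow_succ]
          ring

theorem Fl_le (hc : Ker c) {blk : Finset V → V → Finset V} {τ : Finset V → V → ℝ}
    {h : Finset V → V} (hl : Lam c L blk τ h) {o1 o2 : Ob V} (h2 : Two o1 o2) (a b : Bool) :
    Fl c blk o1 o2 ≤ (Fintype.card V * L) ^ 8 *
      (ga c (τ (o1.P ∪ o2.P)) (SU h o1 o2) (o1.A a ∘ o2.A b) *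
        ga c (τ (o1.P ∪ o2.P)) (SU h o1 o2) (o1.A (!a) ∘ o2.A (!b)) * H c (SU h o1 o2)ᶜ ^ 2) := by
  classical
  have : Nonempty V := ⟨o1.s⟩
  set P := o1.P ∪ o2.P with hP
  have hh : ∀ P : Finset V, OK P (h P) := fun P => hl.out P
  have hL0 : 0 ≤ L := zero_le_one.trans hl.one
  have h0' : ∀ v, 0 ≤ τ P v := fun v => (hl.pos P v).le
  have G : ∀ a : Bool, ∑ M ∈ PMon univ, (if Sub (o1.A a ∘ o2.A a) M ∧
      ∀ v ∈ P, (o1.A a ∘ o2.A a) v = v → blk P v ≠ blk P (M v) then W c M else 0) ≤
      (Fintype.card V * L) ^ 4 * (ga c (τ P) (SU h o1 o2) (o1.A a ∘ o2.A a) *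
        H c (SU h o1 o2)ᶜ) := by
    intro a
    have h4 : (P.filter fun v => (o1.A a ∘ o2.A a) v = v).card ≤ 4 :=
      (card_le_card (filter_subset_filter _ (sub_SP P (h P)))).trans (h2.fix_four hh a a)
    by_cases hodd : Odd P.card
    · have hS : SU h o1 o2 = insert (h P) P := if_pos hodd
      have hfix : (o1.A a ∘ o2.A a) (h P) = h P := by
        by_contra e
        exact hl.out P hodd (h2.supp a a _ e)
      have := gu hc hl.one (hl.pos P) (hl.lo P) (hl.up P) 4 P (o1.A a ∘ o2.A a)
        (τ P (h P) * H c (insert (h P) P)ᶜ) (h2.inv a a) (h2.supp a a) h4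
        (mul_nonneg (h0' _) (H_nonneg _ _))
        (fun e => absurd hodd (Nat.not_odd_iff_even.2 e)) (fun _ => hl.max P hodd)
      rw [hS, ga_insert c (τ P) (hl.out P hodd) hfix]
      refine this.trans (le_of_eq ?_)
      ring
    · have hS : SU h o1 o2 = P := if_neg hodd
      rw [hS]
      exact gu hc hl.one (hl.pos P) (hl.lo P) (hl.up P) 4 P (o1.A a ∘ o2.A a) (H c Pᶜ)
        (h2.inv a a) (h2.supp a a) h4 (H_nonneg _ _) (fun _ => le_rfl) (fun e => absurd e hodd)
  have nn : ∀ (q : Prop) [Decidable q] (M : V → V), 0 ≤ if q then W c M else 0 := by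
    intro q _ M
    split_ifs
    · exact W_nonneg _ _
    · exact le_rfl
  have h1 := mul_le_mul (G false) (G true) (sum_nonneg fun M _ => nn _ M)
    (mul_nonneg (by positivity) (mul_nonneg (ga_nonneg c h0' _ _) (H_nonneg _ _)))
  refine le_trans ?_ (h1.trans (le_of_eq ?_))
  · rw [Fl, sum_mul_sum]
    refine sum_le_sum fun M _ => sum_le_sum fun N _ => ?_
    by_cases hv : VP blk M N o1 o2
    · rw [if_pos hv, if_pos, if_pos]
      · exact ⟨(h2.sub_iff true true).2 ⟨hv.s1 true, hv.s2 true⟩, fun v hv' e =>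
          hv.cr true v hv' ((h2.fix_iff _ _ v).1 e).1 ((h2.fix_iff _ _ v).1 e).2⟩
      · exact ⟨(h2.sub_iff false false).2 ⟨hv.s1 false, hv.s2 false⟩, fun v hv' e =>
          hv.cr false v hv' ((h2.fix_iff _ _ v).1 e).1 ((h2.fix_iff _ _ v).1 e).2⟩
    · rw [if_neg hv]
      exact mul_nonneg (nn _ M) (nn _ N)
  · simp only [h2.ga_split]
    cases a <;> cases b <;> simp only [Bool.not_false, Bool.not_true] <;> ring

lemma Fl_zero (c : V → V → ℝ) (blk : Finset V → V → Finset V) {o1 o2 : Ob V} (h2 : ¬ Two o1 o2) :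
    Fl c blk o1 o2 = 0 := by
  exact sum_eq_zero fun M _ => sum_eq_zero fun N _ => if_neg fun h => h2 h.two

end Vale.Agent.P308
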