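import Vale.Agent.P308.PathA

/-! Unwinding an alternating cycle (job Path). -/

namespace Vale.Agent.P308

open Finset

variable {V : Type} [Fintype V] [DecidableEq V] {c : V → V → ℝ}

namespace PA

variable {U : Finset V} {X0 M N X Y : V → V} {ρ a : V} {i : ℕ} {T : Finset V} {K : ℝ}
  {blk : V → Finset V}

def Light (blk : V → Finset V) (M N : V → V) (v : V) : Prop :=
  blk v ≠ blk (M v) ∨ blk v ≠ blk (N v)

def GoodI (blk : V → Finset V) (M N : V → V) (ρ : V) (i : ℕ) (b : V) : Prop :=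
  i = 0 ∨ b = N ρ ∨ Light blk M N b

lemma canc {A B u v K : ℝ} (h : A * u = B * v) (hv : v ≤ K * u) (hu : 0 < u) (hB : 0 ≤ B) :
    A ≤ K * B := by
  refine le_of_mul_le_mul_right ?_ hu
  rw [h]
  nlinarith [mul_le_mul_of_nonneg_left hv hB]

theorem Inv.enc (h : Inv c U X0 M N ρ i X Y a T) (hc : Ker c) (hp : Pos c) (hK : 1 ≤ K)
    (h4 : Four c K blk) (hM : M ∈ Cl U X0) (hN : N ∈ Cl U X0) (h0 : i ≠ 0 → M ρ ≠ N ρ)
    (hρ : ∀ v ∈ Orb M N ρ, Light blk M N v → Light blk M N ρ) (hg : GoodI blk M N ρ i (X ρ)) :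
    ∃ p q r s, cj p q (cj r s Y) ∈ Cl U X0 ∧
      W c M * W c N ≤ K * (W c X * W c (cj p q (cj r s Y))) := by
  have w0 : ∀ A B : V → V, 0 ≤ W c A * W c B := fun A B => mul_nonneg (W_nonneg _ _) (W_nonneg _ _)
  rcases h.cas with ⟨-, e1, e2, -⟩ | ⟨hi, e1, e2, e3, e4⟩
  · refine ⟨ρ, ρ, ρ, ρ, by simpa using h.hY, ?_⟩
    rw [cj_self, cj_self, e1, e2]
    exact le_mul_of_one_le_left (w0 _ _) hK
  have U_ := fun v hv => orbU (v := v) hM hN (h0 hi) hv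
  have hYb : Y (X ρ) = N (X ρ) := h.yout _ (Or.inr (Or.inr rfl))
  have hYρ : Y ρ = N ρ := h.yout _ (Or.inr (Or.inl rfl))
  have hYa : Y a = M ρ := flip h.hY e2
  have ob := h.orb _ h.hb
  have aT : a ∈ T := e1 ▸ h.hM _ h.hb
  have xT : M ρ ∈ T := h.hM _ h.hρ
  have ρb : ρ ≠ X ρ := (ne_of h.hX _).symm
  have xa : M ρ ≠ a := e2 ▸ (ne_of h.hY _).symm
  have ρa : ρ ≠ a := fun e => e3 (flip hM (e1.trans e.symm))
  have ρx : ρ ≠ M ρ := (ne_of hM _).symm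
  have p1 := hp _ _ ρb
  have p2 := hp _ _ xa
  have uρ := U_ _ orb_self
  have ux := U_ _ (orbM orb_self)
  have uz := U_ _ (orbN orb_self)
  have ua := U_ _ (h.orb _ aT)
  have m1 : cj (X ρ) (M ρ) Y ∈ Cl U X0 :=
    cj_mem_Cl h.hY (U_ _ ob) ux (hYb ▸ U_ _ (orbN ob)) (e2 ▸ ua)
  by_cases hb : X ρ = N ρ
  · have n1 : Y (X ρ) = ρ := by rw [hYb, hb, inv_of hN]
    have w1 := W_cj hc (mem_Cl.1 h.hY).1 e3.symm (by rw [n1]; exact ρx)
    rw [n1, e2, hc.symm (X ρ) ρ, hc.symm (M ρ) ρ] at w1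
    refine ⟨ρ, ρ, X ρ, M ρ, by simpa using m1, ?_⟩
    rw [cj_self]
    refine canc (u := c ρ (X ρ) * c (M ρ) a) (v := c ρ (X ρ) * c (M ρ) a) ?_
      (le_mul_of_one_le_left (mul_pos p1 p2).le hK) (mul_pos p1 p2) (w0 _ _)
    linear_combination -e4 - W c X * w1
  obtain ⟨haT, hzT, hρa⟩ := h.notMem hN hb
  have hl : Light blk M N (X ρ) := (hg.resolve_left hi).resolve_left hb
  have xa' : M ρ ≠ N (X ρ) := fun e => haT (e ▸ xT)
  have za : N ρ ≠ a := fun e => hzT (e ▸ aT)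
  have za' : N ρ ≠ N (X ρ) := fun e => ρb (inj_of hN e)
  have p3 := hp _ _ xa'
  have w1 := W_cj hc (mem_Cl.1 h.hY).1 e3.symm (hYb ▸ xa'.symm)
  rw [hYb, e2] at w1
  have i1 : W c M * W c N * (c ρ (X ρ) * c (M ρ) (N (X ρ))) =
      W c X * W c (cj (X ρ) (M ρ) Y) * (c ρ (M ρ) * c (X ρ) (N (X ρ))) := by
    refine mul_right_cancel₀ p2.ne' ?_
    linear_combination -c (M ρ) (N (X ρ)) * e4 - W c X * c ρ (M ρ) * w1
  rcases hρ _ ob hl with l1 | l1 <;> rcases hl with l2 | l2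
  · refine ⟨ρ, ρ, ρ, ρ, by simpa using h.hY, ?_⟩
    rw [cj_self, cj_self]
    exact canc e4.symm (h4 _ _ _ _ ρb xa l1 (e1 ▸ l2)) (mul_pos p1 p2) (w0 _ _)
  · refine ⟨ρ, ρ, X ρ, M ρ, by simpa using m1, ?_⟩
    rw [cj_self]
    exact canc i1 (h4 _ _ _ _ ρb xa' l1 l2) (mul_pos p1 p3) (w0 _ _)
  · have w2 := W_cj hc (mem_Cl.1 h.hY).1 ρa (hYρ ▸ za)
    rw [hYρ, hYa, hc.symm a (M ρ), hc.symm a (N ρ)] at w2
    refine ⟨ρ, ρ, ρ, a, by simpa using cj_mem_Cl h.hY uρ ua (hYρ ▸ uz) (hYa ▸ ux), ?_⟩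
    rw [cj_self]
    refine canc ?_ (h4 _ _ _ _ ρb za l1 (e1 ▸ l2)) (mul_pos p1 (hp _ _ za)) (w0 _ _)
    refine mul_right_cancel₀ p2.ne' ?_
    linear_combination -c (N ρ) a * e4 - W c X * c (X ρ) a * w2
  · have y1 : cj (X ρ) (M ρ) Y ρ = N ρ := by
      rw [cj_of_ne ρb ρx (hYρ ▸ Ne.symm hb) (hYρ ▸ fun e => hzT (e ▸ xT)), hYρ]
    have y2 : cj (X ρ) (M ρ) Y (N (X ρ)) = M ρ :=
      hYb ▸ (cj_vals (mem_Cl.1 h.hY).1 e3.symm (hYb ▸ xa'.symm)).2.2.1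
    have w2 := W_cj hc (mem_Cl.1 m1).1 hρa (y1 ▸ za')
    rw [y1, y2, hc.symm (N (X ρ)) (M ρ), hc.symm (N (X ρ)) (N ρ)] at w2
    refine ⟨ρ, N (X ρ), X ρ, M ρ, cj_mem_Cl m1 uρ (U_ _ (orbN ob)) (y1 ▸ uz) (by rw [y2]; exact ux),
      ?_⟩
    refine canc ?_ (h4 _ _ _ _ ρb za' l1 l2) (mul_pos p1 (hp _ _ za')) (w0 _ _)
    refine mul_right_cancel₀ p3.ne' ?_
    linear_combination c (N ρ) (N (X ρ)) * i1 - W c X * c (X ρ) (N (X ρ)) * w2

open Classical in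
/-- the cost of the good states -/
noncomputable def R (blk : V → Finset V) (r : (V → V) → ℝ) (M N : V → V) (ρ : V) (j : ℕ) : ℝ :=
  if GoodI blk M N ρ j ((st M N ρ j).1 ρ) then r (st M N ρ j).1 else 0

theorem telescope (hc : Ker c) (hp : Pos c) (hM : M ∈ Cl U X0) (hN : N ∈ Cl U X0)
    {f r : (V → V) → ℝ} (hr : ∀ X ∈ Cl U X0, ∀ Y ∈ Cl U X0, ∀ u p q t : V,
      (∀ v, blk v ≠ blk u → v ≠ p → v ≠ q → v ≠ t → X v = Y v) → |f X - f Y| ≤ r X + r Y)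
    (m : ℕ) (hv : Valid M N ρ m) : ∃ Z ∈ Cl U X0, ∃ β b : V,
      |f M - f Z| + r Z ≤ ∑ j ∈ range (m + 1), 2 * R blk r M N ρ j ∧
      (∀ v, blk v ≠ blk β → v ≠ ρ → v ≠ b → v ≠ (st M N ρ m).1 ρ → Z v = (st M N ρ m).1 v) ∧
      blk (N ((st M N ρ m).1 ρ)) = blk β ∧
      (blk ((st M N ρ m).1 ρ) = blk β ∨ (st M N ρ m).1 ρ = b) ∧
      (GoodI blk M N ρ m ((st M N ρ m).1 ρ) → Z = (st M N ρ m).1) := by
  induction m with
  | zero =>
    refine ⟨M, hM, N (M ρ), M ρ, ?_, fun _ _ _ _ _ => rfl, rfl, Or.inr rfl, fun _ => rfl⟩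
    rw [sum_range_one, R, if_pos (show GoodI blk M N ρ 0 _ from Or.inl rfl), sub_self, abs_zero]
    show 0 + r M ≤ 2 * r M
    have := hr M hM M hM ρ ρ ρ ρ fun _ _ _ _ _ => rfl
    rw [sub_self, abs_zero] at this
    linarith
  | succ m ih =>
    have hv' : Valid M N ρ m := fun j hj => hv j (by omega)
    obtain ⟨Z, hZ, β, b, h1, h2, h3, h4, -⟩ := ih hv'
    obtain ⟨T, h⟩ := inv_st hc hp hM hN m hv'
    obtain ⟨k1, k2, k3⟩ := h.step hc hp hM hN (hv 0 (by omega)) (hv m (by omega))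
    have e : (st M N ρ (m + 1)).1 = cj ρ ((st M N ρ m).2.1 ((st M N ρ m).1 ρ)) (st M N ρ m).1 := by
      rw [st_succ]; rfl
    rw [← e] at k2 k3
    have hX : (st M N ρ (m + 1)).1 ∈ Cl U X0 := e ▸ k1.hX
    have ag : ∀ v, blk v ≠ blk β → v ≠ ρ → v ≠ b → v ≠ (st M N ρ (m + 1)).1 ρ →
        Z v = (st M N ρ (m + 1)).1 v := by
      intro v a1 a2 a3 a4
      have a5 : v ≠ (st M N ρ m).1 ρ := fun e => h4.elim (fun h => a1 (e ▸ h)) fun h => a3 (e ▸ h)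
      rw [h2 v a1 a2 a3 a5, k3 v a2 a5 (fun e => a1 (e ▸ h3)) (k2 ▸ a4)]
    rw [sum_range_succ]
    by_cases hg : GoodI blk M N ρ (m + 1) ((st M N ρ (m + 1)).1 ρ)
    · refine ⟨_, hX, _, _, ?_, fun _ _ _ _ _ => rfl, rfl, Or.inr rfl, fun _ => rfl⟩
      have h5 := hr Z hZ _ hX β ρ b _ ag
      have h6 := abs_sub_le (f M) (f Z) (f (st M N ρ (m + 1)).1)
      rw [R, if_pos hg]
      linarith
    · have nl : ¬ Light blk M N ((st M N ρ (m + 1)).1 ρ) := fun l => hg (Or.inr (Or.inr l))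
      simp only [Light, not_or, not_not] at nl
      have h5 : blk ((st M N ρ (m + 1)).1 ρ) = blk β := by
        rw [nl.1, k2, inv_of hM, h3]
      refine ⟨Z, hZ, β, b, ?_, ag, nl.2 ▸ h5, Or.inl h5, fun g => absurd g hg⟩
      rw [R, if_neg hg]
      linarith

open Classical in
/-- the total weight of the encodings near `Y` -/
noncomputable def Ph (c : V → V → ℝ) (U : Finset V) (X0 Y : V → V) : ℝ :=
  ∑ t : V × V × V × V, if cj t.1 t.2.1 (cj t.2.2.1 t.2.2.2 Y) ∈ Cl U X0 then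
    W c (cj t.1 t.2.1 (cj t.2.2.1 t.2.2.2 Y)) else 0

noncomputable def gg (c : V → V → ℝ) (U : Finset V) (X0 : V → V) (r : (V → V) → ℝ) (s : Tr V) : ℝ :=
  (if s.1 ∈ Cl U X0 then W c s.1 * r s.1 ^ 2 else 0) * Ph c U X0 s.2.1

lemma Ph_nonneg (Y : V → V) : 0 ≤ Ph c U X0 Y :=
  sum_nonneg fun t _ => by split_ifs; exacts [W_nonneg _ _, le_rfl]

lemma gg_nonneg (r : (V → V) → ℝ) (s : Tr V) : 0 ≤ gg c U X0 r s :=
  mul_nonneg (by split_ifs; exacts [mul_nonneg (W_nonneg _ _) (sq_nonneg _), le_rfl]) (Ph_nonneg _)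

lemma sum_gg (r : (V → V) → ℝ) : ∑ s : Tr V, gg c U X0 r s =
    (Fintype.card V : ℝ) ^ 5 * (∑ X ∈ Cl U X0, W c X) * ∑ X ∈ Cl U X0, W c X * r X ^ 2 := by
  have h1 : ∑ Y, Ph c U X0 Y = (Fintype.card V : ℝ) ^ 4 * ∑ X ∈ Cl U X0, W c X := by
    unfold Ph
    rw [sum_comm, sum_congr rfl (g := fun _ => ∑ X ∈ Cl U X0, W c X) fun t _ => ?_]
    · simp only [sum_const, card_univ, Fintype.card_prod, nsmul_eq_mul]; push_cast; ring
    · have hb : Function.Bijective fun Y : V → V => cj t.1 t.2.1 (cj t.2.2.1 t.2.2.2 Y) :=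
        Function.bijective_iff_has_inverse.2
          ⟨fun Y => cj t.2.2.1 t.2.2.2 (cj t.1 t.2.1 Y), fun Y => by simp, fun Y => by simp⟩
      rw [hb.sum_comp fun X => if X ∈ Cl U X0 then W c X else 0, sum_ite_mem, univ_inter]
  simp only [gg, Fintype.sum_prod_type, sum_const, card_univ, nsmul_eq_mul, ← mul_sum, ← sum_mul,
    h1, sum_ite_mem, univ_inter]
  ring

open Classical in
theorem pair (hc : Ker c) (hp : Pos c) (hK : 1 ≤ K) (h4 : Four c K blk) (hM : M ∈ Cl U X0)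
    (hN : N ∈ Cl U X0) {f r : (V → V) → ℝ} (hr0 : ∀ X, 0 ≤ r X)
    (hr : ∀ X ∈ Cl U X0, ∀ Y ∈ Cl U X0, ∀ u p q t : V,
      (∀ v, blk v ≠ blk u → v ≠ p → v ≠ q → v ≠ t → X v = Y v) → |f X - f Y| ≤ r X + r Y)
    (k : V) : W c M * W c N * (f M - f (mix (Orb M N k) M N)) ^ 2 ≤
      4 * Fintype.card V * K * ∑ ρ, ∑ i ∈ range (Fintype.card V),
        if Valid M N ρ i then gg c U X0 r (st M N ρ i) else 0 := by
  obtain ⟨ρ, hk, hρ⟩ : ∃ ρ ∈ Orb M N k, ∀ v ∈ Orb M N k, Light blk M N v → Light blk M N ρ := by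
    by_cases h : ∃ v ∈ Orb M N k, Light blk M N v
    · obtain ⟨v, h1, h2⟩ := h
      exact ⟨v, h1, fun _ _ _ => h2⟩
    · exact ⟨k, orb_self, fun v h1 h2 => absurd ⟨v, h1, h2⟩ h⟩
  rw [orb_eq hM hN hk] at hρ ⊢
  have lt : ∀ i, Valid M N ρ i → i < Fintype.card V := fun i hi => by
    obtain ⟨T, h⟩ := inv_st hc hp hM hN i hi
    have := h.card ▸ card_le_univ T
    omega
  have ex : ∃ j, (st M N ρ j).1 ρ = N ρ := by
    by_contra h
    exact lt_irrefl _ (lt _ fun j _ e => h ⟨j, e⟩)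
  have hl := Nat.find_spec ex
  have hv : Valid M N ρ (Nat.find ex) := fun j hj => Nat.find_min ex hj
  set l := Nat.find ex
  obtain ⟨Z, -, -, -, h1, -, -, -, h2⟩ := telescope hc hp hM hN hr l hv
  obtain ⟨T, hI⟩ := inv_st hc hp hM hN l hv
  rw [h2 (Or.inr (Or.inl hl)), hI.final hM hN hl] at h1
  have h3 : (f M - f (mix (Orb M N ρ) M N)) ^ 2 ≤
      Fintype.card V * ∑ j ∈ range (l + 1), (2 * R blk r M N ρ j) ^ 2 := by
    have h5 := sq_sum_le_card_mul_sum_sq (s := range (l + 1)) (f := fun j => 2 * R blk r M N ρ j)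
    have h6 : ((range (l + 1)).card : ℝ) ≤ Fintype.card V := by
      rw [card_range]; exact_mod_cast lt l hv
    rw [← sq_abs]
    refine le_trans (pow_le_pow_left₀ (abs_nonneg _) (by linarith [hr0 (mix (Orb M N ρ) M N)]) 2)
      (h5.trans (mul_le_mul_of_nonneg_right h6 (sum_nonneg fun _ _ => sq_nonneg _)))
  have nn : ∀ ρ i, 0 ≤ if Valid M N ρ i then gg c U X0 r (st M N ρ i) else 0 := fun ρ i => by
    split_ifs; exacts [gg_nonneg _ _, le_rfl]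
  have h5 : ∀ j ∈ range (l + 1), W c M * W c N * (2 * R blk r M N ρ j) ^ 2 ≤
      4 * K * if Valid M N ρ j then gg c U X0 r (st M N ρ j) else 0 := by
    intro j hj
    have vj : Valid M N ρ j := fun i hi => hv i (by have := mem_range.1 hj; omega)
    obtain ⟨T, h⟩ := inv_st hc hp hM hN j vj
    rw [if_pos vj, R]
    split_ifs with hg
    · obtain ⟨p, q, r', s, e1, e2⟩ := h.enc hc hp hK h4 hM hN
        (fun h0 => vj 0 (Nat.pos_of_ne_zero h0)) hρ hg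
      have e3 : W c (cj p q (cj r' s (st M N ρ j).2.1)) ≤ Ph c U X0 (st M N ρ j).2.1 := by
        refine le_trans (le_of_eq ?_) (single_le_sum (fun t _ => ?_) (mem_univ (p, q, r', s)))
        · rw [if_pos e1]
        · split_ifs; exacts [W_nonneg _ _, le_rfl]
      rw [gg, if_pos h.hX]
      have e4 := mul_le_mul_of_nonneg_left e3 (W_nonneg c (st M N ρ j).1)
      have e5 := e2.trans (mul_le_mul_of_nonneg_left e4 (by linarith))
      nlinarith [mul_le_mul_of_nonneg_right e5 (sq_nonneg (r (st M N ρ j).1))]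
    · have := gg_nonneg (c := c) (U := U) (X0 := X0) r (st M N ρ j)
      simp only [mul_zero, ne_eq, OfNat.ofNat_ne_zero, not_false_eq_true, zero_pow]
      positivity
  have h6 := sum_le_sum h5
  rw [← mul_sum, ← mul_sum] at h6
  have h7 : ∑ j ∈ range (l + 1), (if Valid M N ρ j then gg c U X0 r (st M N ρ j) else 0) ≤
      ∑ ρ, ∑ i ∈ range (Fintype.card V), if Valid M N ρ i then gg c U X0 r (st M N ρ i) else 0 :=
    (sum_le_sum_of_subset_of_nonneg (range_subset_range.2 (lt l hv)) fun i _ _ => nn ρ i).trans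
      (single_le_sum (f := fun ρ => ∑ i ∈ range (Fintype.card V),
        if Valid M N ρ i then gg c U X0 r (st M N ρ i) else 0)
        (fun ρ _ => sum_nonneg fun i _ => nn ρ i) (mem_univ ρ))
  have w0 := mul_nonneg (W_nonneg c M) (W_nonneg c N)
  have n0 : (0 : ℝ) ≤ Fintype.card V := Nat.cast_nonneg _
  have h8 := mul_le_mul_of_nonneg_left h3 w0
  have h9 := mul_le_mul_of_nonneg_left h6 n0
  have h10 := mul_le_mul_of_nonneg_left h7 (show 0 ≤ 4 * Fintype.card V * K by positivity)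
  nlinarith

open Classical in
theorem inj_sum (hc : Ker c) (hp : Pos c) (r : (V → V) → ℝ) (ρ : V) (i : ℕ) :
    ∑ M ∈ Cl U X0, ∑ N ∈ Cl U X0, (if Valid M N ρ i then gg c U X0 r (st M N ρ i) else 0) ≤
      ∑ s : Tr V, gg c U X0 r s := by
  rw [← sum_product' (f := fun M N => if Valid M N ρ i then gg c U X0 r (st M N ρ i) else 0),
    ← sum_filter, ← sum_image (g := fun z : (V → V) × (V → V) => st z.1 z.2 ρ i)]
  · exact sum_le_sum_of_subset_of_nonneg (subset_univ _) fun s _ _ => gg_nonneg r s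
  · intro z hz z' hz' e
    simp only [coe_filter, mem_product, Set.mem_ofPred_eq] at hz hz'
    have h1 := Gi_st hc hp hz.1.1 hz.1.2 i hz.2
    have h2 := Gi_st hc hp hz'.1.1 hz'.1.2 i hz'.2
    simp only at e
    rw [e, h2] at h1
    simp only [Prod.mk.injEq] at h1
    exact Prod.ext h1.1.symm h1.2.1.symm

end PA

open PA in
theorem path (hc : Ker c) (hp : Pos c) {K : ℝ} (hK : 1 ≤ K) {blk : V → Finset V}
    (h4 : Four c K blk) (U : Finset V) (X0 : V → V) (f r : (V → V) → ℝ) (hr0 : ∀ X, 0 ≤ r X)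
    (hr : ∀ X ∈ Cl U X0, ∀ Y ∈ Cl U X0, ∀ u p q t : V,
      (∀ v, blk v ≠ blk u → v ≠ p → v ≠ q → v ≠ t → X v = Y v) → |f X - f Y| ≤ r X + r Y)
    (k : V) :
    ∑ M ∈ Cl U X0, ∑ N ∈ Cl U X0, W c M * W c N * (f M - f (mix (Orb M N k) M N)) ^ 2 ≤
      4 * (Fintype.card V : ℝ) ^ 8 * K * (∑ X ∈ Cl U X0, W c X) *
        ∑ X ∈ Cl U X0, W c X * r X ^ 2 := by
  classical
  refine (sum_le_sum fun M hM => sum_le_sum fun N hN => pair hc hp hK h4 hM hN hr0 hr k).trans ?_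
  simp only [← mul_sum]
  have h1 : ∑ M ∈ Cl U X0, ∑ N ∈ Cl U X0, ∑ ρ, ∑ i ∈ range (Fintype.card V),
      (if Valid M N ρ i then gg c U X0 r (st M N ρ i) else 0) ≤
      ∑ ρ : V, ∑ i ∈ range (Fintype.card V), ∑ s : Tr V, gg c U X0 r s := by
    refine le_trans (le_of_eq ?_) (sum_le_sum fun ρ _ => sum_le_sum fun i _ => inj_sum hc hp r ρ i)
    simp only [sum_comm (s := Cl U X0) (t := univ), sum_comm (s := Cl U X0) (t := range _)]
  refine (mul_le_mul_of_nonneg_left h1 (by positivity)).trans (le_of_eq ?_)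
  simp only [sum_gg, sum_const, card_univ, card_range, nsmul_eq_mul]
  ring

end Vale.Agent.P308
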