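import Vale.Agent.P308.Wick

/-! The weights are close to a tree (job Tree). -/

namespace Vale.Agent.P308

open Finset

variable {V : Type} [Fintype V] [DecidableEq V] {c : V → V → ℝ}

namespace TA

variable {D : V → V → ℝ} {k : ℝ}

def gr (D : V → V → ℝ) (hs : ∀ a b, D a b = D b a) (s : ℝ) : SimpleGraph V where
  Adj a b := a ≠ b ∧ D a b ≤ s
  symm := ⟨fun a b h => ⟨h.1.symm, hs a b ▸ h.2⟩⟩
  loopless := ⟨fun a h => h.1 rfl⟩

open Classical in
noncomputable def cp (D : V → V → ℝ) (hs : ∀ a b, D a b = D b a) (s : ℝ) (u : V) : Finset V :=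
  univ.filter fun v => (gr D hs s).Reachable u v

lemma mem_cp {hs : ∀ a b, D a b = D b a} {s : ℝ} {u v : V} :
    v ∈ cp D hs s u ↔ (gr D hs s).Reachable u v := by simp [cp]

omit [DecidableEq V] in
lemma chain (hs : ∀ a b, D a b = D b a) (hk : 1 ≤ k) (h0 : ∀ a, D a a = 0)
    (ht : ∀ a b x, D a b ≤ D a x + k * D x b) {s : ℝ} (hs0 : 0 ≤ s) {a b : V}
    (h : (gr D hs s).Reachable a b) : D a b ≤ k * Fintype.card V * s := by
  classical
  have key : ∀ {a b : V} (p : (gr D hs s).Walk a b), D a b ≤ k * p.length * s := by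
    intro a b p
    induction p with
    | nil => simp [h0]
    | @cons a x b hadj p ih =>
      have h1 := ht b a x
      have h2 := mul_le_mul_of_nonneg_left hadj.2 (by linarith : 0 ≤ k)
      rw [hs b a, hs b x, hs x a] at h1
      rw [SimpleGraph.Walk.length_cons]
      push_cast
      linarith
  obtain ⟨p, hp⟩ := h.exists_isPath
  have h1 : (p.length : ℝ) ≤ Fintype.card V := by exact_mod_cast hp.length_lt.le
  exact (key p).trans (by gcongr)

end TA

open TA in
/-- a centre for a quasi-ultrametric -/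
theorem centre_abs (D : V → V → ℝ) {k : ℝ} (hk : 1 ≤ k) (hs : ∀ a b, D a b = D b a)
    (h0 : ∀ a, D a a = 0) (hp : ∀ a b, a ≠ b → 0 < D a b)
    (ht : ∀ a b x, D a b ≤ D a x + k * D x b) (U : Finset V) (hU : 2 ≤ U.card) :
    ∃ (blk : V → Finset V) (τ : V → ℝ), (∀ v, 0 < τ v) ∧
      (∀ u, 2 * (U.filter fun v => blk v = blk u).card ≤ U.card) ∧
      (∀ a b, D a b * (τ a * τ b) ≤ 3 * k ^ 3 * Fintype.card V) ∧
      ∀ a b, blk a ≠ blk b → 1 ≤ D a b * (τ a * τ b) := by
  classical
  obtain ⟨u0, hu0⟩ : U.Nonempty := card_pos.1 (by omega)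
  set vals : Finset ℝ := univ.image fun z : V × V => D z.1 z.2 with hv
  have mv : ∀ a b, D a b ∈ vals := fun a b => mem_image.2 ⟨(a, b), mem_univ _, rfl⟩
  set P : ℝ → Prop := fun s => ∃ u, U.card < 2 * (U.filter fun v => v ∈ cp D hs s u).card with hP
  obtain ⟨m, hm, hm'⟩ := exists_max_image vals id ⟨_, mv u0 u0⟩
  have Pm : P m := by
    refine ⟨u0, ?_⟩
    have : ∀ v ∈ U, v ∈ cp D hs m u0 := fun v _ => mem_cp.2 (by
      by_cases e : u0 = v
      · exact e ▸ SimpleGraph.Reachable.refl _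
      · exact SimpleGraph.Adj.reachable ⟨e, hm' _ (mv _ _)⟩)
    rw [filter_true_of_mem this]
    omega
  obtain ⟨s, hsm, hmin⟩ := exists_min_image (vals.filter P) id ⟨m, mem_filter.2 ⟨hm, Pm⟩⟩
  obtain ⟨hsv, o, ho⟩ := mem_filter.1 hsm
  have s0 : 0 < s := by
    by_contra hn
    have : (U.filter fun v => v ∈ cp D hs s o) ⊆ {o} := by
      intro v hv
      obtain ⟨p⟩ := mem_cp.1 (mem_filter.1 hv).2
      cases p with
      | nil => exact mem_singleton_self _
      | cons h _ => exact absurd ((hp _ _ h.1).trans_le h.2) hn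
    have := card_le_card this
    rw [card_singleton] at this
    omega
  obtain ⟨s', hs', hmax⟩ := exists_max_image (vals.filter (· < s)) id
    ⟨0, mem_filter.2 ⟨h0 u0 ▸ mv u0 u0, s0⟩⟩
  obtain ⟨hs'v, hs's⟩ := mem_filter.1 hs'
  have nP : ¬ P s' := fun h => absurd (hmin _ (mem_filter.2 ⟨hs'v, h⟩)) (not_le.2 hs's)
  set C := cp D hs s o with hC
  have oC : o ∈ C := mem_cp.2 (SimpleGraph.Reachable.refl _)
  choose w hw hw' using fun v => exists_min_image C (D v) ⟨o, oC⟩
  have far : ∀ v, v ∉ C → s < D v (w v) := fun v hv => by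
    by_contra hn
    refine hv (mem_cp.2 ((mem_cp.1 (hw v)).trans (SimpleGraph.Adj.reachable ⟨?_, ?_⟩)))
    · exact fun e => hv (e ▸ hw v)
    · rw [hs]; exact not_lt.1 hn
  have n1 : (1 : ℝ) ≤ Fintype.card V := by exact_mod_cast Fintype.card_pos_iff.2 ⟨o⟩
  set n : ℝ := (Fintype.card V : ℝ)
  have inn : ∀ a ∈ C, ∀ b ∈ C, D a b ≤ k * n * s := fun a ha b hb =>
    chain hs hk h0 ht s0.le ((mem_cp.1 ha).symm.trans (mem_cp.1 hb))
  have kn : 1 ≤ k ^ 2 * n := one_le_mul_of_one_le_of_one_le (one_le_pow₀ hk) n1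
  have out : ∀ a, a ∉ C → ∀ b ∈ C, D a b ≤ 2 * k ^ 2 * n * D a (w a) := fun a ha b hb => by
    have h1 := ht a b (w a)
    have h2 := mul_le_mul_of_nonneg_left (inn _ (hw a) _ hb) (by linarith : 0 ≤ k)
    have h3 := far a ha
    nlinarith [mul_le_mul_of_nonneg_left h3.le (by linarith : 0 ≤ k ^ 2 * n)]
  have r0 : 0 < √s := Real.sqrt_pos.2 s0
  have rr : √s * √s = s := Real.mul_self_sqrt s0.le
  have k3 : k * n ≤ k ^ 3 * n := by
    gcongr; exact le_self_pow₀ hk (by norm_num)
  have k2 : k ^ 2 * n ≤ k ^ 3 * n := by gcongr; norm_num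
  have t1 : 1 / √s * (1 / √s) = 1 / s := by rw [div_mul_div_comm, rr, one_mul]
  have t2 : ∀ x : ℝ, √s / x * (1 / √s) = 1 / x := fun x => by field_simp
  refine ⟨fun v => if v ∈ C then cp D hs s' v else ∅,
    fun v => if v ∈ C then 1 / √s else √s / D v (w v), fun v => ?_, fun u => ?_, fun a b => ?_,
    fun a b h => ?_⟩
  · dsimp only
    split_ifs with h
    exacts [by positivity, div_pos r0 (s0.trans (far v h))]
  · have sf : ∀ v, v ∈ cp D hs s' v := fun v => mem_cp.2 (SimpleGraph.Reachable.refl _)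
    beta_reduce
    by_cases hu : u ∈ C
    · refine le_trans (Nat.mul_le_mul_left 2 (card_le_card fun v hv => ?_))
        (not_lt.1 fun h => nP ⟨u, h⟩)
      obtain ⟨h1, h2⟩ := mem_filter.1 hv
      rw [if_pos hu] at h2
      refine mem_filter.2 ⟨h1, ?_⟩
      split_ifs at h2
      · exact h2 ▸ sf v
      · exact absurd (h2 ▸ sf u) (notMem_empty u)
    · have h1 := card_filter_add_card_filter_not (s := U) fun v => v ∈ C
      have h2 : (U.filter fun v => (if v ∈ C then cp D hs s' v else ∅) =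
          if u ∈ C then cp D hs s' u else ∅) ⊆ U.filter fun v => v ∉ C := by
        intro v hv
        obtain ⟨h1, h2⟩ := mem_filter.1 hv
        refine mem_filter.2 ⟨h1, fun h => ?_⟩
        rw [if_pos h, if_neg hu] at h2
        exact notMem_empty v (h2 ▸ sf v)
      have h3 := card_le_card h2
      omega
  · by_cases ha : a ∈ C <;> by_cases hb : b ∈ C <;> simp only [ha, hb, if_true, if_false]
    · rw [t1, mul_one_div, div_le_iff₀ s0]
      nlinarith [inn a ha b hb]
    · rw [mul_comm (1 / √s), t2, mul_one_div, div_le_iff₀ (s0.trans (far b hb)), hs]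
      nlinarith [out b hb a ha, far b hb]
    · rw [t2, mul_one_div, div_le_iff₀ (s0.trans (far a ha))]
      nlinarith [out a ha b hb, far a ha]
    · have fa := far a ha
      have fb := far b hb
      have h1 := ht a b (w a)
      have h2 := mul_le_mul_of_nonneg_left (out b hb _ (hw a)) (by linarith : 0 ≤ k)
      rw [hs (w a) b] at h1
      rw [div_mul_div_comm, rr, ← mul_div_assoc, div_le_iff₀ (mul_pos (s0.trans fa) (s0.trans fb))]
      have h3 := mul_le_mul_of_nonneg_right (h1.trans (add_le_add le_rfl h2)) s0.le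
      have h4 := mul_le_mul_of_nonneg_left fb.le (s0.trans fa).le
      have h5 := mul_le_mul_of_nonneg_left fa.le
        (show 0 ≤ 2 * (k ^ 3 * n) * D b (w b) by have := s0.trans fb; positivity)
      have h6 := mul_le_mul_of_nonneg_right (kn.trans k2)
        (mul_pos (s0.trans fa) (s0.trans fb)).le
      nlinarith
  · by_cases ha : a ∈ C <;> by_cases hb : b ∈ C <;> simp only [ha, hb, if_true, if_false] at h ⊢
    · rw [t1, mul_one_div, one_le_div s0]
      by_contra hn
      have e : a ≠ b := fun e => h (e ▸ rfl)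
      have r : (gr D hs s').Reachable a b := SimpleGraph.Adj.reachable
        ⟨e, hmax _ (mem_filter.2 ⟨mv a b, not_le.1 hn⟩)⟩
      exact h (ext fun v => by
        simp only [mem_cp]; exact ⟨fun h => r.symm.trans h, fun h => r.trans h⟩)
    · rw [mul_comm (1 / √s), t2, mul_one_div, one_le_div (s0.trans (far b hb)), hs a b]
      exact hw' b a ha
    · rw [t2, mul_one_div, one_le_div (s0.trans (far a ha))]
      exact hw' a b hb
    · exact absurd rfl h

theorem centre (hc : Ker c) (hp : Pos c) (he : Even (Fintype.card V)) {δ : ℝ} (hδ : 0 < δ)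
    (hδ1 : δ ≤ 1) (hm : Marg c δ) : Centre c (576 * (Fintype.card V : ℝ) ^ 2 / δ ^ 8) := by
  intro U hU
  obtain ⟨o, -⟩ : U.Nonempty := card_pos.1 (by omega)
  have Z0 : 0 < H c univ := H_pos hc hp (by rwa [card_univ])
  have Q0 : ∀ a b, a ≠ b → 0 < Q c a b := fun a b h =>
    (mul_pos_iff_of_pos_left (hp a b h)).1 ((mul_pos hδ Z0).trans_le (hm a b h))
  have QZ : ∀ a b, a ≠ b → c a b * Q c a b ≤ H c univ := fun a b h => by
    rw [H_rec hc (mem_univ a)]
    exact single_le_sum (f := fun w => c a w * H c ((univ.erase a).erase w))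
      (fun w _ => mul_nonneg (hc.nonneg _ _) (H_nonneg _ _)) (mem_erase.2 ⟨h.symm, mem_univ b⟩)
  set E : V → V → ℝ := fun a b => Q c a b / (Q c a o * Q c b o) with hE
  have E0 : ∀ a b, 0 ≤ E a b := fun a b =>
    div_nonneg (Q_nonneg _ _ _) (mul_nonneg (Q_nonneg _ _ _) (Q_nonneg _ _ _))
  set Om : ℝ := 1 + ∑ z : V × V, E z.1 z.2 with hO
  have EO : ∀ a b, E a b ≤ Om := fun a b => by
    have := single_le_sum (f := fun z : V × V => E z.1 z.2) (fun z _ => E0 _ _) (mem_univ (a, b))
    linarith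
  have O0 : 0 < Om := by have := sum_nonneg fun (z : V × V) (_ : z ∈ univ) => E0 z.1 z.2; linarith
  set D : V → V → ℝ := fun a b => if a = b then 0 else if a = o ∨ b = o then Om else E a b with hD
  set g : V → ℝ := fun a => if a = o then 1 / Om else Q c a o with hg
  have g0 : ∀ a, 0 < g a := fun a => by
    simp only [hg]; split_ifs with h
    exacts [by positivity, Q0 _ _ h]
  have QD : ∀ a b, a ≠ b → Q c a b = g a * g b * D a b := fun a b h => by
    simp only [hD, hg, hE, if_neg h]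
    by_cases ha : a = o
    · rw [if_pos ha, if_neg (ha ▸ h.symm), if_pos (Or.inl ha), ha, Q_symm]; field_simp
    by_cases hb : b = o
    · rw [if_neg ha, if_pos hb, if_pos (Or.inr hb), hb]; field_simp
    · have := Q0 _ _ ha
      have := Q0 _ _ hb
      rw [if_neg ha, if_neg hb, if_neg (not_or.2 ⟨ha, hb⟩)]; field_simp
  have Dp : ∀ a b, a ≠ b → 0 < D a b := fun a b h =>
    (mul_pos_iff_of_pos_left (mul_pos (g0 a) (g0 b))).1 (QD a b h ▸ Q0 a b h)
  have D0 : ∀ a, D a a = 0 := fun a => if_pos rfl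
  have Dn : ∀ a b, 0 ≤ D a b := fun a b => by
    by_cases h : a = b
    exacts [h ▸ (D0 a).ge, (Dp a b h).le]
  have DO : ∀ a b, D a b ≤ Om := fun a b => by
    simp only [hD]; split_ifs
    exacts [O0.le, le_rfl, EO a b]
  have Ds : ∀ a b, D a b = D b a := fun a b => by
    simp only [hD, hE, eq_comm (a := a) (b := b), or_comm (a := a = o), Q_symm c a b,
      mul_comm (Q c a o)]
  have hk : 1 ≤ 1 + 1 / δ := le_add_of_nonneg_right (by positivity)
  set k := 1 + 1 / δ with hkd
  have ht : ∀ a b x, D a b ≤ D a x + k * D x b := by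
    intro a b x
    have h1 := Dn a x
    have h2 : D x b ≤ k * D x b := le_mul_of_one_le_left (Dn x b) hk
    have h3 := Dn x b
    by_cases ab : a = b
    · rw [ab, D0]; rw [ab] at h1; linarith
    by_cases ax : a = x
    · rw [ax, D0]; linarith
    by_cases xb : x = b
    · rw [xb, D0]; linarith
    by_cases ao : a = o
    · have : D a x = Om := by simp only [hD, if_neg ax, if_pos (Or.inl ao)]
      linarith [DO a b]
    by_cases bo : b = o
    · have : D x b = Om := by simp only [hD, if_neg xb, if_pos (Or.inr bo)]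
      linarith [DO a b]
    by_cases xo : x = o
    · have : D a x = Om := by simp only [hD, if_neg ax, if_pos (Or.inr xo)]
      linarith [DO a b]
    have h4 := four_point hc hδ hm ab ax ao (Ne.symm xb) bo xo
    have e : ∀ a, a ≠ o → Q c a o = g a := fun a h => (if_neg h).symm
    rw [e a ao, e b bo, e x xo, QD a b ab, QD a x ax, QD b x (Ne.symm xb), Ds b x] at h4
    refine le_of_mul_le_mul_left ?_ (mul_pos (mul_pos (g0 a) (g0 b)) (g0 x))
    linarith
  obtain ⟨blk, τ, τ0, b1, b2, b3⟩ := centre_abs D hk Ds D0 Dp ht U hU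
  refine ⟨blk, b1, fun r b y z rb yz ry bz => ?_⟩
  set n : ℝ := (Fintype.card V : ℝ)
  have n0 : 0 ≤ n := Nat.cast_nonneg _
  set t : V → ℝ := fun a => τ a / g a with htd
  have t0 : ∀ a, 0 < t a := fun a => div_pos (τ0 a) (g0 a)
  have QT : ∀ a b, a ≠ b → Q c a b * (t a * t b) = D a b * (τ a * τ b) := fun a b h => by
    have := g0 a
    have := g0 b
    rw [QD a b h]; simp only [htd]; field_simp
  have up : ∀ a b, blk a ≠ blk b → c a b ≤ H c univ * (t a * t b) := fun a b h => by
    have e : a ≠ b := fun e => h (e ▸ rfl)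
    have h1 := mul_le_mul_of_nonneg_left (QT a b e ▸ b3 a b h) (hc.nonneg a b)
    have h2 := mul_le_mul_of_nonneg_right (QZ a b e) (mul_pos (t0 a) (t0 b)).le
    linarith
  have k2 : k ≤ 2 / δ := by
    have : 1 ≤ 1 / δ := one_le_one_div hδ hδ1
    rw [hkd, show 2 / δ = 1 / δ + 1 / δ by ring]; linarith
  have lo : ∀ a b, a ≠ b → H c univ * (t a * t b) ≤ 24 * n / δ ^ 4 * c a b := fun a b e => by
    have h0 : 3 * k ^ 3 * n ≤ 3 * (2 / δ) ^ 3 * n := by gcongr
    have h1 := mul_le_mul_of_nonneg_left ((QT a b e ▸ b2 a b).trans h0) (hc.nonneg a b)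
    have h2 := mul_le_mul_of_nonneg_right (hm a b e) (mul_pos (t0 a) (t0 b)).le
    refine le_of_mul_le_mul_left ?_ hδ
    have : δ * (24 * n / δ ^ 4 * c a b) = c a b * (3 * (2 / δ) ^ 3 * n) := by field_simp; ring
    linarith
  have p := fun a b => (mul_pos Z0 (mul_pos (t0 a) (t0 b))).le
  calc c r y * c b z ≤ H c univ * (t r * t y) * (H c univ * (t b * t z)) :=
        mul_le_mul (up _ _ ry) (up _ _ bz) (hc.nonneg _ _) (p _ _)
    _ = H c univ * (t r * t b) * (H c univ * (t y * t z)) := by ring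
    _ ≤ 24 * n / δ ^ 4 * c r b * (24 * n / δ ^ 4 * c y z) :=
        mul_le_mul (lo _ _ rb) (lo _ _ yz) (p _ _) ((p _ _).trans (lo _ _ rb))
    _ = _ := by field_simp; ring

end Vale.Agent.P308
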