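import Vale.Agent.P308.Orbit
import Vale.Agent.P308.Path
import Vale.Agent.P308.Tree
import Vale.Agent.P308.GapA
import Vale.Agent.P328.Box

/-! The Poincare inequality, by recursion on the blocks (job Gap). -/

namespace Vale.Agent.P308

open Finset P328

variable {V : Type} [Fintype V] [DecidableEq V] {c : V → V → ℝ}

/-- the energy of the moves that change at most six values -/
noncomputable def nearE (c : V → V → ℝ) (B : Finset (V → V)) (f : (V → V) → ℝ) : ℝ :=
  ∑ X ∈ B, ∑ Y ∈ B, if (univ.filter fun v => X v ≠ Y v).card ≤ 6 then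
    min (W c X) (W c Y) * (f Y - f X) ^ 2 else 0

namespace GA

lemma term_nonneg (c : V → V → ℝ) (f : (V → V) → ℝ) (X Y : V → V) :
    0 ≤ if (univ.filter fun v => X v ≠ Y v).card ≤ 6 then
      min (W c X) (W c Y) * (f Y - f X) ^ 2 else 0 := by
  split_ifs
  exacts [mul_nonneg (le_min (W_nonneg _ _) (W_nonneg _ _)) (sq_nonneg _), le_rfl]

lemma nearE_nonneg (c : V → V → ℝ) (B : Finset (V → V)) (f : (V → V) → ℝ) : 0 ≤ nearE c B f :=
  sum_nonneg fun _ _ => sum_nonneg fun _ _ => term_nonneg c f _ _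

lemma var_le (hp : Pos c) (B : Finset (V → V)) (f : (V → V) → ℝ) {A : ℝ} (hA : 0 ≤ A)
    (h : ∑ x ∈ B, ∑ y ∈ B, W c x * W c y * (f x - f y) ^ 2 ≤ 2 * ((∑ x ∈ B, W c x) * A)) :
    var B (W c) f ≤ A := by
  rcases B.eq_empty_or_nonempty with rfl | hB
  · simpa [var] using hA
  have hZ : 0 < ∑ x ∈ B, W c x := sum_pos (fun x _ => W_pos hp x) hB
  rw [pair_sum] at h
  rw [var, sub_le_comm, le_div_iff₀ hZ]
  linarith

noncomputable def mean (c : V → V → ℝ) (B : Finset (V → V)) (f : (V → V) → ℝ) : ℝ :=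
  (∑ x ∈ B, W c x * f x) / ∑ x ∈ B, W c x

lemma blocks (hp : Pos c) {U U' : Finset V} (hU : U' ⊆ U) (X0 : V → V) (f : (V → V) → ℝ) {Γ : ℝ}
    (hΓ : 0 ≤ Γ) (h : ∀ X, var (Cl U' X) (W c) f ≤ Γ * nearE c (Cl U' X) f) :
    ∑ X ∈ Cl U X0, W c X * (f X - mean c (Cl U' X) f) ^ 2 ≤ Γ * nearE c (Cl U X0) f := by
  have hm : ∀ X ∈ Cl U X0, Cl U' X ∈ (Cl U X0).image (Cl U') := fun X hX => mem_image_of_mem _ hX
  rw [← sum_fiberwise_of_maps_to hm, nearE, ← sum_fiberwise_of_maps_to hm, mul_sum]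
  refine sum_le_sum fun B hB => ?_
  obtain ⟨X, hX, rfl⟩ := mem_image.1 hB
  have hs : Cl U' X ⊆ Cl U X0 := by rw [← fiber hU hX]; exact filter_subset _ _
  have hZ : 0 < ∑ x ∈ Cl U' X, W c x :=
    sum_pos (fun x _ => W_pos hp x) ⟨X, mem_Cl.2 ⟨(mem_Cl.1 hX).1, fun _ _ => rfl⟩⟩
  rw [sum_congr rfl fun Y hY => by rw [(mem_filter.1 hY).2], fiber hU hX, mean,
    dev_sum _ _ _ hZ.ne']
  refine (h X).trans (mul_le_mul_of_nonneg_left (sum_le_sum fun Y _ => ?_) hΓ)
  exact sum_le_sum_of_subset_of_nonneg hs fun _ _ _ => term_nonneg c f _ _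

end GA

open GA in
theorem gap_rec [Nonempty V] (hc : Ker c) (hp : Pos c) {K : ℝ} (hK : 1 ≤ K) (h : Centre c K)
    (d : ℕ) :
    ∀ (U : Finset V) (X0 : V → V) (f : (V → V) → ℝ), U.card ≤ 5 + 2 ^ d →
      var (Cl U X0) (W c) f ≤ (2 * (Fintype.card V : ℝ) ^ 14 * K) ^ d * nearE c (Cl U X0) f := by
  have n1 : (1 : ℝ) ≤ Fintype.card V := by exact_mod_cast Fintype.card_pos
  have A1 : 1 ≤ 2 * (Fintype.card V : ℝ) ^ 14 * K := by
    have := one_le_pow₀ (n := 14) n1
    nlinarith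
  induction d with
  | zero =>
    intro U X0 f hU
    rw [pow_zero, one_mul]
    refine var_le hp _ f (nearE_nonneg _ _ _) (le_trans ?_ (le_mul_of_one_le_left
      (mul_nonneg (sum_nonneg fun _ _ => W_nonneg _ _) (nearE_nonneg _ _ _)) one_le_two))
    rw [nearE, mul_sum]
    refine sum_le_sum fun X hX => ?_
    rw [mul_sum]
    refine sum_le_sum fun Y hY => ?_
    have h6 : (univ.filter fun v => X v ≠ Y v).card ≤ 6 :=
      (card_le_card fun v hv => mem_of_ne hX hY (mem_filter.1 hv).2).trans hU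
    rw [if_pos h6, ← mul_assoc, sub_sq_comm]
    refine mul_le_mul_of_nonneg_right ?_ (sq_nonneg _)
    have s := fun Z hZ => single_le_sum (f := W c) (fun x (_ : x ∈ Cl U X0) => W_nonneg c x)
      (a := Z) hZ
    rcases le_total (W c X) (W c Y) with e | e
    · rw [min_eq_left e, mul_comm]
      exact mul_le_mul_of_nonneg_right (s Y hY) (W_nonneg _ _)
    · rw [min_eq_right e]
      exact mul_le_mul_of_nonneg_right (s X hX) (W_nonneg _ _)
  | succ d ih =>
    intro U X0 f hU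
    have G0 : 0 ≤ (2 * (Fintype.card V : ℝ) ^ 14 * K) ^ d := by positivity
    have E0 := nearE_nonneg c (Cl U X0) f
    by_cases hs : U.card ≤ 5 + 2 ^ d
    · refine (ih U X0 f hs).trans (mul_le_mul_of_nonneg_right ?_ E0)
      exact pow_le_pow_right₀ A1 (Nat.le_succ d)
    obtain ⟨blk, b1, b2⟩ := h U (by omega)
    set UU : V × V × V × V → Finset V := fun j =>
      U.filter fun v => blk v = blk j.1 ∨ v = j.2.1 ∨ v = j.2.2.1 ∨ v = j.2.2.2 with hUU
    have cU : ∀ j, (UU j).card ≤ 5 + 2 ^ d := fun j => by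
      have h1 : UU j ⊆ (U.filter fun v => blk v = blk j.1) ∪ {j.2.1, j.2.2.1, j.2.2.2} := by
        intro v hv
        simp only [hUU, mem_filter, mem_union, mem_insert, mem_singleton] at hv ⊢
        tauto
      have h2 := (card_le_card h1).trans (card_union_le _ _)
      have h3 := card_le_three (a := j.2.1) (b := j.2.2.1) (c := j.2.2.2)
      have h4 := b1 j.1
      rw [pow_succ] at hU
      omega
    set r : (V → V) → ℝ := fun X => √(∑ j, (f X - mean c (Cl (UU j) X) f) ^ 2) with hr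
    have r1 : ∀ X j, |f X - mean c (Cl (UU j) X) f| ≤ r X := fun X j =>
      Real.abs_le_sqrt (single_le_sum (f := fun j => (f X - mean c (Cl (UU j) X) f) ^ 2)
        (fun _ _ => sq_nonneg _) (mem_univ j))
    have r2 : ∑ X ∈ Cl U X0, W c X * r X ^ 2 ≤ (Fintype.card V : ℝ) ^ 4 *
        ((2 * (Fintype.card V : ℝ) ^ 14 * K) ^ d * nearE c (Cl U X0) f) := by
      simp only [hr, Real.sq_sqrt (sum_nonneg fun _ _ => sq_nonneg _), mul_sum]
      rw [sum_comm]
      refine (sum_le_sum fun j _ => blocks hp (filter_subset _ _) X0 f G0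
        fun X => ih _ X f (cU j)).trans (le_of_eq ?_)
      simp only [sum_const, card_univ, Fintype.card_prod, nsmul_eq_mul]
      push_cast
      ring
    have p := path hc hp hK b2 U X0 f r (fun _ => Real.sqrt_nonneg _) fun X hX Y hY u p q t ha => by
      have e : Cl (UU (u, p, q, t)) X = Cl (UU (u, p, q, t)) Y := Cl_eq fun v hv => by
        by_contra hn
        refine hv (mem_filter.2 ⟨mem_of_ne hX hY hn, ?_⟩)
        by_contra h2
        simp only [not_or] at h2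
        exact hn (ha v h2.1 h2.2.1 h2.2.2.1 h2.2.2.2)
      have h1 := r1 X (u, p, q, t)
      have h2 := r1 Y (u, p, q, t)
      rw [e] at h1
      rw [abs_sub_comm] at h2
      exact (abs_sub_le _ _ _).trans (add_le_add h1 h2)
    refine var_le hp _ f (by positivity) ((tele c U X0 f).trans ?_)
    have Z0 : 0 ≤ ∑ X ∈ Cl U X0, W c X := sum_nonneg fun _ _ => W_nonneg _ _
    refine (mul_le_mul_of_nonneg_left (sum_le_sum fun k _ => (p k).trans
      (mul_le_mul_of_nonneg_left r2 (by positivity))) (by positivity)).trans (le_of_eq ?_)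
    simp only [sum_const, card_univ, nsmul_eq_mul]
    ring

lemma qm_nonneg (X Y : V → V) : 0 ≤ qm X Y := by
  unfold qm; positivity

lemma qm_symm (X Y : V → V) : qm X Y = qm Y X := by
  unfold qm
  congr 2
  refine card_nbij' (fun t => (t.2.2.1, t.2.2.2, t.1, t.2.1)) (fun t => (t.2.2.1, t.2.2.2, t.1, t.2.1))
    (fun t ht => ?_) (fun t ht => ?_) (fun _ _ => rfl) fun _ _ => rfl
  all_goals
    simp only [coe_filter, mem_univ, true_and, Set.mem_ofPred_eq] at ht ⊢
    rw [← ht, cj_cj, cj_cj]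

lemma qm_mul {X : V → V} (hX : X ∈ PMon univ) (g : (V → V) → ℝ) :
    ∑ Y ∈ PMon univ, qm X Y * g Y =
      (∑ p, ∑ q, ∑ r, ∑ s, g (cj p q (cj r s X))) / (Fintype.card V : ℝ) ^ 4 := by
  have h := sum_fiberwise_of_maps_to (s := univ) (t := PMon univ)
    (g := fun t : V × V × V × V => cj t.1 t.2.1 (cj t.2.2.1 t.2.2.2 X))
    (fun t _ => cj_mem (cj_mem hX _ _) _ _) fun t => g (cj t.1 t.2.1 (cj t.2.2.1 t.2.2.2 X))
  simp only [Fintype.sum_prod_type] at h
  rw [← h, sum_div]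
  refine sum_congr rfl fun Y _ => ?_
  rw [sum_congr rfl fun t ht => by rw [(mem_filter.1 ht).2], sum_const, nsmul_eq_mul, qm]
  ring

lemma qm_sum [Nonempty V] {X : V → V} (hX : X ∈ PMon univ) : ∑ Y ∈ PMon univ, qm X Y = 1 := by
  have h := qm_mul hX fun _ => 1
  have n0 : (Fintype.card V : ℝ) ≠ 0 := by exact_mod_cast Fintype.card_ne_zero
  simp only [mul_one, sum_const, card_univ, nsmul_eq_mul] at h
  rw [h]
  field_simp

lemma nearE_le (c : V → V → ℝ) (f : (V → V) → ℝ) :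
    nearE c (PMon univ) f ≤ (Fintype.card V : ℝ) ^ 4 *
      ∑ X ∈ PMon univ, ∑ Y ∈ PMon univ, qm X Y * (min (W c X) (W c Y) * (f Y - f X) ^ 2) := by
  rw [nearE, mul_sum]
  refine sum_le_sum fun X hX => ?_
  rw [mul_sum]
  refine sum_le_sum fun Y hY => ?_
  have t0 := mul_nonneg (le_min (W_nonneg c X) (W_nonneg c Y)) (sq_nonneg (f Y - f X))
  have q0 := qm_nonneg X Y
  split_ifs with h
  · by_cases e : X = Y
    · simp [e]
    obtain ⟨u, -⟩ := Function.ne_iff.1 e
    have : Nonempty V := ⟨u⟩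
    obtain ⟨p, q, r, s, h1⟩ := GA.two hX hY h
    have n0 : (Fintype.card V : ℝ) ≠ 0 := by exact_mod_cast Fintype.card_ne_zero
    rw [← mul_assoc, qm, mul_div_cancel₀ _ (pow_ne_zero 4 n0)]
    refine le_mul_of_one_le_left t0 ?_
    exact_mod_cast card_pos.2 ⟨(p, q, r, s), mem_filter.2 ⟨mem_univ _, h1⟩⟩
  · positivity

theorem gap (hc : Ker c) (hp : Pos c) (he : Even (Fintype.card V)) (h2 : 2 ≤ Fintype.card V)
    (hm : Marg c (del V / 2)) (f : (V → V) → ℝ) :
    var (PMon univ) (W c) f ≤ CC (Fintype.card V) *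
      ∑ X ∈ PMon univ, ∑ Y ∈ PMon univ, qm X Y * (min (W c X) (W c Y) * (f Y - f X) ^ 2) := by
  have : Nonempty V := Fintype.card_pos_iff.1 (by omega)
  have n2 : (2 : ℝ) ≤ Fintype.card V := by exact_mod_cast h2
  have hlt := Nat.lt_pow_succ_log_self one_lt_two (Fintype.card V)
  set n : ℝ := (Fintype.card V : ℝ) with hn
  have n1 : 1 ≤ n := by linarith
  have d1 : del V / 2 ≤ 1 := by
    rw [del, ← hn, div_div, div_le_one (by positivity)]; nlinarith
  have hC := centre hc hp he (by unfold del; positivity) d1 hm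
  have e : 576 * n ^ 2 / (del V / 2) ^ 8 = 576 * 20 ^ 8 * n ^ 18 := by
    rw [del, ← hn]; field_simp; ring
  rw [← hn, e] at hC
  have K1 : 1 ≤ 576 * 20 ^ 8 * n ^ 18 := by
    have := one_le_pow₀ (n := 18) n1
    linarith
  have h := gap_rec hc hp K1 hC (Nat.log 2 (Fintype.card V) + 1) univ id f
    (by rw [card_univ]; omega)
  have e2 : Cl univ (id : V → V) = PMon univ := by ext X; simp [mem_Cl]
  rw [e2, ← hn] at h
  refine h.trans ((mul_le_mul_of_nonneg_left (nearE_le c f) (by positivity)).trans ?_)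
  rw [← mul_assoc, ← hn]
  refine mul_le_mul_of_nonneg_right ?_ (sum_nonneg fun X _ => sum_nonneg fun Y _ => mul_nonneg
    (qm_nonneg _ _) (mul_nonneg (le_min (W_nonneg _ _) (W_nonneg _ _)) (sq_nonneg _)))
  rw [CC, Nat.cast_pow, ← hn, pow_mul]
  have h3 : n ^ 4 ≤ (n ^ 4) ^ (Nat.log 2 (Fintype.card V) + 1) :=
    le_self_pow₀ (one_le_pow₀ n1) (Nat.succ_ne_zero _)
  refine (mul_le_mul_of_nonneg_left h3 (by positivity)).trans ?_
  rw [← mul_pow]
  refine pow_le_pow_left₀ (by positivity) ?_ _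
  have h4 : (2 : ℝ) ^ 54 ≤ n ^ 54 := pow_le_pow_left₀ (by norm_num) n2 _
  have h5 := mul_le_mul_of_nonneg_right h4 (show 0 ≤ n ^ 36 by positivity)
  have h6 : 0 ≤ n ^ 36 := by positivity
  calc 2 * n ^ 14 * (576 * 20 ^ 8 * n ^ 18) * n ^ 4 = 1152 * 20 ^ 8 * n ^ 36 := by ring
    _ ≤ 2 ^ 54 * n ^ 36 := mul_le_mul_of_nonneg_right (by norm_num) h6
    _ ≤ _ := h5.trans_eq (by ring)

end Vale.Agent.P308
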