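import Vale.Agent.P308.Arc
import Vale.Agent.P308.Tree

/-! The laminar structure exists (job Lam). -/

namespace Vale.Agent.P308

open Finset

variable {V : Type} [Fintype V] [DecidableEq V] {c : V → V → ℝ}

namespace LamX

open TA

variable {D : V → V → ℝ} {k : ℝ}

omit [Fintype V] [DecidableEq V] in
lemma reach_mono {hs : ∀ a b, D a b = D b a} {s t : ℝ} (h : s ≤ t) {a b : V}
    (r : (gr D hs s).Reachable a b) : (gr D hs t).Reachable a b :=
  r.mono (show gr D hs s ≤ gr D hs t from fun _ _ e => ⟨e.1, e.2.trans h⟩)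

lemma self_cp {hs : ∀ a b, D a b = D b a} (s : ℝ) (v : V) : v ∈ cp D hs s v :=
  mem_cp.2 (SimpleGraph.Reachable.refl _)

lemma cp_eq {hs : ∀ a b, D a b = D b a} {s : ℝ} {a b : V} (r : (gr D hs s).Reachable a b) :
    cp D hs s a = cp D hs s b :=
  Finset.ext fun v => by
    simp only [mem_cp]; exact ⟨fun h => r.symm.trans h, fun h => r.trans h⟩

/-- the data attached to a vertex set -/
structure Lev (D : V → V → ℝ) (hs : ∀ a b, D a b = D b a) (P : Finset V) (s s' : ℝ) (o : V)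
    (w : V → V) : Prop where
  s0 : 0 < s
  val : ∃ a b, s = D a b
  sub : P ⊆ cp D hs s o
  min : ∀ a b u, P ⊆ cp D hs (D a b) u → s ≤ D a b
  val' : ∃ a b, s' = D a b
  lt : s' < s
  max : ∀ a b, D a b < s → D a b ≤ s'
  hw : ∀ v, w v ∈ cp D hs s o
  hw' : ∀ v, ∀ x ∈ cp D hs s o, D v (w v) ≤ D v x

lemma exists_lev (hs : ∀ a b, D a b = D b a) (h0 : ∀ a, D a a = 0)
    (hp : ∀ a b, a ≠ b → 0 < D a b) (P : Finset V) (hP : 2 ≤ P.card) :
    ∃ s s' o w, Lev D hs P s s' o w := by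
  classical
  obtain ⟨u0, hu0⟩ : P.Nonempty := card_pos.1 (by omega)
  obtain ⟨m, -, hm'⟩ := exists_max_image (univ : Finset (V × V)) (fun z => D z.1 z.2)
    ⟨(u0, u0), mem_univ _⟩
  have Pm : P ⊆ cp D hs (D m.1 m.2) u0 := fun v _ => mem_cp.2 (by
    by_cases e : u0 = v
    · exact e ▸ SimpleGraph.Reachable.refl _
    · exact SimpleGraph.Adj.reachable ⟨e, hm' (u0, v) (mem_univ _)⟩)
  obtain ⟨z, hz, hmin⟩ := exists_min_image
    (univ.filter fun z : V × V => ∃ u, P ⊆ cp D hs (D z.1 z.2) u) (fun z => D z.1 z.2)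
    ⟨m, mem_filter.2 ⟨mem_univ _, u0, Pm⟩⟩
  obtain ⟨-, o, ho⟩ := mem_filter.1 hz
  have s0 : 0 < D z.1 z.2 := by
    by_contra hn
    have : P ⊆ {o} := by
      intro v hv
      obtain ⟨p⟩ := mem_cp.1 (ho hv)
      cases p with
      | nil => exact mem_singleton_self _
      | cons h _ => exact absurd ((hp _ _ h.1).trans_le h.2) hn
    have := card_le_card this
    rw [card_singleton] at this
    omega
  obtain ⟨y, hy, hmax⟩ := exists_max_image
    (univ.filter fun y : V × V => D y.1 y.2 < D z.1 z.2) (fun y => D y.1 y.2)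
    ⟨(u0, u0), mem_filter.2 ⟨mem_univ _, by rw [h0]; exact s0⟩⟩
  choose w hw hw' using fun v => exists_min_image (cp D hs (D z.1 z.2) o) (D v) ⟨o, self_cp _ o⟩
  exact ⟨_, D y.1 y.2, o, w, s0, ⟨_, _, rfl⟩, ho,
    fun a b u h => hmin (a, b) (mem_filter.2 ⟨mem_univ _, u, h⟩), ⟨_, _, rfl⟩,
    (mem_filter.1 hy).2, fun a b h => hmax (a, b) (mem_filter.2 ⟨mem_univ _, h⟩), hw, hw'⟩

variable {hs : ∀ a b, D a b = D b a} {P P' : Finset V} {s s' t t' : ℝ} {o o' : V} {w w' : V → V}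

noncomputable def bl (D : V → V → ℝ) (hs : ∀ a b, D a b = D b a) (s s' : ℝ) (o v : V) :
    Finset V := if v ∈ cp D hs s o then cp D hs s' v else ∅

noncomputable def ta (D : V → V → ℝ) (hs : ∀ a b, D a b = D b a) (s : ℝ) (o : V) (w : V → V)
    (v : V) : ℝ := if v ∈ cp D hs s o then 1 / √s else √s / D v (w v)

lemma Lev.far (h : Lev D hs P s s' o w) {v : V} (hv : v ∉ cp D hs s o) : s < D v (w v) := by
  by_contra hn
  refine hv (mem_cp.2 ((mem_cp.1 (h.hw v)).trans (SimpleGraph.Adj.reachable ⟨?_, ?_⟩)))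
  · exact fun e => hv (e ▸ h.hw v)
  · rw [hs]; exact not_lt.1 hn

lemma Lev.inn (h : Lev D hs P s s' o w) (hk : 1 ≤ k) (h0 : ∀ a, D a a = 0)
    (ht : ∀ a b x, D a b ≤ D a x + k * D x b) {a b : V} (ha : a ∈ cp D hs s o)
    (hb : b ∈ cp D hs s o) : D a b ≤ k * Fintype.card V * s :=
  chain hs hk h0 ht h.s0.le ((mem_cp.1 ha).symm.trans (mem_cp.1 hb))

lemma Lev.out (h : Lev D hs P s s' o w) (hk : 1 ≤ k) (h0 : ∀ a, D a a = 0)
    (ht : ∀ a b x, D a b ≤ D a x + k * D x b) {a b : V} (ha : a ∉ cp D hs s o)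
    (hb : b ∈ cp D hs s o) : D a b ≤ 2 * k ^ 2 * Fintype.card V * D a (w a) := by
  have n1 : (1 : ℝ) ≤ Fintype.card V := by exact_mod_cast Fintype.card_pos_iff.2 ⟨o⟩
  have kn : 1 ≤ k ^ 2 * Fintype.card V := one_le_mul_of_one_le_of_one_le (one_le_pow₀ hk) n1
  have h1 := ht a b (w a)
  have h2 := mul_le_mul_of_nonneg_left (h.inn hk h0 ht (h.hw a) hb) (by linarith : 0 ≤ k)
  have h3 := h.far ha
  have h4 := h.s0
  nlinarith [mul_le_mul_of_nonneg_left h3.le (by linarith : 0 ≤ k ^ 2 * Fintype.card V)]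

lemma Lev.pos (h : Lev D hs P s s' o w) (v : V) : 0 < ta D hs s o w v := by
  have r0 : 0 < √s := Real.sqrt_pos.2 h.s0
  unfold ta
  split_ifs with hv
  exacts [by positivity, div_pos r0 (h.s0.trans (h.far hv))]

lemma Lev.tin (h : Lev D hs P s s' o w) {a b : V} (ha : a ∈ cp D hs s o) (hb : b ∈ cp D hs s o) :
    ta D hs s o w a * ta D hs s o w b = 1 / s := by
  rw [ta, ta, if_pos ha, if_pos hb, div_mul_div_comm, Real.mul_self_sqrt h.s0.le, one_mul]

lemma Lev.tout (h : Lev D hs P s s' o w) {a b : V} (ha : a ∈ cp D hs s o) (hb : b ∉ cp D hs s o) :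
    ta D hs s o w a * ta D hs s o w b = 1 / D b (w b) := by
  have r0 : 0 < √s := Real.sqrt_pos.2 h.s0
  rw [ta, ta, if_pos ha, if_neg hb]
  field_simp

lemma Lev.upper (h : Lev D hs P s s' o w) (hk : 1 ≤ k) (h0 : ∀ a, D a a = 0)
    (ht : ∀ a b x, D a b ≤ D a x + k * D x b) (a b : V) :
    D a b * (ta D hs s o w a * ta D hs s o w b) ≤ 3 * k ^ 3 * Fintype.card V := by
  have n1 : (1 : ℝ) ≤ Fintype.card V := by exact_mod_cast Fintype.card_pos_iff.2 ⟨o⟩
  have inn := fun a b => h.inn hk h0 ht (a := a) (b := b)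
  have out := fun a b => h.out hk h0 ht (a := a) (b := b)
  have s0 := h.s0
  set n : ℝ := (Fintype.card V : ℝ)
  have kn : 1 ≤ k ^ 2 * n := one_le_mul_of_one_le_of_one_le (one_le_pow₀ hk) n1
  have k3 : k * n ≤ k ^ 3 * n := by
    gcongr; exact le_self_pow₀ hk (by norm_num)
  have k2 : k ^ 2 * n ≤ k ^ 3 * n := by gcongr; norm_num
  by_cases ha : a ∈ cp D hs s o <;> by_cases hb : b ∈ cp D hs s o
  · rw [h.tin ha hb, mul_one_div, div_le_iff₀ s0]
    nlinarith [inn a b ha hb]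
  · rw [h.tout ha hb, mul_one_div, div_le_iff₀ (s0.trans (h.far hb)), hs]
    nlinarith [out b a hb ha, h.far hb]
  · rw [mul_comm (ta D hs s o w a), h.tout hb ha, mul_one_div, div_le_iff₀ (s0.trans (h.far ha))]
    nlinarith [out a b ha hb, h.far ha]
  · have fa := h.far ha
    have fb := h.far hb
    have h1 := ht a b (w a)
    have h2 := mul_le_mul_of_nonneg_left (out b _ hb (h.hw a)) (by linarith : 0 ≤ k)
    rw [hs (w a) b] at h1
    rw [ta, ta, if_neg ha, if_neg hb, div_mul_div_comm, Real.mul_self_sqrt s0.le,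
      ← mul_div_assoc, div_le_iff₀ (mul_pos (s0.trans fa) (s0.trans fb))]
    have h3 := mul_le_mul_of_nonneg_right (h1.trans (add_le_add le_rfl h2)) s0.le
    have h4 := mul_le_mul_of_nonneg_left fb.le (s0.trans fa).le
    have h5 := mul_le_mul_of_nonneg_left fa.le
      (show 0 ≤ 2 * (k ^ 3 * n) * D b (w b) by have := s0.trans fb; positivity)
    have h6 := mul_le_mul_of_nonneg_right (kn.trans k2)
      (mul_pos (s0.trans fa) (s0.trans fb)).le
    nlinarith

lemma Lev.lower (h : Lev D hs P s s' o w) (a b : V) (hab : bl D hs s s' o a ≠ bl D hs s s' o b) :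
    1 ≤ D a b * (ta D hs s o w a * ta D hs s o w b) := by
  have s0 := h.s0
  by_cases ha : a ∈ cp D hs s o <;> by_cases hb : b ∈ cp D hs s o
  · rw [h.tin ha hb, mul_one_div, one_le_div s0]
    by_contra hn
    have e : a ≠ b := fun e => hab (e ▸ rfl)
    rw [bl, bl, if_pos ha, if_pos hb] at hab
    exact hab (cp_eq (SimpleGraph.Adj.reachable ⟨e, h.max _ _ (not_le.1 hn)⟩))
  · rw [h.tout ha hb, mul_one_div, one_le_div (s0.trans (h.far hb)), hs a b]
    exact h.hw' b a ha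
  · rw [mul_comm (ta D hs s o w a), h.tout hb ha, mul_one_div, one_le_div (s0.trans (h.far ha))]
    exact h.hw' a b hb
  · rw [bl, bl, if_neg ha, if_neg hb] at hab
    exact absurd rfl hab

lemma Lev.two (h : Lev D hs P s s' o w) (hP : 2 ≤ P.card) :
    ∃ a ∈ P, ∃ b ∈ P, bl D hs s s' o a ≠ bl D hs s s' o b := by
  obtain ⟨a, ha⟩ : P.Nonempty := card_pos.1 (by omega)
  by_contra hn
  push Not at hn
  obtain ⟨x, y, e⟩ := h.val'
  have : P ⊆ cp D hs (D x y) a := fun b hb => by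
    have := hn a ha b hb
    rw [bl, bl, if_pos (h.sub ha), if_pos (h.sub hb)] at this
    rw [← e, this]
    exact self_cp _ _
  exact absurd (h.min x y a this) (not_le.2 (e ▸ h.lt))

lemma Lev.le (h : Lev D hs P s s' o w) (h' : Lev D hs P' t t' o' w') (hP : P' ⊆ P) : t ≤ s := by
  obtain ⟨x, y, e⟩ := h.val
  rw [e]
  exact h'.min x y o (e ▸ hP.trans h.sub)

lemma Lev.le' (h : Lev D hs P s s' o w) (h' : Lev D hs P' t t' o' w') (hP : P' ⊆ P) :
    t' ≤ s' := by
  obtain ⟨x, y, e⟩ := h'.val'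
  rw [e]
  exact h.max x y (e ▸ h'.lt.trans_le (h.le h' hP))

lemma Lev.csub (h : Lev D hs P s s' o w) (h' : Lev D hs P' t t' o' w') (hP : P' ⊆ P) {a : V}
    (ha : a ∈ P') {v : V} (hv : v ∈ cp D hs t o') : v ∈ cp D hs s o :=
  mem_cp.2 ((mem_cp.1 (h.sub (hP ha))).trans
    (reach_mono (h.le h' hP) ((mem_cp.1 (h'.sub ha)).symm.trans (mem_cp.1 hv))))

lemma Lev.mono (h : Lev D hs P s s' o w) (h' : Lev D hs P' t t' o' w') (hP : P' ⊆ P) {a : V}
    (ha : a ∈ P') (v : V) (hn : bl D hs s s' o a ≠ bl D hs s s' o v) :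
    bl D hs t t' o' a ≠ bl D hs t t' o' v := by
  intro e
  rw [bl, bl, if_pos (h'.sub ha)] at e
  by_cases hv : v ∈ cp D hs t o'
  · rw [if_pos hv] at e
    have r : (gr D hs t').Reachable a v := mem_cp.1 (e ▸ self_cp t' v)
    refine hn ?_
    rw [bl, bl, if_pos (h.sub (hP ha)), if_pos (h.csub h' hP ha hv)]
    exact cp_eq (reach_mono (h.le' h' hP) r)
  · rw [if_neg hv] at e
    exact notMem_empty a (e ▸ self_cp t' a)

lemma Lev.cmp (h : Lev D hs P s s' o w) (h' : Lev D hs P' t t' o' w') (hP : P' ⊆ P)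
    (hk : 1 ≤ k) (h0 : ∀ a, D a a = 0) (ht : ∀ a b x, D a b ≤ D a x + k * D x b) {a : V}
    (ha : a ∈ P') (v : V) : ta D hs s o w a * ta D hs s o w v ≤
      3 * k ^ 3 * Fintype.card V * (ta D hs t o' w' a * ta D hs t o' w' v) := by
  have n1 : (1 : ℝ) ≤ Fintype.card V := by exact_mod_cast Fintype.card_pos_iff.2 ⟨o⟩
  have inn := fun a b => h.inn hk h0 ht (a := a) (b := b)
  have out := fun a b => h.out hk h0 ht (a := a) (b := b)
  have s0 := h.s0
  have t0 := h'.s0
  set n : ℝ := (Fintype.card V : ℝ)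
  have kn : 1 ≤ k ^ 2 * n := one_le_mul_of_one_le_of_one_le (one_le_pow₀ hk) n1
  have k3 : k * n ≤ k ^ 3 * n := by
    gcongr; exact le_self_pow₀ hk (by norm_num)
  have k2 : k ^ 2 * n ≤ k ^ 3 * n := by gcongr; norm_num
  have a1 := h.sub (hP ha)
  have a2 := h'.sub ha
  by_cases v2 : v ∈ cp D hs t o'
  · rw [h.tin a1 (h.csub h' hP ha v2), h'.tin a2 v2, mul_one_div, div_le_div_iff₀ s0 t0]
    nlinarith [h.le h' hP]
  have f2 := t0.trans (h'.far v2)
  have g2 := h'.hw' v a a2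
  rw [h'.tout a2 v2, mul_one_div]
  by_cases v1 : v ∈ cp D hs s o
  · rw [h.tin a1 v1, div_le_div_iff₀ s0 f2]
    nlinarith [inn v a v1 a1]
  · have f1 := s0.trans (h.far v1)
    rw [h.tout a1 v1, div_le_div_iff₀ f1 f2]
    nlinarith [out v a v1 a1]

end LamX

/-- canonical blocks and gauges for a quasi-ultrametric -/
theorem lam_abs (D : V → V → ℝ) {k : ℝ} (hk : 1 ≤ k) (hs : ∀ a b, D a b = D b a)
    (h0 : ∀ a, D a a = 0) (hp : ∀ a b, a ≠ b → 0 < D a b)
    (ht : ∀ a b x, D a b ≤ D a x + k * D x b) (h2 : 2 ≤ Fintype.card V) :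
    ∃ (blk : Finset V → V → Finset V) (τ : Finset V → V → ℝ), (∀ P v, 0 < τ P v) ∧
      (∀ P a b, D a b * (τ P a * τ P b) ≤ 3 * k ^ 3 * Fintype.card V) ∧
      (∀ P a b, blk P a ≠ blk P b → 1 ≤ D a b * (τ P a * τ P b)) ∧
      (∀ P : Finset V, 2 ≤ P.card → ∃ a ∈ P, ∃ b ∈ P, blk P a ≠ blk P b) ∧
      (∀ P P' : Finset V, P' ⊆ P → 2 ≤ P'.card → ∀ a ∈ P', ∀ v, blk P a ≠ blk P v →
        blk P' a ≠ blk P' v) ∧
      ∀ P P' : Finset V, P' ⊆ P → 2 ≤ P'.card → ∀ a ∈ P', ∀ v,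
        τ P a * τ P v ≤ 3 * k ^ 3 * Fintype.card V * (τ P' a * τ P' v) := by
  have hex : ∀ P : Finset V, ∃ s s' o w, ∃ Q, LamX.Lev D hs Q s s' o w ∧ (2 ≤ P.card → Q = P) := by
    intro P
    by_cases hP : 2 ≤ P.card
    · obtain ⟨s, s', o, w, h⟩ := LamX.exists_lev hs h0 hp P hP
      exact ⟨s, s', o, w, P, h, fun _ => rfl⟩
    · obtain ⟨s, s', o, w, h⟩ := LamX.exists_lev hs h0 hp univ h2
      exact ⟨s, s', o, w, univ, h, fun e => absurd e hP⟩
  choose s s' o w Q hL hQ using hex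
  have hL' : ∀ P : Finset V, 2 ≤ P.card → LamX.Lev D hs P (s P) (s' P) (o P) (w P) :=
    fun P hP => by have := hL P; rwa [hQ P hP] at this
  exact ⟨fun P => LamX.bl D hs (s P) (s' P) (o P), fun P => LamX.ta D hs (s P) (o P) (w P),
    fun P v => (hL P).pos v, fun P a b => (hL P).upper hk h0 ht a b,
    fun P a b h => (hL P).lower a b h, fun P hP => (hL' P hP).two hP,
    fun P P' hP h' a ha v h => (hL' P (h'.trans (card_le_card hP))).mono (hL' P' h') hP ha v h,
    fun P P' hP h' a ha v =>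
      (hL' P (h'.trans (card_le_card hP))).cmp (hL' P' h') hP hk h0 ht ha v⟩

theorem exists_lam (hc : Ker c) (hp : Pos c) (he : Even (Fintype.card V))
    (h2 : 2 ≤ Fintype.card V) {δ : ℝ} (hδ : 0 < δ) (hδ1 : δ ≤ 1) (hm : Marg c δ) :
    ∃ blk τ h, Lam c (24 * Fintype.card V / δ ^ 4) blk τ h := by
  obtain ⟨o⟩ : Nonempty V := Fintype.card_pos_iff.1 (by omega)
  have Z0 : 0 < H c univ := H_pos hc hp (by rwa [card_univ])
  have Q0 : ∀ a b, a ≠ b → 0 < Q c a b := fun a b h =>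
    (mul_pos_iff_of_pos_left (hp a b h)).1 ((mul_pos hδ Z0).trans_le (hm a b h))
  have QZ : ∀ a b, a ≠ b → c a b * Q c a b ≤ H c univ := fun a b h => by
    rw [H_rec hc (mem_univ a)]
    exact single_le_sum (f := fun w => c a w * H c ((univ.erase a).erase w))
      (fun w _ => mul_nonneg (hc.nonneg _ _) (H_nonneg _ _)) (mem_erase.2 ⟨h.symm, mem_univ b⟩)
  set E : V → V → ℝ := fun a b => Q c a b / (Q c a o * Q c b o) with hE
  have E0 : ∀ a b, 0 ≤ E a b := fun a b =>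
    div_nonneg (Q_nonneg _ _ _) (mul_nonneg (Q_nonneg _ _ _) (Q_nonneg _ _ _))
  set Om : ℝ := 1 + ∑ z : V × V, E z.1 z.2 with hO
  have EO : ∀ a b, E a b ≤ Om := fun a b => by
    have := single_le_sum (f := fun z : V × V => E z.1 z.2) (fun z _ => E0 _ _) (mem_univ (a, b))
    linarith
  have O0 : 0 < Om := by have := sum_nonneg fun (z : V × V) (_ : z ∈ univ) => E0 z.1 z.2; linarith
  set D : V → V → ℝ := fun a b => if a = b then 0 else if a = o ∨ b = o then Om else E a b with hD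
  set g : V → ℝ := fun a => if a = o then 1 / Om else Q c a o with hg
  have g0 : ∀ a, 0 < g a := fun a => by
    simp only [hg]; split_ifs with h
    exacts [by positivity, Q0 _ _ h]
  have QD : ∀ a b, a ≠ b → Q c a b = g a * g b * D a b := fun a b h => by
    simp only [hD, hg, hE, if_neg h]
    by_cases ha : a = o
    · rw [if_pos ha, if_neg (ha ▸ h.symm), if_pos (Or.inl ha), ha, Q_symm]; field_simp
    by_cases hb : b = o
    · rw [if_neg ha, if_pos hb, if_pos (Or.inr hb), hb]; field_simp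
    · have := Q0 _ _ ha
      have := Q0 _ _ hb
      rw [if_neg ha, if_neg hb, if_neg (not_or.2 ⟨ha, hb⟩)]; field_simp
  have Dp : ∀ a b, a ≠ b → 0 < D a b := fun a b h =>
    (mul_pos_iff_of_pos_left (mul_pos (g0 a) (g0 b))).1 (QD a b h ▸ Q0 a b h)
  have D0 : ∀ a, D a a = 0 := fun a => if_pos rfl
  have Dn : ∀ a b, 0 ≤ D a b := fun a b => by
    by_cases h : a = b
    exacts [h ▸ (D0 a).ge, (Dp a b h).le]
  have DO : ∀ a b, D a b ≤ Om := fun a b => by
    simp only [hD]; split_ifs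
    exacts [O0.le, le_rfl, EO a b]
  have Ds : ∀ a b, D a b = D b a := fun a b => by
    simp only [hD, hE, eq_comm (a := a) (b := b), or_comm (a := a = o), Q_symm c a b,
      mul_comm (Q c a o)]
  have hk : 1 ≤ 1 + 1 / δ := le_add_of_nonneg_right (by positivity)
  set k := 1 + 1 / δ with hkd
  have ht : ∀ a b x, D a b ≤ D a x + k * D x b := by
    intro a b x
    have h1 := Dn a x
    have h2 : D x b ≤ k * D x b := le_mul_of_one_le_left (Dn x b) hk
    have h3 := Dn x b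
    by_cases ab : a = b
    · rw [ab, D0]; rw [ab] at h1; linarith
    by_cases ax : a = x
    · rw [ax, D0]; linarith
    by_cases xb : x = b
    · rw [xb, D0]; linarith
    by_cases ao : a = o
    · have : D a x = Om := by simp only [hD, if_neg ax, if_pos (Or.inl ao)]
      linarith [DO a b]
    by_cases bo : b = o
    · have : D x b = Om := by simp only [hD, if_neg xb, if_pos (Or.inr bo)]
      linarith [DO a b]
    by_cases xo : x = o
    · have : D a x = Om := by simp only [hD, if_neg ax, if_pos (Or.inr xo)]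
      linarith [DO a b]
    have h4 := four_point hc hδ hm ab ax ao (Ne.symm xb) bo xo
    have e : ∀ a, a ≠ o → Q c a o = g a := fun a h => (if_neg h).symm
    rw [e a ao, e b bo, e x xo, QD a b ab, QD a x ax, QD b x (Ne.symm xb), Ds b x] at h4
    refine le_of_mul_le_mul_left ?_ (mul_pos (mul_pos (g0 a) (g0 b)) (g0 x))
    linarith
  obtain ⟨blk, τ, τ0, b2, b3, b4, b5, b6⟩ := lam_abs D hk Ds D0 Dp ht h2
  have n1 : (1 : ℝ) ≤ Fintype.card V := by exact_mod_cast Fintype.card_pos_iff.2 ⟨o⟩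
  obtain ⟨t, htd⟩ : ∃ t : Finset V → V → ℝ, ∀ P a, t P a = √(H c univ) * (τ P a / g a) :=
    ⟨_, fun _ _ => rfl⟩
  have r0 : 0 < √(H c univ) := Real.sqrt_pos.2 Z0
  have t0 : ∀ P a, 0 < t P a := fun P a => by
    rw [htd]; exact mul_pos r0 (div_pos (τ0 P a) (g0 a))
  have tt : ∀ P a b, t P a * t P b = H c univ / (g a * g b) * (τ P a * τ P b) := fun P a b => by
    have := g0 a
    have := g0 b
    have rr := Real.mul_self_sqrt Z0.le
    rw [htd, htd]
    generalize √(H c univ) = r at rr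
    rw [← rr]
    field_simp
  have QT : ∀ P a b, a ≠ b → Q c a b * (t P a * t P b) = H c univ * (D a b * (τ P a * τ P b)) :=
    fun P a b h => by
      have := g0 a
      have := g0 b
      rw [QD a b h, tt]; field_simp
  have hmax : ∀ P : Finset V, ∃ x, Odd P.card → x ∉ P ∧ ∀ v, v ∉ P →
      t P v * H c (insert v P)ᶜ ≤ t P x * H c (insert x P)ᶜ := by
    intro P
    by_cases hodd : Odd P.card
    · have hne : (Pᶜ).Nonempty := by
        rw [← card_pos, card_compl]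
        have := card_le_univ P
        rw [Nat.odd_iff] at hodd
        rw [Nat.even_iff] at he
        omega
      obtain ⟨x, hx, hx'⟩ := exists_max_image Pᶜ (fun v => t P v * H c (insert v P)ᶜ) hne
      exact ⟨x, fun _ => ⟨mem_compl.1 hx, fun v hv => hx' v (mem_compl.2 hv)⟩⟩
    · exact ⟨o, fun e => absurd e hodd⟩
  choose h hh using hmax
  set n : ℝ := (Fintype.card V : ℝ)
  have n0 : 0 ≤ n := by linarith
  have k2 : k ≤ 2 / δ := by
    have : 1 ≤ 1 / δ := one_le_one_div hδ hδ1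
    rw [hkd, show 2 / δ = 1 / δ + 1 / δ by ring]; linarith
  have K0 : 3 * k ^ 3 * n ≤ 3 * (2 / δ) ^ 3 * n := by gcongr
  have K1 : δ * (24 * n / δ ^ 4) = 3 * (2 / δ) ^ 3 * n := by field_simp; ring
  have L0 : 0 ≤ 24 * n / δ ^ 4 := by positivity
  have K2 : 3 * k ^ 3 * n ≤ 24 * n / δ ^ 4 := by
    have := mul_le_mul_of_nonneg_right hδ1 L0
    linarith
  have K3 : 1 ≤ 3 * k ^ 3 * n := by
    have := one_le_mul_of_one_le_of_one_le (one_le_pow₀ (n := 3) hk) n1
    linarith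
  refine ⟨blk, t, h, K3.trans K2, t0, fun P a b e => ?_, fun P a b hb => ?_, b4, b5,
    fun P P' hP h' a ha v => ?_, fun P hP => (hh P hP).1, fun P hP => (hh P hP).2⟩
  · have h1 := mul_le_mul_of_nonneg_left ((b2 P a b).trans K0) (mul_nonneg (hc.nonneg a b) Z0.le)
    have h3 := mul_le_mul_of_nonneg_right (hm a b e) (mul_pos (t0 P a) (t0 P b)).le
    have h4 := QT P a b e
    refine le_of_mul_le_mul_left ?_ (mul_pos hδ Z0)
    calc δ * H c univ * (t P a * t P b) ≤ c a b * Q c a b * (t P a * t P b) := h3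
      _ = c a b * H c univ * (D a b * (τ P a * τ P b)) := by rw [mul_assoc, h4]; ring
      _ ≤ _ := h1
      _ = _ := by rw [← K1]; ring
  · have e : a ≠ b := fun e => hb (e ▸ rfl)
    have h1 := mul_le_mul_of_nonneg_left (b3 P a b hb) (mul_nonneg (hc.nonneg a b) Z0.le)
    have h3 := mul_le_mul_of_nonneg_right (QZ a b e) (mul_pos (t0 P a) (t0 P b)).le
    have h4 := QT P a b e
    refine le_of_mul_le_mul_left ?_ Z0
    calc H c univ * c a b = c a b * H c univ * 1 := by ring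
      _ ≤ _ := h1
      _ = c a b * Q c a b * (t P a * t P b) := by rw [mul_assoc (c a b) (Q c a b), h4]; ring
      _ ≤ _ := h3
  · have h1 := (b6 P P' hP h' a ha v).trans
      (mul_le_mul_of_nonneg_right K2 (mul_pos (τ0 P' a) (τ0 P' v)).le)
    have h3 := mul_le_mul_of_nonneg_left h1 (div_pos Z0 (mul_pos (g0 a) (g0 v))).le
    rw [tt, tt]
    linarith

end Vale.Agent.P308
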