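import Vale.Agent.P308.GU

/-! The local errors (job Loc). -/

namespace Vale.Agent.P308

open Finset

variable {V : Type} [Fintype V] [DecidableEq V] {c : V → V → ℝ} {L : ℝ}

lemma Eloc_nonneg (c : V → V → ℝ) (f : (V → V) → ℝ) : 0 ≤ Eloc c f :=
  sum_nonneg fun _ _ => sum_nonneg fun _ _ => sum_nonneg fun _ _ =>
    mul_nonneg (le_min (W_nonneg _ _) (W_nonneg _ _)) (sq_nonneg _)

namespace LocX

lemma sum_inj_le {α β : Type} [DecidableEq β] (s : Finset α) (t : Finset β) (F : α → ℝ) (g : β → ℝ)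
    (φ : α → β) (hg : ∀ b ∈ t, 0 ≤ g b) (hφ : ∀ a ∈ s, φ a ∈ t) (hi : Set.InjOn φ s)
    (hF : ∀ a ∈ s, F a ≤ g (φ a)) : ∑ a ∈ s, F a ≤ ∑ b ∈ t, g b := by
  refine (sum_le_sum hF).trans ?_
  rw [← sum_image (g := φ) (f := g) hi]
  refine sum_le_sum_of_subset_of_nonneg (fun b hb => ?_) fun b hb _ => hg b hb
  obtain ⟨a, ha, rfl⟩ := mem_image.1 hb
  exact hφ a ha

noncomputable def tl (c : V → V → ℝ) (f : (V → V) → ℝ) (X : V → V) : ℝ :=
  ∑ z : V × V, min (W c X) (W c (cj z.1 z.2 X)) * (f X - f (cj z.1 z.2 X)) ^ 2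

lemma tl_nonneg (c : V → V → ℝ) (f : (V → V) → ℝ) (X : V → V) : 0 ≤ tl c f X :=
  sum_nonneg fun _ _ => mul_nonneg (le_min (W_nonneg _ _) (W_nonneg _ _)) (sq_nonneg _)

lemma Eloc_eq (c : V → V → ℝ) (f : (V → V) → ℝ) : Eloc c f = ∑ X ∈ PMon univ, tl c f X := by
  unfold tl
  rw [sum_comm, Fintype.sum_prod_type, Eloc]

lemma fix_of {S : Finset V} {B : V → V} (hB : B ∈ PMon S) {v : V} (hv : v ∉ S) : B v = v := by
  by_contra e
  exact hv ((mem_PMon.1 hB v).2.1 e)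

lemma map_mem {S : Finset V} {B : V → V} (hB : B ∈ PMon S) {v : V} (hv : v ∈ S) : B v ∈ S := by
  refine (mem_PMon.1 hB _).2.1 ?_
  rw [(mem_PMon.1 hB v).1]
  exact ((mem_PMon.1 hB v).2.2 hv).symm

variable {h : Finset V → V} {o1 o2 : Ob V} {a b : Bool}

lemma mem_Exs {B : V → V} :
    B ∈ Exs h o1 o2 a b ↔ B ∈ PMon (SU h o1 o2) ∧ Sub (o1.A a) B ∧ Sub (o2.A b) B := by
  simp only [Exs, mem_filter]

/-- the sum over the second closure -/
lemma step1 (h2 : Two o1 o2) (hh : ∀ P : Finset V, OK P (h P)) (c : V → V → ℝ) (f : (V → V) → ℝ)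
    {B C : V → V} (hB : B ∈ Exs h o1 o2 a b) (hC : C ∈ PMon (SU h o1 o2)ᶜ) :
    ∑ B' ∈ Exs h o1 o2 a b, min (W c (B ∘ C)) (W c (B' ∘ C)) * (f (B ∘ C) - f (B' ∘ C)) ^ 2 ≤
      tl c f (B ∘ C) := by
  have : Nonempty V := ⟨o1.s⟩
  have key : ∀ B' ∈ Exs h o1 o2 a b, ∃ z : V × V, cj z.1 z.2 (B ∘ C) = B' ∘ C := fun B' hB' => by
    obtain ⟨m, s⟩ := mem_Exs.1 hB
    obtain ⟨m', s'⟩ := mem_Exs.1 hB'
    obtain ⟨p, q, e⟩ := one_cj (comp_mem_univ m hC) (comp_mem_univ m' hC)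
      (le_trans (card_le_card fun v hv => by
        have hv := (mem_filter.1 hv).2
        by_cases h1 : v ∈ SU h o1 o2
        · refine mem_filter.2 ⟨h1, ?_⟩
          by_contra h3
          rw [Function.comp_apply, Function.comp_apply, fix_of hC (by simpa using h1),
            (h2.sub_iff a b).2 s v h3, (h2.sub_iff a b).2 s' v h3] at hv
          exact hv rfl
        · have h3 : C v ∉ SU h o1 o2 := by simpa using map_mem hC (mem_compl.2 h1)
          rw [Function.comp_apply, Function.comp_apply, fix_of m h3, fix_of m' h3] at hv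
          exact absurd rfl hv) (h2.fix_four hh a b))
    exact ⟨(p, q), e⟩
  choose! φ hφ using key
  refine sum_inj_le _ univ _ _ φ (fun _ _ => mul_nonneg (le_min (W_nonneg _ _) (W_nonneg _ _))
    (sq_nonneg _)) (fun _ _ => mem_univ _) (fun x hx y hy e => ?_) fun B' hB' => by rw [hφ B' hB']
  have e2 := hφ x hx
  rw [e, hφ y hy] at e2
  exact (comp_inj (mem_Exs.1 hx).1 (mem_Exs.1 hy).1 hC hC disjoint_compl_right e2.symm).1

open Classical in
lemma step2 (g : (V → V) → ℝ) (hg : ∀ X, 0 ≤ g X) :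
    ∑ B ∈ Exs h o1 o2 a b, ∑ C ∈ PMon (SU h o1 o2)ᶜ, g (B ∘ C) ≤
      ∑ X ∈ PMon univ, if Sub (o1.A a) X ∧ Sub (o2.A b) X then g X else 0 := by
  rw [← sum_product' (f := fun B C => g (B ∘ C))]
  refine sum_inj_le _ _ _ _ (fun z => z.1 ∘ z.2) (fun X _ => ?_) (fun z hz => ?_)
    (fun x hx y hy e => ?_) fun z hz => ?_
  · split_ifs
    exacts [hg X, le_rfl]
  · exact comp_mem_univ (mem_Exs.1 (mem_product.1 hz).1).1 (mem_product.1 hz).2
  · have hx := mem_product.1 (mem_coe.1 hx)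
    have hy := mem_product.1 (mem_coe.1 hy)
    exact Prod.ext_iff.2 (comp_inj (mem_Exs.1 hx.1).1 (mem_Exs.1 hy.1).1 hx.2 hy.2
      disjoint_compl_right e)
  · obtain ⟨m, s1, s2⟩ := mem_Exs.1 (mem_product.1 hz).1
    have s := sub_comp_left m (mem_product.1 hz).2 disjoint_compl_right
    rw [if_pos ⟨s1.trans s, s2.trans s⟩]

open Classical in
lemma step3 (hc : Ker c) (hp : Pos c) (he : Even (Fintype.card V))
    {blk : Finset V → V → Finset V} {τ : Finset V → V → ℝ} (hl : Lam c L blk τ h)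
    (f : (V → V) → ℝ) (h2 : Two o1 o2) (a b : Bool) :
    Fl c blk o1 o2 * ∑ B ∈ Exs h o1 o2 a b, ∑ B' ∈ Exs h o1 o2 a b,
      (mu c f (SU h o1 o2) B - mu c f (SU h o1 o2) B') ^ 2 ≤
    (Fintype.card V * L) ^ 8 * L ^ 4 *
      ((∑ X ∈ PMon univ, if Sub (o1.A a) X ∧ Sub (o2.A b) X then tl c f X else 0) *
        ∑ Y ∈ PMon univ, if Sub (o1.A (!a)) Y ∧ Sub (o2.A (!b)) Y then W c Y else 0) := by
  have hh : ∀ P : Finset V, OK P (h P) := hl.out
  have L0 : 0 ≤ L := zero_le_one.trans hl.one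
  have HS := H_compl_pos hc hp he (S := SU h o1 o2) (SP_even (hh _))
  have gl : ∀ a b, ∀ B ∈ Exs h o1 o2 a b,
      ga c (τ (o1.P ∪ o2.P)) (SU h o1 o2) (o1.A a ∘ o2.A b) ≤ L ^ 2 * W c B := fun a b B hB =>
    ga_le hc hl.one (fun v => (hl.pos _ v).le) (hl.lo _) (h2.inv a b) (h2.fix_four hh a b)
      (mem_Exs.1 hB).1 ((h2.sub_iff a b).2 (mem_Exs.1 hB).2)
  have g0 : ∀ a b, 0 ≤ ga c (τ (o1.P ∪ o2.P)) (SU h o1 o2) (o1.A a ∘ o2.A b) := fun a b =>
    ga_nonneg c (fun v => (hl.pos _ v).le) _ _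
  obtain ⟨B2, hB2⟩ := h2.exs hh (!a) (!b)
  set SY := ∑ Y ∈ PMon univ, if Sub (o1.A (!a)) Y ∧ Sub (o2.A (!b)) Y then W c Y else 0 with hSY
  have y1 : W c B2 * H c (SU h o1 o2)ᶜ ≤ SY := by
    refine le_trans ?_ (step2 (h := h) (W c) (W_nonneg c))
    refine le_trans (le_of_eq ?_) (single_le_sum (f := fun B => ∑ C ∈ PMon (SU h o1 o2)ᶜ,
      W c (B ∘ C)) (fun _ _ => sum_nonneg fun _ _ => W_nonneg _ _) hB2)
    rw [H, mul_sum]
    exact sum_congr rfl fun C hC => (W_comp c (mem_Exs.1 hB2).1 hC disjoint_compl_right).symm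
  have y0 : 0 ≤ SY := (mul_nonneg (W_nonneg _ _) HS.le).trans y1
  set K := (Fintype.card V * L) ^ 8 with hK
  have K0 : 0 ≤ K := by positivity
  have main : ∀ B ∈ Exs h o1 o2 a b, ∀ B' ∈ Exs h o1 o2 a b,
      Fl c blk o1 o2 * (mu c f (SU h o1 o2) B - mu c f (SU h o1 o2) B') ^ 2 ≤
      K * L ^ 4 * SY * ∑ C ∈ PMon (SU h o1 o2)ᶜ,
        min (W c (B ∘ C)) (W c (B' ∘ C)) * (f (B ∘ C) - f (B' ∘ C)) ^ 2 := by
    intro B hB B' hB'
    have m := mu_sq (f := f) HS B B' 0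
    simp only [sub_zero] at m
    have e : ∑ C ∈ PMon (SU h o1 o2)ᶜ,
        min (W c (B ∘ C)) (W c (B' ∘ C)) * (f (B ∘ C) - f (B' ∘ C)) ^ 2 =
        min (W c B) (W c B') * ∑ C ∈ PMon (SU h o1 o2)ᶜ,
          W c C * (f (B ∘ C) - f (B' ∘ C)) ^ 2 := by
      rw [mul_sum]
      refine sum_congr rfl fun C hC => ?_
      rw [W_comp c (mem_Exs.1 hB).1 hC disjoint_compl_right,
        W_comp c (mem_Exs.1 hB').1 hC disjoint_compl_right, ← min_mul_of_nonneg _ _ (W_nonneg c C),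
        mul_assoc]
    have g1 : ga c (τ (o1.P ∪ o2.P)) (SU h o1 o2) (o1.A a ∘ o2.A b) ≤
        L ^ 2 * min (W c B) (W c B') := by
      rw [mul_min_of_nonneg _ _ (by positivity)]
      exact le_min (gl a b B hB) (gl a b B' hB')
    have m0 : 0 ≤ min (W c B) (W c B') := le_min (W_nonneg _ _) (W_nonneg _ _)
    have g2 : ga c (τ (o1.P ∪ o2.P)) (SU h o1 o2) (o1.A (!a) ∘ o2.A (!b)) * H c (SU h o1 o2)ᶜ ≤
        L ^ 2 * SY := by
      refine (mul_le_mul_of_nonneg_right (gl _ _ B2 hB2) HS.le).trans ?_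
      rw [mul_assoc]
      exact mul_le_mul_of_nonneg_left y1 (by positivity)
    have g3 := mul_le_mul (mul_le_mul g1 g2 (mul_nonneg (g0 _ _) HS.le) (by positivity)) m
      (mul_nonneg HS.le (sq_nonneg _)) (by positivity)
    rw [e]
    refine (mul_le_mul_of_nonneg_right (Fl_le hc hl h2 a b) (sq_nonneg _)).trans ?_
    refine le_trans (le_of_eq ?_) ((mul_le_mul_of_nonneg_left g3 K0).trans (le_of_eq ?_))
    · ring
    · ring
  have t := step2 (h := h) (o1 := o1) (o2 := o2) (a := a) (b := b) (tl c f) (tl_nonneg c f)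
  rw [mul_comm _ SY, ← mul_assoc]
  refine le_trans ?_ (mul_le_mul_of_nonneg_left t (by positivity))
  rw [mul_sum, mul_sum]
  refine sum_le_sum fun B hB => ?_
  rw [mul_sum]
  refine (sum_le_sum (main B hB)).trans ?_
  rw [← mul_sum, sum_comm]
  exact mul_le_mul_of_nonneg_left (sum_le_sum fun C hC => step1 h2 hh c f hB hC) (by positivity)

end LocX

open LocX

theorem loc_le (hc : Ker c) (hp : Pos c) (he : Even (Fintype.card V))
    {blk : Finset V → V → Finset V} {τ : Finset V → V → ℝ} {h : Finset V → V}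
    (hl : Lam c L blk τ h) (f : (V → V) → ℝ) :
    ∑ o1, ∑ o2, Fl c blk o1 o2 * locS c f h o1 o2 ≤
      4 * (Fintype.card V : ℝ) ^ 20 * L ^ 12 * (H c univ * Eloc c f) := by
  classical
  have L0 : 0 ≤ L := zero_le_one.trans hl.one
  set K := (Fintype.card V * L) ^ 8 * L ^ 4 with hK
  have K0 : 0 ≤ K := by positivity
  let R : Ob V → Bool → (V → V) → (V → V) → Prop := fun o a X Y =>
    Arc o ∧ Sub (o.A a) X ∧ Sub (o.A (!a)) Y
  have n : ∀ X Y, 0 ≤ tl c f X * W c Y := fun X Y => mul_nonneg (tl_nonneg _ _ _) (W_nonneg _ _)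
  have s1 : ∀ o1 o2, Fl c blk o1 o2 * locS c f h o1 o2 ≤ ∑ a, ∑ b, K * ∑ X ∈ PMon univ,
      ∑ Y ∈ PMon univ, if R o1 a X Y ∧ R o2 b X Y then tl c f X * W c Y else 0 := by
    intro o1 o2
    by_cases h2 : Two o1 o2
    · rw [locS, mul_sum]
      refine sum_le_sum fun a _ => ?_
      rw [mul_sum]
      refine sum_le_sum fun b _ => (step3 hc hp he hl f h2 a b).trans ?_
      refine mul_le_mul_of_nonneg_left (le_of_eq ?_) K0
      rw [sum_mul_sum]
      refine sum_congr rfl fun X _ => sum_congr rfl fun Y _ => ?_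
      have a1 := h2.a1
      have a2 := h2.a2
      by_cases e1 : Sub (o1.A a) X ∧ Sub (o2.A b) X
      · by_cases e2 : Sub (o1.A (!a)) Y ∧ Sub (o2.A (!b)) Y
        · rw [if_pos e1, if_pos e2, if_pos ⟨⟨a1, e1.1, e2.1⟩, a2, e1.2, e2.2⟩]
        · rw [if_neg e2, mul_zero, if_neg fun x => e2 ⟨x.1.2.2, x.2.2.2⟩]
      · rw [if_neg e1, zero_mul, if_neg fun x => e1 ⟨x.1.2.1, x.2.2.1⟩]
    · rw [Fl_zero c blk h2, zero_mul]
      refine sum_nonneg fun a _ => sum_nonneg fun b _ => mul_nonneg K0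
        (sum_nonneg fun X _ => sum_nonneg fun Y _ => ?_)
      split_ifs
      exacts [n X Y, le_rfl]
  have s2 : ∀ a X Y, ∑ o : Ob V, (if R o a X Y then (1 : ℝ) else 0) ≤ Fintype.card V ^ 6 :=
    fun a X Y => by
      rw [sum_boole, ← Nat.cast_pow, Nat.cast_le]
      convert card_arc a X Y
  have s3 : ∀ a b, ∑ o1 : Ob V, ∑ o2 : Ob V, K * ∑ X ∈ PMon univ, ∑ Y ∈ PMon univ,
      (if R o1 a X Y ∧ R o2 b X Y then tl c f X * W c Y else 0) ≤
      K * (Fintype.card V ^ 12 * (H c univ * Eloc c f)) := fun a b => by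
    simp only [← mul_sum]
    refine mul_le_mul_of_nonneg_left ?_ K0
    rw [mul_comm (H c univ), Eloc_eq, H, sum_mul_sum, mul_sum, sum_congr rfl fun _ _ => sum_comm,
      sum_comm]
    refine sum_le_sum fun X _ => ?_
    rw [mul_sum, sum_congr rfl fun _ _ => sum_comm, sum_comm]
    refine sum_le_sum fun Y _ => ?_
    have e : ∀ o1 o2 : Ob V, (if R o1 a X Y ∧ R o2 b X Y then tl c f X * W c Y else 0) =
        (if R o1 a X Y then (1 : ℝ) else 0) * (if R o2 b X Y then (1 : ℝ) else 0) *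
          (tl c f X * W c Y) := fun o1 o2 => by
      by_cases e1 : R o1 a X Y <;> by_cases e2 : R o2 b X Y <;> simp [e1, e2]
    simp only [e, ← sum_mul, ← mul_sum]
    refine mul_le_mul_of_nonneg_right ?_ (n X Y)
    refine (mul_le_mul (s2 a X Y) (s2 b X Y) (sum_nonneg fun _ _ => by split_ifs <;> norm_num)
      (by positivity)).trans (le_of_eq (by ring))
  refine (sum_le_sum fun o1 _ => sum_le_sum fun o2 _ => s1 o1 o2).trans ?_
  rw [sum_congr rfl fun _ _ => sum_comm, sum_comm]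
  refine (sum_le_sum (g := fun _ => ∑ _b : Bool,
    K * (Fintype.card V ^ 12 * (H c univ * Eloc c f))) fun a _ => ?_).trans (le_of_eq ?_)
  · rw [sum_congr rfl fun _ _ => sum_comm, sum_comm]
    exact sum_le_sum fun b _ => s3 a b
  · simp only [sum_const, card_univ, Fintype.card_bool, nsmul_eq_mul, hK]
    push_cast
    ring

end Vale.Agent.P308
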