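import Vale.Agent.P308.Part

/-! The particle system is reversible; the energy of the Cesaro mean (job Mark). -/

namespace Vale.Agent.P308.Pt

open Finset Function

variable {Ω Θ : Type} [Fintype Ω] [Fintype Θ] {N : ℕ} {π : Ω → ℝ} {mv : Θ → Ω × Ω → Ω × Ω}

omit [Fintype Θ] in
lemma al_nonneg (hs : Sys π mv) (θ : Θ) (z : Ω × Ω) : 0 ≤ al π mv θ z :=
  le_min zero_le_one (div_pos (mul_pos (hs.pos _) (hs.pos _)) (mul_pos (hs.pos _) (hs.pos _))).le

omit [Fintype Ω] [Fintype Θ] in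
lemma al_le_one (θ : Θ) (z : Ω × Ω) : al π mv θ z ≤ 1 := min_le_left _ _

omit [Fintype Θ] in
lemma al_min (hs : Sys π mv) (θ : Θ) (z : Ω × Ω) : π z.1 * π z.2 * al π mv θ z =
    min (π z.1 * π z.2) (π (mv θ z).1 * π (mv θ z).2) := by
  have h := mul_pos (hs.pos z.1) (hs.pos z.2)
  rw [al, mul_min_of_nonneg _ _ h.le, mul_one, mul_div_cancel₀ _ h.ne']

omit [Fintype Θ] in
lemma al_symm (hs : Sys π mv) (θ : Θ) (z : Ω × Ω) : π z.1 * π z.2 * al π mv θ z =
    π (mv θ z).1 * π (mv θ z).2 * al π mv θ (mv θ z) := by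
  rw [al_min hs, al_min hs, hs.inv, min_comm]

lemma Ex_one (h : ∑ a, π a = 1) : Ex (N := N) π (fun _ => 1) = 1 := by
  have := Finset.prod_univ_sum (fun _ : Fin N => (univ : Finset Ω)) fun _ a => π a
  simp only [h, prod_const_one, Fintype.piFinset_univ] at this
  simp only [Ex, mul_one]
  exact this.symm

lemma Ex_add (F G : (Fin N → Ω) → ℝ) : Ex π (fun x => F x + G x) = Ex π F + Ex π G := by
  simp only [Ex, mul_add, sum_add_distrib]

lemma Ex_sub (F G : (Fin N → Ω) → ℝ) : Ex π (fun x => F x - G x) = Ex π F - Ex π G := by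
  simp only [Ex, mul_sub, sum_sub_distrib]

lemma Ex_mul (c : ℝ) (F : (Fin N → Ω) → ℝ) : Ex π (fun x => c * F x) = c * Ex π F := by
  simp only [Ex, mul_sum, mul_left_comm]

lemma Ex_div (c : ℝ) (F : (Fin N → Ω) → ℝ) : Ex π (fun x => F x / c) = Ex π F / c := by
  simp only [Ex, sum_div, mul_div_assoc]

lemma Ex_sum {ι : Type} (s : Finset ι) (F : ι → (Fin N → Ω) → ℝ) :
    Ex π (fun x => ∑ i ∈ s, F i x) = ∑ i ∈ s, Ex π (F i) := by
  simp only [Ex, mul_sum]
  exact sum_comm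

lemma Ex_zero : Ex (N := N) π (fun _ => 0) = 0 := by simp [Ex]

lemma Ex_const (h : ∑ a, π a = 1) (c : ℝ) : Ex (N := N) π (fun _ => c) = c := by
  have := Ex_mul (N := N) (π := π) c fun _ => 1
  simpa [Ex_one h] using this

lemma Ex_mono (h0 : ∀ a, 0 ≤ π a) {F G : (Fin N → Ω) → ℝ} (hF : ∀ x, F x ≤ G x) :
    Ex π F ≤ Ex π G :=
  sum_le_sum fun x _ => mul_le_mul_of_nonneg_left (hF x) (prod_nonneg fun _ _ => h0 _)

lemma Ex_nonneg (h0 : ∀ a, 0 ≤ π a) {F : (Fin N → Ω) → ℝ} (hF : ∀ x, 0 ≤ F x) : 0 ≤ Ex π F :=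
  sum_nonneg fun x _ => mul_nonneg (prod_nonneg fun _ _ => h0 _) (hF x)

lemma Ex_abs (h0 : ∀ a, 0 ≤ π a) (h : ∑ a, π a = 1) {F : (Fin N → Ω) → ℝ} {b : ℝ}
    (hF : ∀ x, |F x| ≤ b) : |Ex π F| ≤ b := by
  rw [abs_le]
  constructor
  · rw [← Ex_const (N := N) h (-b)]
    exact Ex_mono h0 fun x => (abs_le.1 (hF x)).1
  · rw [← Ex_const (N := N) h b]
    exact Ex_mono h0 fun x => (abs_le.1 (hF x)).2

omit [Fintype Ω] in
lemma prod_upd (x : Fin N → Ω) (i : Fin N) (a : Ω) :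
    (∏ k, π (update x i a k)) * π (x i) = (∏ k, π (x k)) * π a := by
  rw [← mul_prod_erase univ (fun k => π (update x i a k)) (mem_univ i),
    ← mul_prod_erase univ (fun k => π (x k)) (mem_univ i), update_self,
    prod_congr rfl fun k hk => by rw [update_of_ne (ne_of_mem_erase hk)]]
  ring

/-- resampling one particle -/
lemma Ex_upd (h : ∑ a, π a = 1) (i : Fin N) (F : (Fin N → Ω) → ℝ) :
    Ex π F = Ex π fun x => ∑ a, π a * F (update x i a) := by
  have hi : Involutive fun p : (Fin N → Ω) × Ω => (update p.1 i p.2, p.1 i) := by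
    rintro ⟨x, a⟩
    simp
  have e1 : Ex π F = ∑ p : (Fin N → Ω) × Ω, (∏ k, π (p.1 k)) * π p.2 * F p.1 := by
    rw [Fintype.sum_prod_type]
    refine sum_congr rfl fun x _ => ?_
    simp only
    rw [← sum_mul, ← mul_sum, h, mul_one]
  have e2 : (Ex π fun x => ∑ a, π a * F (update x i a)) =
      ∑ p : (Fin N → Ω) × Ω, (∏ k, π (p.1 k)) * π p.2 * F (update p.1 i p.2) := by
    rw [Fintype.sum_prod_type]
    refine sum_congr rfl fun x _ => ?_
    simp only [mul_sum, mul_assoc]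
  rw [e1, e2, ← Equiv.sum_comp hi.toPerm]
  refine sum_congr rfl fun p _ => ?_
  simp only [Involutive.coe_toPerm]
  rw [prod_upd]

namespace MarkX

omit [Fintype Ω] [Fintype Θ] in
lemma nx_fst {i j : Fin N} (hij : i ≠ j) (θ : Θ) (x : Fin N → Ω) :
    nx mv i j θ x i = (mv θ (x i, x j)).1 := by
  rw [nx, update_of_ne hij, update_self]

omit [Fintype Ω] [Fintype Θ] in
lemma nx_snd (i j : Fin N) (θ : Θ) (x : Fin N → Ω) :
    nx mv i j θ x j = (mv θ (x i, x j)).2 := by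
  rw [nx, update_self]

omit [Fintype Θ] in
lemma nx_nx (hs : Sys π mv) {i j : Fin N} (hij : i ≠ j) (θ : Θ) :
    Involutive (nx (N := N) mv i j θ) := by
  intro x
  conv_lhs => rw [nx, nx_fst hij, nx_snd, Prod.mk.eta, hs.inv]
  ext k
  by_cases h1 : k = j
  · subst h1
    simp
  · by_cases h2 : k = i
    · subst h2
      simp [update_of_ne h1]
    · simp [nx, update_of_ne h1, update_of_ne h2]

omit [Fintype Θ] in
lemma bal (hs : Sys π mv) {i j : Fin N} (hij : i ≠ j) (θ : Θ) (x : Fin N → Ω) :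
    (∏ k, π (nx mv i j θ x k)) * al π mv θ (mv θ (x i, x j)) =
      (∏ k, π (x k)) * al π mv θ (x i, x j) := by
  have h1 := prod_upd (π := π) x i (mv θ (x i, x j)).1
  have h2 := prod_upd (π := π) (update x i (mv θ (x i, x j)).1) j (mv θ (x i, x j)).2
  rw [update_of_ne hij.symm] at h2
  have h3 := al_symm hs θ (x i, x j)
  simp only at h3
  refine mul_right_cancel₀ (mul_pos (hs.pos (x i)) (hs.pos (x j))).ne' ?_
  unfold nx
  linear_combination (al π mv θ (mv θ (x i, x j)) * π (x i)) * h2 +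
    (al π mv θ (mv θ (x i, x j)) * π (mv θ (x i, x j)).2) * h1 - (∏ k, π (x k)) * h3

omit [Fintype Θ] in
lemma Ex_swap (hs : Sys π mv) {i j : Fin N} (hij : i ≠ j) (θ : Θ)
    (G : (Fin N → Ω) → (Fin N → Ω) → ℝ) :
    Ex π (fun x => al π mv θ (x i, x j) * G x (nx mv i j θ x)) =
      Ex π fun x => al π mv θ (x i, x j) * G (nx mv i j θ x) x := by
  unfold Ex
  rw [← Equiv.sum_comp (nx_nx hs hij θ).toPerm]
  refine sum_congr rfl fun x _ => ?_
  simp only [Involutive.coe_toPerm]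
  rw [nx_nx hs hij θ x, nx_fst hij, nx_snd, Prod.mk.eta, ← mul_assoc, bal hs hij, mul_assoc]

/-- the defect of one collision -/
noncomputable def dl (π : Ω → ℝ) (mv : Θ → Ω × Ω → Ω × Ω) (i j : Fin N) (θ : Θ)
    (g : (Fin N → Ω) → ℝ) (x : Fin N → Ω) : ℝ :=
  if i = j then 0 else al π mv θ (x i, x j) * (g x - g (nx mv i j θ x))

omit [Fintype Ω] in
lemma PN_eq [Nonempty Θ] (hN : 0 < N) (g : (Fin N → Ω) → ℝ) (x : Fin N → Ω) :
    PN π mv g x = g x - (∑ i, ∑ j, ∑ θ, dl π mv i j θ g x) / ((N : ℝ) ^ 2 * Fintype.card Θ) := by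
  have h1 : (0 : ℝ) < N := by exact_mod_cast hN
  have h2 : (0 : ℝ) < Fintype.card Θ := by exact_mod_cast Fintype.card_pos
  have e : ∀ (i j : Fin N) (θ : Θ), (if i = j then g x else
      al π mv θ (x i, x j) * g (nx mv i j θ x) + (1 - al π mv θ (x i, x j)) * g x) =
      g x - dl π mv i j θ g x := by
    intro i j θ
    unfold dl
    split_ifs <;> ring
  unfold PN
  simp only [e, sum_sub_distrib, sum_const, card_univ, Fintype.card_fin, nsmul_eq_mul]
  field_simp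

omit [Fintype Θ] in
lemma Ex_dl (hs : Sys π mv) (i j : Fin N) (θ : Θ) (g : (Fin N → Ω) → ℝ) :
    Ex π (dl π mv i j θ g) = 0 := by
  unfold dl
  split_ifs with hij
  · exact Ex_zero
  · simp only [mul_sub]
    rw [Ex_sub, Ex_swap hs hij θ fun x _ => g x, sub_self]

omit [Fintype Θ] in
lemma Ex_mul_dl (hs : Sys π mv) (i j : Fin N) (θ : Θ) (h : (Fin N → Ω) → ℝ) :
    2 * Ex π (fun x => h x * dl π mv i j θ h x) = if i = j then 0 else
      Ex π fun x => al π mv θ (x i, x j) * (h x - h (nx mv i j θ x)) ^ 2 := by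
  unfold dl
  split_ifs with hij
  · simp [Ex]
  · have h1 := Ex_swap hs hij θ fun x y => h x * (h x - h y)
    have h2 : Ex π (fun x => h x * (al π mv θ (x i, x j) * (h x - h (nx mv i j θ x)))) =
        Ex π (fun x => al π mv θ (x i, x j) * (h x * (h x - h (nx mv i j θ x)))) := by
      simp only [mul_left_comm]
    rw [two_mul, h2]
    nth_rewrite 2 [h1]
    rw [← Ex_add]
    congr 1
    ext x
    ring

lemma Ex_PN [Nonempty Θ] (hs : Sys π mv) (hN : 0 < N) (g : (Fin N → Ω) → ℝ) :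
    Ex π (PN π mv g) = Ex π g := by
  have : PN π mv g = fun x => g x - (∑ i, ∑ j, ∑ θ, dl π mv i j θ g x) /
      ((N : ℝ) ^ 2 * Fintype.card Θ) := funext (PN_eq hN g)
  rw [this, Ex_sub, Ex_div]
  simp only [Ex_sum, Ex_dl hs, sum_const_zero, zero_div, sub_zero]

lemma DN_eq [Nonempty Θ] (hs : Sys π mv) (hN : 0 < N) (h : (Fin N → Ω) → ℝ) :
    DN π mv h = 2 * ((N : ℝ) ^ 2 * Fintype.card Θ) * Ex π fun x => h x * (h x - PN π mv h x) := by
  have h1 : (0 : ℝ) < N := by exact_mod_cast hN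
  have h2 : (0 : ℝ) < Fintype.card Θ := by exact_mod_cast Fintype.card_pos
  have : (fun x => h x * (h x - PN π mv h x)) = fun x =>
      (∑ i, ∑ j, ∑ θ, h x * dl π mv i j θ h x) / ((N : ℝ) ^ 2 * Fintype.card Θ) := by
    ext x
    rw [PN_eq hN, sub_sub_cancel, ← mul_div_assoc]
    simp only [mul_sum]
  rw [this, Ex_div]
  simp only [Ex_sum]
  simp only [DN, ← Ex_mul_dl hs, ← mul_sum]
  field_simp

lemma PN_abs (hs : Sys π mv) {g : (Fin N → Ω) → ℝ} (hg : ∀ x, |g x| ≤ 1) (x : Fin N → Ω) :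
    |PN π mv g x| ≤ 1 := by
  unfold PN
  rw [abs_div, abs_of_nonneg (by positivity : (0 : ℝ) ≤ (N : ℝ) ^ 2 * Fintype.card Θ)]
  refine div_le_one_of_le₀ ?_ (by positivity)
  have e : (N : ℝ) ^ 2 * Fintype.card Θ = ∑ _i : Fin N, ∑ _j : Fin N, ∑ _θ : Θ, (1 : ℝ) := by
    simp [sq, mul_assoc]
  rw [e]
  refine (abs_sum_le_sum_abs _ _).trans (sum_le_sum fun i _ => ?_)
  refine (abs_sum_le_sum_abs _ _).trans (sum_le_sum fun j _ => ?_)
  refine (abs_sum_le_sum_abs _ _).trans (sum_le_sum fun θ _ => ?_)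
  split_ifs
  · exact hg x
  · have a0 := al_nonneg hs θ (x i, x j)
    have a1 := al_le_one (π := π) (mv := mv) θ (x i, x j)
    have b1 := abs_le.1 (hg x)
    have b2 := abs_le.1 (hg (nx mv i j θ x))
    rw [abs_le]
    constructor <;> nlinarith [b1.1, b1.2, b2.1, b2.2]

lemma iter_abs (hs : Sys π mv) {g : (Fin N → Ω) → ℝ} (hg : ∀ x, |g x| ≤ 1) (l : ℕ) :
    ∀ x, |(PN π mv)^[l] g x| ≤ 1 := by
  induction l with
  | zero => exact hg
  | succ l ih =>
    rw [iterate_succ_apply']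
    exact PN_abs hs ih

omit [Fintype Ω] in
lemma PN_lin [Nonempty Θ] (hN : 0 < N) {ι : Type} (s : Finset ι) (c : ℝ)
    (g : ι → (Fin N → Ω) → ℝ) (x : Fin N → Ω) :
    PN π mv (fun y => (∑ l ∈ s, g l y) / c) x = (∑ l ∈ s, PN π mv (g l) x) / c := by
  have e : ∀ (i j : Fin N) (θ : Θ), dl π mv i j θ (fun y => (∑ l ∈ s, g l y) / c) x =
      (∑ l ∈ s, dl π mv i j θ (g l) x) / c := by
    intro i j θ
    unfold dl
    split_ifs
    · simp
    · rw [← sub_div, ← sum_sub_distrib, ← mul_div_assoc, mul_sum]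
  simp only [PN_eq hN, e, ← sum_div, sum_sub_distrib]
  have : ∑ i : Fin N, ∑ j : Fin N, ∑ θ : Θ, ∑ l ∈ s, dl π mv i j θ (g l) x =
      ∑ l ∈ s, ∑ i : Fin N, ∑ j : Fin N, ∑ θ : Θ, dl π mv i j θ (g l) x := by
    rw [sum_comm (s := s)]
    refine sum_congr rfl fun i _ => ?_
    rw [sum_comm (s := s)]
    refine sum_congr rfl fun j _ => ?_
    rw [sum_comm (s := s)]
  rw [this]
  ring

end MarkX

open MarkX

lemma ces_abs (hs : Sys π mv) (L : ℕ) {g : (Fin N → Ω) → ℝ} (hg : ∀ x, |g x| ≤ 1)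
    (x : Fin N → Ω) : |ces π mv L g x| ≤ 1 := by
  unfold ces
  rw [abs_div, Nat.abs_cast]
  refine div_le_one_of_le₀ ?_ (Nat.cast_nonneg _)
  refine (abs_sum_le_sum_abs _ _).trans ((sum_le_sum fun l _ => iter_abs hs hg l x).trans ?_)
  simp

lemma Ex_ces [Nonempty Θ] (hs : Sys π mv) (hN : 0 < N) {L : ℕ} (hL : 0 < L)
    (g : (Fin N → Ω) → ℝ) : Ex π (ces π mv L g) = Ex π g := by
  have h1 : ∀ l, Ex π ((PN π mv)^[l] g) = Ex π g := by
    intro l
    induction l with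
    | zero => rfl
    | succ l ih => rw [iterate_succ_apply', Ex_PN hs hN, ih]
  have h2 : (0 : ℝ) < L := by exact_mod_cast hL
  unfold ces
  rw [Ex_div, Ex_sum]
  simp only [h1, sum_const, card_range, nsmul_eq_mul]
  field_simp

theorem DN_ces [Nonempty Θ] (hs : Sys π mv) (hN : 0 < N) {L : ℕ} (hL : 0 < L)
    {g : (Fin N → Ω) → ℝ} (hg : ∀ x, |g x| ≤ 1) :
    DN π mv (ces π mv L g) ≤ 4 * (N : ℝ) ^ 2 * Fintype.card Θ / L := by
  have h2 : (0 : ℝ) < L := by exact_mod_cast hL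
  have e : ∀ x, ces π mv L g x - PN π mv (ces π mv L g) x = (g x - (PN π mv)^[L] g x) / L := by
    intro x
    have := PN_lin (π := π) (mv := mv) hN (range L) (L : ℝ) (fun l => (PN π mv)^[l] g) x
    have e2 : PN π mv (ces π mv L g) x = (∑ l ∈ range L, (PN π mv)^[l + 1] g x) / L := by
      simp only [iterate_succ_apply']
      exact this
    rw [e2, ces, ← sub_div, ← sum_sub_distrib, sum_range_sub' fun l => (PN π mv)^[l] g x]
    rfl
  have h3 : |Ex π fun x => ces π mv L g x * (ces π mv L g x - PN π mv (ces π mv L g) x)| ≤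
      2 / L := by
    refine Ex_abs (fun a => (hs.pos a).le) hs.sum fun x => ?_
    rw [e, abs_mul, abs_div, Nat.abs_cast]
    have b1 := ces_abs hs L hg x
    have b2 : |g x - (PN π mv)^[L] g x| ≤ 2 := by
      have := abs_sub (g x) ((PN π mv)^[L] g x)
      linarith [hg x, iter_abs hs hg L x]
    calc _ ≤ 1 * (2 / (L : ℝ)) := by gcongr
      _ = _ := one_mul _
  rw [DN_eq hs hN]
  have h4 := (le_abs_self _).trans h3
  calc _ ≤ 2 * ((N : ℝ) ^ 2 * Fintype.card Θ) * (2 / L) := by gcongr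
    _ = _ := by ring

end Vale.Agent.P308.Pt
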