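import Mathlib

/-! Matchings as involutions, weights, hafnians (definitions). -/

namespace Vale.Agent.P308

open Finset

variable {V : Type} [Fintype V] [DecidableEq V]

/-- the matchings that cover exactly `S`, as involutions -/
def PMon (S : Finset V) : Finset (V → V) :=
  univ.filter fun X => ∀ v, X (X v) = v ∧ (X v ≠ v ↔ v ∈ S)

/-- the product of the weights of the edges; every edge is met twice -/
noncomputable def W (c : V → V → ℝ) (X : V → V) : ℝ :=
  ∏ v, if X v = v then 1 else √(c v (X v))

/-- the hafnian of the submatrix on `S` -/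
noncomputable def H (c : V → V → ℝ) (S : Finset V) : ℝ := ∑ X ∈ PMon S, W c X

noncomputable def Q (c : V → V → ℝ) (u v : V) : ℝ := H c ((univ.erase u).erase v)

structure Ker (c : V → V → ℝ) : Prop where
  symm : ∀ u v, c u v = c v u
  nonneg : ∀ u v, 0 ≤ c u v

def Pos (c : V → V → ℝ) : Prop := ∀ u v, u ≠ v → 0 < c u v

/-- every pair is an edge of the random matching with probability at least `δ` -/
def Marg (c : V → V → ℝ) (δ : ℝ) : Prop := ∀ u v, u ≠ v → δ * H c univ ≤ c u v * Q c u v

/-- conjugation by a transposition -/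
def cj (p q : V) (X : V → V) : V → V := fun v => Equiv.swap p q (X (Equiv.swap p q v))

/-- the perfect matchings that agree with `X0` outside `U` -/
def Cl (U : Finset V) (X0 : V → V) : Finset (V → V) :=
  (PMon univ).filter fun X => ∀ v, v ∉ U → X v = X0 v

open Classical in
/-- `N` on `T`, `M` elsewhere -/
noncomputable def mix (T : Set V) (M N : V → V) : V → V := fun v => if v ∈ T then N v else M v

/-- the alternating cycle through `k` -/
def Orb (M N : V → V) (k : V) : Set V :=
  {u | Relation.ReflTransGen (fun a b => b = M a ∨ b = N a) k u}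

/-- two edges that join different blocks can be exchanged at a bounded loss -/
def Four (c : V → V → ℝ) (K : ℝ) (blk : V → Finset V) : Prop :=
  ∀ r b y z, r ≠ b → y ≠ z → blk r ≠ blk y → blk b ≠ blk z → c r y * c b z ≤ K * (c r b * c y z)

/-- every set has a centre -/
def Centre (c : V → V → ℝ) (K : ℝ) : Prop :=
  ∀ U : Finset V, 2 ≤ U.card → ∃ blk : V → Finset V,
    (∀ u, 2 * (U.filter fun v => blk v = blk u).card ≤ U.card) ∧ Four c K blk

/-- the proposal matrix: two random transpositions -/
noncomputable def qm (X Y : V → V) : ℝ :=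
  ((univ.filter fun t : V × V × V × V => cj t.1 t.2.1 (cj t.2.2.1 t.2.2.2 X) = Y).card : ℝ) /
    (Fintype.card V : ℝ) ^ 4

/-- the probability that `u v` is a virtual edge -/
noncomputable def pv (a b : V → V → ℝ) (u v : V) : ℝ :=
  b u v * Q (a + b) u v / H (a + b) univ

noncomputable def eta (V : Type) [Fintype V] : ℝ := 1 / (8 * (Fintype.card V : ℝ))
noncomputable def del (V : Type) [Fintype V] : ℝ := 1 / (10 * (Fintype.card V : ℝ) ^ 2)

/-- the potential -/
noncomputable def Phi (a b : V → V → ℝ) : ℝ :=
  Real.log (H (a + b) univ) - del V * ∑ u, ∑ v ∈ univ.erase u, Real.log (b u v)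

/-- the Poincare constant -/
def CC (n : ℕ) : ℕ := n ^ (90 * (Nat.log 2 n + 1))

open Classical in
/-- the adjacency matrix -/
noncomputable def aK (G : SimpleGraph V) (u v : V) : ℝ := if G.Adj u v then 1 else 0

end Vale.Agent.P308
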