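import Vale.Agent.P308.Arc
import Vale.Agent.P308.PathA

/-! Every alternating cycle splits recursively along edges between blocks (job Root). -/

namespace Vale.Agent.P308

open Finset

variable {V : Type} [Fintype V] [DecidableEq V]

namespace RootX

open Classical in
/-- the piece of the walk between the positions `i` and `j` -/
noncomputable def arc (MM : Bool → V → V) (w : ℕ → V) (col : ℕ → Bool) (i j : ℕ) : Ob V where
  P := (Icc i j).image w
  s := w i
  t := w j
  A a v := if ∃ l, i ≤ l ∧ l < j ∧ col l = a ∧ (v = w l ∨ v = w (l + 1)) then MM a v else v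

structure Wk (MM : Bool → V → V) (w : ℕ → V) (col : ℕ → Bool) : Prop where
  inv : ∀ a v, MM a (MM a v) = v
  ne : ∀ a v, MM a v ≠ v
  st : ∀ i, w (i + 1) = MM (col i) (w i)
  alt : ∀ i, col (i + 1) = !col i

variable {MM : Bool → V → V} {w : ℕ → V} {col : ℕ → Bool} {i j : ℕ}

omit [Fintype V] in
lemma mem_P {v : V} : v ∈ (arc MM w col i j).P ↔ ∃ l, i ≤ l ∧ l ≤ j ∧ w l = v := by
  simp [arc, and_assoc]

omit [Fintype V] in
lemma A_pos {a : Bool} {v : V} {l : ℕ} (h1 : i ≤ l) (h2 : l < j) (h3 : col l = a)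
    (h4 : v = w l ∨ v = w (l + 1)) : (arc MM w col i j).A a v = MM a v :=
  if_pos ⟨l, h1, h2, h3, h4⟩

omit [Fintype V] in
lemma A_ne {a : Bool} {v : V} (h : (arc MM w col i j).A a v ≠ v) :
    ∃ l, i ≤ l ∧ l < j ∧ col l = a ∧ (v = w l ∨ v = w (l + 1)) := by
  by_contra hn
  exact h (if_neg hn)

omit [Fintype V] in
lemma sub_MM (a : Bool) : Sub ((arc MM w col i j).A a) (MM a) := fun _ h => by
  obtain ⟨l, h1, h2, h3, h4⟩ := A_ne h
  exact (A_pos h1 h2 h3 h4).symm

omit [Fintype V] in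
lemma sub_arc {i' j' : ℕ} (hi : i ≤ i') (hj : j' ≤ j) (a : Bool) :
    Sub ((arc MM w col i' j').A a) ((arc MM w col i j).A a) := fun _ h => by
  obtain ⟨l, h1, h2, h3, h4⟩ := A_ne h
  rw [A_pos h1 h2 h3 h4, A_pos (hi.trans h1) (h2.trans_le hj) h3 h4]

omit [Fintype V] in
lemma isArc (hw : Wk MM w col) (hij : i ≤ j) : Arc (arc MM w col i j) := by
  refine ⟨mem_P.2 ⟨i, le_rfl, hij, rfl⟩, mem_P.2 ⟨j, hij, le_rfl, rfl⟩, fun a v => ?_,
    fun a v h => ?_, fun a v hv h => ?_, fun v hv => ?_⟩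
  · by_cases h : (arc MM w col i j).A a v = v
    · rw [h, h]
    obtain ⟨l, h1, h2, h3, h4⟩ := A_ne h
    rw [A_pos h1 h2 h3 h4, A_pos h1 h2 h3, hw.inv]
    rcases h4 with rfl | rfl
    · exact Or.inr (by rw [hw.st, h3])
    · exact Or.inl (by rw [hw.st, h3, hw.inv])
  · obtain ⟨l, h1, h2, -, rfl | rfl⟩ := A_ne h
    · exact mem_P.2 ⟨l, h1, h2.le, rfl⟩
    · exact mem_P.2 ⟨l + 1, by omega, h2, rfl⟩
  · obtain ⟨l, h1, h2, rfl⟩ := mem_P.1 hv
    by_contra hn
    rw [not_or] at hn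
    have e1 : l ≠ i := fun e => hn.1 (e ▸ rfl)
    have e2 : l ≠ j := fun e => hn.2 (e ▸ rfl)
    obtain ⟨m, rfl⟩ : ∃ m, l = m + 1 := ⟨l - 1, by omega⟩
    by_cases hc : col m = a
    · exact hw.ne _ _ ((A_pos (by omega) (by omega) hc (Or.inr rfl)).symm.trans h)
    · refine hw.ne _ _ ((A_pos (l := m + 1) h1 (by omega) ?_ (Or.inl rfl)).symm.trans h)
      rw [hw.alt]
      cases a <;> simpa using hc
  · obtain ⟨l, h1, h2, rfl⟩ := mem_P.1 hv
    clear hv
    induction l, h1 using Nat.le_induction with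
    | base => exact PA.orb_self
    | succ l h1 ih =>
      have h3 := ih (by omega)
      have e : w (l + 1) = (arc MM w col i j).A (col l) (w l) := by
        rw [A_pos h1 (by omega) rfl (Or.inl rfl), hw.st]
      rw [e]
      cases col l
      exacts [PA.orbM h3, PA.orbN h3]

omit [Fintype V] in
lemma card_P {m : ℕ} (hi : ∀ a b, a ≤ m → b ≤ m → w a = w b → a = b) (hj : j ≤ m) :
    (arc MM w col i j).P.card = j + 1 - i := by
  rw [arc, card_image_of_injOn, Nat.card_Icc]
  intro a ha b hb e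
  exact hi a b ((mem_Icc.1 (mem_coe.1 ha)).2.trans hj) ((mem_Icc.1 (mem_coe.1 hb)).2.trans hj) e

theorem rec_arc {blk : Finset V → V → Finset V}
    (two : ∀ P : Finset V, 2 ≤ P.card → ∃ a ∈ P, ∃ b ∈ P, blk P a ≠ blk P b)
    (mono : ∀ P P' : Finset V, P' ⊆ P → 2 ≤ P'.card → ∀ a ∈ P', ∀ v, blk P a ≠ blk P v →
      blk P' a ≠ blk P' v)
    {M N : V → V} (hw : Wk (fun a => cond a N M) w col) {m : ℕ}
    (hi : ∀ a b, a ≤ m → b ≤ m → w a = w b → a = b) (φ : Ob V → ℝ) {E : ℝ}
    (h1 : ∀ o, Arc o → o.P.card = 1 → φ o = 0)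
    (h2 : ∀ o o1 o2, Arc o → VP blk M N o1 o2 → o.P = o1.P ∪ o2.P →
      (∀ a, Sub (o1.A a) (o.A a) ∧ Sub (o2.A a) (o.A a)) → |φ o - φ o1 - φ o2| ≤ E) (d : ℕ) :
    ∀ i j, j = i + d → j ≤ m → (i < j → ∀ a, ∀ v ∈ (arc (fun a => cond a N M) w col i j).P,
      (arc (fun a => cond a N M) w col i j).A a v = v →
        blk (arc (fun a => cond a N M) w col i j).P v ≠
          blk (arc (fun a => cond a N M) w col i j).P (cond a N M v)) →
      |φ (arc (fun a => cond a N M) w col i j)| ≤ d * E := by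
  induction d using Nat.strong_induction_on with
  | _ d ih =>
  intro i j hd hj hc
  set MM : Bool → V → V := fun a => cond a N M with hMM
  rcases Nat.eq_zero_or_pos d with rfl | d0
  · rw [h1 _ (isArc hw (by omega)) (by rw [card_P hi hj]; omega)]
    simp
  have ij : i < j := by omega
  set P := (arc MM w col i j).P with hP
  obtain ⟨l, l1, l2, l3⟩ : ∃ l, i ≤ l ∧ l < j ∧ blk P (w l) ≠ blk P (w (l + 1)) := by
    by_contra hn
    have key : ∀ l, i ≤ l → l ≤ j → blk P (w l) = blk P (w i) := by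
      intro l h1
      induction l, h1 using Nat.le_induction with
      | base => exact fun _ => rfl
      | succ l h1 ih =>
        intro h3
        rw [← ih (by omega)]
        by_contra h4
        exact hn ⟨l, h1, by omega, fun e => h4 e.symm⟩
    obtain ⟨a, ha, b, hb, hab⟩ := two P (by rw [hP, card_P hi hj]; omega)
    obtain ⟨x, x1, x2, rfl⟩ := mem_P.1 ha
    obtain ⟨y, y1, y2, rfl⟩ := mem_P.1 hb
    exact hab ((key x x1 x2).trans (key y y1 y2).symm)
  have hU : P = (arc MM w col i l).P ∪ (arc MM w col (l + 1) j).P := by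
    ext v
    simp only [hP, mem_union, mem_P]
    constructor
    · rintro ⟨x, x1, x2, rfl⟩
      by_cases h : x ≤ l
      exacts [Or.inl ⟨x, x1, h, rfl⟩, Or.inr ⟨x, by omega, x2, rfl⟩]
    · rintro (⟨x, x1, x2, rfl⟩ | ⟨x, x1, x2, rfl⟩)
      exacts [⟨x, x1, by omega, rfl⟩, ⟨x, by omega, x2, rfl⟩]
  have cr : ∀ a, ∀ v ∈ P, (arc MM w col i l).A a v = v → (arc MM w col (l + 1) j).A a v = v →
      blk P v ≠ blk P (MM a v) := by
    intro a v hv e1 e2
    by_cases h : (arc MM w col i j).A a v = v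
    · exact hc ij a v hv h
    obtain ⟨x, x1, x2, x3, x4⟩ := A_ne h
    rcases lt_trichotomy x l with g | rfl | g
    · exact absurd ((A_pos x1 g x3 x4).symm.trans e1) (hw.ne _ _)
    · rcases x4 with rfl | rfl
      · rw [← x3, ← hw.st]; exact l3
      · rw [hw.st, x3, hw.inv, ← x3, ← hw.st]; exact l3.symm
    · exact absurd ((A_pos g x2 x3 x4).symm.trans e2) (hw.ne _ _)
  have dj : Disjoint (arc MM w col i l).P (arc MM w col (l + 1) j).P := by
    rw [disjoint_left]
    intro v g1 g2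
    obtain ⟨x, x1, x2, rfl⟩ := mem_P.1 g1
    obtain ⟨y, y1, y2, e⟩ := mem_P.1 g2
    have := hi y x (by omega) (by omega) e
    omega
  have a1 := isArc hw l1
  have a2 := isArc hw (show l + 1 ≤ j from l2)
  have k := h2 _ _ _ (isArc hw ij.le) ⟨⟨a1, a2, dj⟩, sub_MM, sub_MM, hU ▸ cr⟩ hU
    fun a => ⟨sub_arc le_rfl l2.le a, sub_arc (by omega) le_rfl a⟩
  have k1 := ih (l - i) (by omega) i l (by omega) (by omega) fun g a v hv e => by
    have s : (arc MM w col i l).P ⊆ P := hU ▸ subset_union_left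
    refine mono P _ s (by rw [card_P hi (by omega)]; omega) v hv _ (cr a v (s hv) e ?_)
    by_contra hn
    exact disjoint_left.1 dj hv (a2.supp a v hn)
  have k2 := ih (j - (l + 1)) (by omega) (l + 1) j (by omega) hj fun g a v hv e => by
    have s : (arc MM w col (l + 1) j).P ⊆ P := hU ▸ subset_union_right
    refine mono P _ s (by rw [card_P hi hj]; omega) v hv _ (cr a v (s hv) ?_ e)
    by_contra hn
    exact disjoint_left.1 dj (a1.supp a v hn) hv
  have e : (d : ℝ) = ((l - i : ℕ) : ℝ) + ((j - (l + 1) : ℕ) : ℝ) + 1 := by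
    exact_mod_cast (show d = (l - i) + (j - (l + 1)) + 1 by omega)
  rw [e]
  have := abs_le.1 k
  have := abs_le.1 k1
  have := abs_le.1 k2
  rw [abs_le]
  constructor <;> linarith

/-- the walk closes up -/
theorem closes (hw : Wk MM w col) : ∃ m, 1 ≤ m ∧ m < Fintype.card V ∧
    (∀ a b, a ≤ m → b ≤ m → w a = w b → a = b) ∧ w (m + 1) = w 0 ∧ col m = !col 0 := by
  have ex : ∃ m, ∃ l ≤ m, w (m + 1) = w l := by
    obtain ⟨a, b, ab, e⟩ := Finite.exists_ne_map_eq_of_infinite w
    rcases lt_or_gt_of_ne ab with h | h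
    · exact ⟨b - 1, a, by omega, by rw [show b - 1 + 1 = b by omega, e]⟩
    · exact ⟨a - 1, b, by omega, by rw [show a - 1 + 1 = a by omega, e]⟩
  classical
  obtain ⟨l, hl, e⟩ := Nat.find_spec ex
  have mn := fun k => Nat.find_min ex (m := k)
  generalize Nat.find ex = m at hl e mn
  have hi : ∀ a b, a ≤ m → b ≤ m → w a = w b → a = b := by
    intro a b ha hb h
    by_contra ab
    rcases lt_or_gt_of_ne ab with g | g
    · exact mn (b - 1) (by omega) ⟨a, by omega, by rw [show b - 1 + 1 = b by omega, h]⟩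
    · exact mn (a - 1) (by omega) ⟨b, by omega, by rw [show a - 1 + 1 = a by omega, h]⟩
  have e' : MM (col m) (w l) = w m := by rw [← e, hw.st, hw.inv]
  have lm : l ≠ m := fun g => hw.ne _ _ (g ▸ e')
  have c1 : col m ≠ col l := fun g => by
    rw [g, ← hw.st] at e'
    have := hi _ _ (by omega) le_rfl e'
    rw [← this, hw.alt] at g
    simp at g
  have l0 : l = 0 := by
    by_contra g
    obtain ⟨x, rfl⟩ : ∃ x, l = x + 1 := ⟨l - 1, by omega⟩
    have : col m = col x := by
      rw [hw.alt] at c1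
      cases h1 : col m <;> cases h2 : col x <;> simp_all
    rw [this, hw.st, hw.inv] at e'
    have := hi _ _ (by omega) le_rfl e'
    omega
  subst l0
  refine ⟨m, by omega, ?_, hi, e, by cases h1 : col m <;> cases h2 : col 0 <;> simp_all⟩
  have := card_le_univ (arc MM w col 0 m).P
  rw [card_P hi le_rfl] at this
  omega

end RootX

open RootX in
theorem root {blk : Finset V → V → Finset V}
    (two : ∀ P : Finset V, 2 ≤ P.card → ∃ a ∈ P, ∃ b ∈ P, blk P a ≠ blk P b)
    (mono : ∀ P P' : Finset V, P' ⊆ P → 2 ≤ P'.card → ∀ a ∈ P', ∀ v, blk P a ≠ blk P v →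
      blk P' a ≠ blk P' v)
    {M N : V → V} (hM : M ∈ PMon univ) (hN : N ∈ PMon univ) (k : V) (φ : Ob V → ℝ) {E : ℝ}
    (hE : 0 ≤ E) (h1 : ∀ o, Arc o → o.P.card = 1 → φ o = 0)
    (h2 : ∀ o o1 o2, Arc o → VP blk M N o1 o2 → o.P = o1.P ∪ o2.P →
      (∀ a, Sub (o1.A a) (o.A a) ∧ Sub (o2.A a) (o.A a)) → |φ o - φ o1 - φ o2| ≤ E) :
    ∃ o : Ob V, Arc o ∧ (o.P : Set V) = Orb M N k ∧ Sub (o.A false) M ∧ Sub (o.A true) N ∧
      |φ o| ≤ Fintype.card V * E := by
  classical
  set MM : Bool → V → V := fun a => cond a N M with hMM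
  have iv : ∀ a v, MM a (MM a v) = v := fun a v => by
    cases a
    exacts [(mem_PM.1 hM v).1, (mem_PM.1 hN v).1]
  have ne : ∀ a v, MM a v ≠ v := fun a v => by
    cases a
    exacts [(mem_PM.1 hM v).2, (mem_PM.1 hN v).2]
  have cl : ∀ {ρ} a v, v ∈ Orb M N ρ → MM a v ∈ Orb M N ρ := fun a v h => by
    cases a
    exacts [PA.orbM h, PA.orbN h]
  set O : Finset V := univ.filter fun v => v ∈ Orb M N k with hO
  have mO : ∀ v, v ∈ O ↔ v ∈ Orb M N k := fun v => by simp [hO]
  obtain ⟨x, hx, a, hc⟩ : ∃ x ∈ Orb M N k, ∃ a, blk O x ≠ blk O (MM a x) := by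
    by_contra hn
    have key : ∀ v ∈ Orb M N k, blk O v = blk O k := by
      intro v hv
      induction hv with
      | refl => rfl
      | @tail b d g1 g2 ih =>
        rw [← ih]
        by_contra g3
        rcases g2 with rfl | rfl
        exacts [hn ⟨b, g1, false, fun e => g3 e.symm⟩, hn ⟨b, g1, true, fun e => g3 e.symm⟩]
    obtain ⟨u, hu, v, hv, uv⟩ := two O (one_lt_card.2 ⟨k, (mO _).2 PA.orb_self, M k,
      (mO _).2 (PA.orbM PA.orb_self), (ne false k).symm⟩)
    exact uv ((key u ((mO _).1 hu)).trans (key v ((mO _).1 hv)).symm)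
  obtain ⟨col, c0, cs⟩ : ∃ col : ℕ → Bool, col 0 = !a ∧ ∀ i, col (i + 1) = !col i :=
    ⟨fun i => Nat.rec (!a) (fun _ b => !b) i, rfl, fun _ => rfl⟩
  obtain ⟨w, w0, ws⟩ : ∃ w : ℕ → V, w 0 = MM a x ∧ ∀ i, w (i + 1) = MM (col i) (w i) :=
    ⟨fun i => Nat.rec (MM a x) (fun i v => MM (col i) v) i, rfl, fun _ => rfl⟩
  have hw : Wk MM w col := ⟨iv, ne, ws, cs⟩
  obtain ⟨m, m1, m2, hi, e, cm⟩ := closes hw
  rw [c0, Bool.not_not] at cm
  have wm : w m = x := by rw [← iv a (w m), ← cm, ← hw.st, e, w0, cm, iv]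
  have hM' : M ∈ Cl univ id := mem_Cl.2 ⟨hM, fun v h => absurd (mem_univ v) h⟩
  have hN' : N ∈ Cl univ id := mem_Cl.2 ⟨hN, fun v h => absurd (mem_univ v) h⟩
  have hP : (arc MM w col 0 m).P = O := by
    ext v
    rw [mO, mem_P]
    constructor
    · rintro ⟨l, -, -, rfl⟩
      induction l with
      | zero => exact w0 ▸ cl a x hx
      | succ l ih => exact ws l ▸ cl _ _ ih
    · rw [PA.orb_eq hM' hN' hx]
      have st : ∀ b l, l ≤ m → ∃ l', 0 ≤ l' ∧ l' ≤ m ∧ w l' = MM b (w l) := by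
        intro b l hl
        by_cases g : col l = b
        · rcases hl.eq_or_lt with rfl | g2
          · exact ⟨0, le_rfl, by omega, by rw [← e, hw.st, g]⟩
          · exact ⟨l + 1, by omega, g2, by rw [hw.st, g]⟩
        · cases l with
          | zero =>
            have : b = a := by rw [c0] at g; revert g; cases a <;> cases b <;> simp
            exact ⟨m, by omega, le_rfl, by rw [wm, w0, this, iv]⟩
          | succ l =>
            have : b = col l := by
              rw [hw.alt] at g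
              revert g
              cases col l <;> cases b <;> simp
            exact ⟨l, by omega, by omega, by rw [hw.st, this, iv]⟩
      intro hv
      induction hv with
      | refl => exact ⟨m, by omega, le_rfl, wm⟩
      | tail _ g2 ih =>
        obtain ⟨l, -, l2, rfl⟩ := ih
        rcases g2 with rfl | rfl
        exacts [st false l l2, st true l l2]
  have ha := isArc hw (Nat.zero_le m)
  refine ⟨arc MM w col 0 m, ha, ?_, sub_MM false, sub_MM true, ?_⟩
  · rw [hP]; ext v; simp [hO]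
  refine (rec_arc two mono hw hi φ h1 h2 m 0 m (by omega) le_rfl fun _ b v hv g => ?_).trans
    (mul_le_mul_of_nonneg_right (by exact_mod_cast m2.le) hE)
  have ba : b = a := by
    by_contra g2
    rcases ha.fix b v hv g with rfl | rfl
    · refine ne _ _ ((A_pos (l := 0) le_rfl (by omega) ?_ (Or.inl rfl)).symm.trans g)
      rw [c0]; revert g2; cases a <;> cases b <;> simp
    · obtain ⟨l, rfl⟩ : ∃ l, m = l + 1 := ⟨m - 1, by omega⟩
      refine ne _ _ ((A_pos (l := l) (by omega) (by omega) ?_ (Or.inr rfl)).symm.trans g)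
      rw [hw.alt] at cm
      revert cm g2
      cases col l <;> cases a <;> cases b <;> simp
  subst ba
  rw [hP]
  rcases ha.fix b v hv g with rfl | rfl
  · show blk O (w 0) ≠ blk O (MM b (w 0))
    rw [w0, iv]; exact hc.symm
  · show blk O (w m) ≠ blk O (MM b (w m))
    rw [wm]; exact hc

end Vale.Agent.P308
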