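import Vale.Agent.P308.Lam
import Vale.Agent.P308.Root
import Vale.Agent.P308.CL
import Vale.Agent.P308.Loc
import Vale.Agent.P308.Child

/-! The Poincare inequality for the linearised collision form (job PI). -/

namespace Vale.Agent.P308

open Finset

variable {V : Type} [Fintype V] [DecidableEq V] {c : V → V → ℝ} {L : ℝ}
  {blk : Finset V → V → Finset V} {τ : Finset V → V → ℝ} {h : Finset V → V}

open Classical in
/-- the sum of all squared errors inside `M`, `N` -/
noncomputable def QQ (c : V → V → ℝ) (f : (V → V) → ℝ) (blk : Finset V → V → Finset V)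
    (h : Finset V → V) (M N : V → V) : ℝ :=
  ∑ o1, ∑ o2, if VP blk M N o1 o2 then errS c f h o1 o2 + locS c f h o1 o2 else 0

namespace PIX

lemma errS_nonneg (c : V → V → ℝ) (f : (V → V) → ℝ) (h : Finset V → V) (o1 o2 : Ob V) :
    0 ≤ errS c f h o1 o2 :=
  sum_nonneg fun _ _ => sum_nonneg fun _ _ => sq_nonneg _

lemma locS_nonneg (c : V → V → ℝ) (f : (V → V) → ℝ) (h : Finset V → V) (o1 o2 : Ob V) :
    0 ≤ locS c f h o1 o2 :=
  sum_nonneg fun _ _ => sum_nonneg fun _ _ => sum_nonneg fun _ _ => sum_nonneg fun _ _ =>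
    sq_nonneg _

lemma le_QQ (c : V → V → ℝ) (f : (V → V) → ℝ) (h : Finset V → V) {M N : V → V} {o1 o2 : Ob V}
    (hv : VP blk M N o1 o2) : errS c f h o1 o2 + locS c f h o1 o2 ≤ QQ c f blk h M N := by
  classical
  have nn : ∀ p1 p2 : Ob V, 0 ≤ @ite ℝ (VP blk M N p1 p2) (Classical.propDecidable _)
      (errS c f h p1 p2 + locS c f h p1 p2) 0 := by
    intro p1 p2
    split_ifs
    · exact add_nonneg (errS_nonneg _ _ _ _ _) (locS_nonneg _ _ _ _ _)
    · exact le_rfl
  refine le_trans ?_ (single_le_sum (fun p1 _ => sum_nonneg fun p2 _ => nn p1 p2) (mem_univ o1))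
  refine le_trans ?_ (single_le_sum (fun p2 _ => nn o1 p2) (mem_univ o2))
  rw [if_pos hv]

lemma QQ_nonneg (c : V → V → ℝ) (f : (V → V) → ℝ) (blk : Finset V → V → Finset V)
    (h : Finset V → V) (M N : V → V) : 0 ≤ QQ c f blk h M N := by
  refine sum_nonneg fun p1 _ => sum_nonneg fun p2 _ => ?_
  split_ifs
  · exact add_nonneg (errS_nonneg _ _ _ _ _) (locS_nonneg _ _ _ _ _)
  · exact le_rfl

lemma err_le (c : V → V → ℝ) (f : (V → V) → ℝ) {M N : V → V} {o1 o2 : Ob V}
    (hv : VP blk M N o1 o2) {b : Bool} {z : V × (V → V)} (hz : z ∈ Cfg h o1 o2 b) :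
    |mu c f (SU h o1 o2) (att o1 true z.1 ∘ z.2) - mu c f (SU h o1 o2) (att o1 false z.1 ∘ z.2) -
      Db c f h o1| ≤ √(QQ c f blk h M N) := by
  refine Real.abs_le_sqrt (le_trans ?_ ((le_add_of_nonneg_right (locS_nonneg c f h o1 o2)).trans
    (le_QQ c f h hv)))
  refine le_trans ?_ (single_le_sum (fun b _ => sum_nonneg fun _ _ => sq_nonneg _) (mem_univ b))
  exact single_le_sum (f := fun z : V × (V → V) => (mu c f (SU h o1 o2) (att o1 true z.1 ∘ z.2) -
    mu c f (SU h o1 o2) (att o1 false z.1 ∘ z.2) - Db c f h o1) ^ 2) (fun _ _ => sq_nonneg _) hz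

lemma loc_le' (c : V → V → ℝ) (f : (V → V) → ℝ) {M N : V → V} {o1 o2 : Ob V}
    (hv : VP blk M N o1 o2) {a b : Bool} {B B' : V → V} (hB : B ∈ Exs h o1 o2 a b)
    (hB' : B' ∈ Exs h o1 o2 a b) :
    |mu c f (SU h o1 o2) B - mu c f (SU h o1 o2) B'| ≤ √(QQ c f blk h M N) := by
  refine Real.abs_le_sqrt (le_trans ?_ ((le_add_of_nonneg_left (errS_nonneg c f h o1 o2)).trans
    (le_QQ c f h hv)))
  refine le_trans ?_ (single_le_sum (fun a _ => sum_nonneg fun _ _ => sum_nonneg fun _ _ =>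
    sum_nonneg fun _ _ => sq_nonneg _) (mem_univ a))
  refine le_trans ?_ (single_le_sum (fun b _ => sum_nonneg fun _ _ =>
    sum_nonneg fun _ _ => sq_nonneg _) (mem_univ b))
  refine le_trans ?_ (single_le_sum (fun b _ => sum_nonneg fun _ _ => sq_nonneg _) hB)
  exact single_le_sum (f := fun B' => (mu c f (SU h o1 o2) B - mu c f (SU h o1 o2) B') ^ 2)
    (fun _ _ => sq_nonneg _) hB'

lemma exs_comm (h : Finset V → V) (o1 o2 : Ob V) (a b : Bool) :
    Exs h o2 o1 b a = Exs h o1 o2 a b := by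
  ext B
  simp only [Exs, mem_filter, SU_comm h o2 o1, and_comm]

/-- the restriction of a matching to a closed set -/
def rs (P : Finset V) (M : V → V) : V → V := fun v => if v ∈ P then M v else v

lemma rs_mem {P : Finset V} {M : V → V} (hM : M ∈ PMon univ) (h : ∀ v ∈ P, M v ∈ P) :
    rs P M ∈ PMon P := by
  have hM' := mem_PM.1 hM
  refine mem_PMon.2 fun v => ?_
  by_cases hv : v ∈ P
  · simp only [rs, hv, h v hv, if_true, iff_true]
    exact hM' v
  · simp [rs, hv]

omit [Fintype V] in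
lemma sub_rs {P : Finset V} {M : V → V} : Sub (rs P M) M := by
  intro v hv
  by_cases h : v ∈ P
  · simp [rs, h]
  · simp [rs, h] at hv

omit [Fintype V] in
lemma sub_rs' {P : Finset V} {B M : V → V} (h : Sub B M) (hs : ∀ v, B v ≠ v → v ∈ P) :
    Sub B (rs P M) := by
  intro v hv
  simp [rs, hs v hv, h v hv]

open Classical in
lemma one (f : (V → V) → ℝ) {M N : V → V}
    (hM : M ∈ PMon univ) (hN : N ∈ PMon univ) {k : V} {o : Ob V} (ho : Arc o)
    (hP : (o.P : Set V) = Orb M N k) (h1 : Sub (o.A false) M) (h2 : Sub (o.A true) N) :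
    (f M - f (mix (Orb M N k) M N)) ^ 2 ≤ 2 * (∑ o : Ob V,
      (if Arc o ∧ Even o.P.card ∧ Sub (att o false o.s) M ∧ Sub (att o true o.s) N then
        dev c f h o o.s (att o false o.s ∘ M) else 0)) + 2 * Db c f h o ^ 2 := by
  have hm : ∀ v, v ∈ o.P ↔ v ∈ Orb M N k := fun v => by rw [← hP, mem_coe]
  have cM : ∀ v ∈ o.P, M v ∈ o.P := fun v hv => (hm _).2 (PA.orbM ((hm v).1 hv))
  have cN : ∀ v ∈ o.P, N v ∈ o.P := fun v hv => (hm _).2 (PA.orbN ((hm v).1 hv))
  have hev : Even o.P.card := PMon_even (rs_mem hM cM)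
  have hno : ¬ Odd o.P.card := Nat.not_odd_iff_even.2 hev
  have hok : OK o.P o.s := fun e => absurd e hno
  have hS : SP o.P o.s = o.P := if_neg hno
  have e1 : att o false o.s = rs o.P M :=
    att_eq ho hok (by rw [hS]; exact rs_mem hM cM) (sub_rs' h1 (ho.supp _))
  have e2 : att o true o.s = rs o.P N :=
    att_eq ho hok (by rw [hS]; exact rs_mem hN cN) (sub_rs' h2 (ho.supp _))
  have hM' := mem_PM.1 hM
  have e3 : att o true o.s ∘ (att o false o.s ∘ M) = mix (Orb M N k) M N := by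
    funext v
    rw [e1, e2]
    by_cases hv : v ∈ o.P
    · simp only [Function.comp, rs, mix, cM v hv, (hM' v).1, hv, if_true, (hm v).1 hv]
    · have h3 : M v ∉ o.P := fun e => hv (by simpa [(hM' v).1] using cM _ e)
      have h4 : v ∉ Orb M N k := fun e => hv ((hm v).2 e)
      simp only [Function.comp, rs, mix, h3, h4, if_false]
  have e4 : att o false o.s ∘ (att o false o.s ∘ M) = M := comp_cancel (att_mem ho hok _) M
  have h5 : dev c f h o o.s (att o false o.s ∘ M) ≤ ∑ o : Ob V,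
      (if Arc o ∧ Even o.P.card ∧ Sub (att o false o.s) M ∧ Sub (att o true o.s) N then
        dev c f h o o.s (att o false o.s ∘ M) else 0) := by
    refine le_trans ?_ (single_le_sum (fun p _ => ?_) (mem_univ o))
    · rw [if_pos ⟨ho, hev, e1 ▸ sub_rs, e2 ▸ sub_rs⟩]
    · split_ifs
      · exact sq_nonneg _
      · exact le_rfl
  rw [dev, e3, e4] at h5
  nlinarith [sq_nonneg (f (mix (Orb M N k) M N) - f M - 2 * Db c f h o)]

lemma sum_QQ (c : V → V → ℝ) (f : (V → V) → ℝ) (blk : Finset V → V → Finset V)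
    (h : Finset V → V) :
    ∑ M ∈ PMon univ, ∑ N ∈ PMon univ, W c M * W c N * QQ c f blk h M N =
      ∑ o1, ∑ o2, Fl c blk o1 o2 * errS c f h o1 o2 +
        ∑ o1, ∑ o2, Fl c blk o1 o2 * locS c f h o1 o2 := by
  simp only [← sum_add_distrib, ← mul_add, Fl, QQ, sum_mul, mul_sum]
  simp only [sum_comm (s := PMon (univ : Finset V)) (t := (univ : Finset (Ob V)))]
  refine sum_congr rfl fun o1 _ => sum_congr rfl fun o2 _ => sum_congr rfl fun M _ =>
    sum_congr rfl fun N _ => ?_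
  split_ifs <;> simp

end PIX

open PIX

theorem split_le (hh : ∀ P : Finset V, OK P (h P)) (f : (V → V) → ℝ) {M N : V → V}
    {o o1 o2 : Ob V} (ho : Arc o) (hv : VP blk M N o1 o2) (hP : o.P = o1.P ∪ o2.P)
    (hA : ∀ a, Sub (o1.A a) (o.A a) ∧ Sub (o2.A a) (o.A a)) :
    |Db c f h o - Db c f h o1 - Db c f h o2| ≤ 5 * √(QQ c f blk h M N) := by
  have h2 := hv.two
  obtain ⟨z, hz⟩ := h2.cfg hh true
  obtain ⟨z', hz'⟩ := h2.symm.cfg hh false
  have hS : SP o.P (h o.P) = SU h o1 o2 := by rw [hP, SU]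
  have hE : ∀ a, att o a (h o.P) ∈ Exs h o1 o2 a a := fun a => by
    classical
    exact mem_filter.2 ⟨hS ▸ att_mem ho (hh _) a, (hA a).1.trans (sub_att ho (hh _) a),
      (hA a).2.trans (sub_att ho (hh _) a)⟩
  have t1 := loc_le' c f hv (hE true) (h2.cfg_exs hz true)
  have t2 := err_le c f hv hz
  have t3 := loc_le' c f hv (h2.cfg_exs hz false)
    (exs_comm h o1 o2 false true ▸ h2.symm.cfg_exs hz' true)
  have t4 := err_le c f hv.symm hz'
  have t5 := loc_le' c f hv (exs_comm h o1 o2 false false ▸ h2.symm.cfg_exs hz' false) (hE false)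
  rw [SU_comm h o2 o1] at t4
  rw [Db, hS]
  rw [abs_le] at t1 t2 t3 t4 t5 ⊢
  constructor <;> linarith [t1.1, t1.2, t2.1, t2.2, t3.1, t3.2, t4.1, t4.2, t5.1, t5.2]

theorem pi_lam (hc : Ker c) (hp : Pos c) (he : Even (Fintype.card V)) (hl : Lam c L blk τ h)
    (f : (V → V) → ℝ) :
    ∑ M ∈ PMon univ, ∑ N ∈ PMon univ, W c M * W c N * (f M - f N) ^ 2 ≤
      200 * (Fintype.card V : ℝ) ^ 25 * L ^ 17 * (Ecol c f + H c univ * Eloc c f) := by
  classical
  have hh : ∀ P : Finset V, OK P (h P) := fun P => hl.out P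
  have hC : Cl univ (id : V → V) = PMon univ := by
    ext X
    simp [mem_Cl]
  have h1 := tele c univ id f
  rw [hC] at h1
  have hn0 : (0 : ℝ) ≤ Fintype.card V := Nat.cast_nonneg _
  have h2 : ∀ k, ∑ M ∈ PMon univ, ∑ N ∈ PMon univ,
      W c M * W c N * (f M - f (mix (Orb M N k) M N)) ^ 2 ≤
      2 * CLs c f h + 50 * (Fintype.card V : ℝ) ^ 2 *
        ∑ M ∈ PMon univ, ∑ N ∈ PMon univ, W c M * W c N * QQ c f blk h M N := by
    intro k
    refine le_trans ?_ (add_le_add_left (mul_le_mul_of_nonneg_left (root_le (c := c) hh f)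
      zero_le_two) _)
    simp only [mul_sum (s := PMon (univ : Finset V)), ← sum_add_distrib]
    refine sum_le_sum fun M hM => sum_le_sum fun N hN => ?_
    obtain ⟨o, ho, hP, s1, s2, hb⟩ := root hl.two hl.mono hM hN k (Db c f h)
      (E := 5 * √(QQ c f blk h M N)) (by positivity) (fun o ho h1 => Db_single ho h1)
      (fun o o1 o2 ho hv hP hA => split_le hh f ho hv hP hA)
    have h3 := one (c := c) (h := h) f hM hN ho hP s1 s2
    have h4 : Db c f h o ^ 2 ≤ 25 * (Fintype.card V : ℝ) ^ 2 * QQ c f blk h M N := by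
      rw [← sq_abs]
      refine (pow_le_pow_left₀ (abs_nonneg _) hb 2).trans (le_of_eq ?_)
      rw [mul_pow, mul_pow, Real.sq_sqrt (QQ_nonneg _ _ _ _ _ _)]
      ring
    have w := mul_nonneg (W_nonneg c M) (W_nonneg c N)
    have h5 := mul_le_mul_of_nonneg_left (h3.trans (add_le_add_right
      (mul_le_mul_of_nonneg_left h4 zero_le_two) _)) w
    refine h5.trans (le_of_eq ?_)
    ring
  have h3 := sum_le_sum fun k (_ : k ∈ (univ : Finset V)) => h2 k
  rw [sum_const, card_univ, nsmul_eq_mul, sum_QQ] at h3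
  have h4 := child_le hc hp he hl f
  have h5 := loc_le hc hp he hl f
  have h6 := CLs_le hc hp he hh f
  have e0 := Ecol_nonneg c f
  have e1 := mul_nonneg (H_nonneg c univ) (Eloc_nonneg c f)
  have hL := hl.one
  refine h1.trans ((mul_le_mul_of_nonneg_left h3 hn0).trans ?_)
  generalize H c univ * Eloc c f = y at *
  generalize Ecol c f = x at *
  generalize CLs c f h = z at *
  generalize ∑ o1, ∑ o2, Fl c blk o1 o2 * errS c f h o1 o2 = s1 at *
  generalize ∑ o1, ∑ o2, Fl c blk o1 o2 * locS c f h o1 o2 = s2 at *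
  rcases Nat.eq_zero_or_pos (Fintype.card V) with h0 | h0
  · simp [h0]
  have hn : (1 : ℝ) ≤ Fintype.card V := by exact_mod_cast h0
  generalize (Fintype.card V : ℝ) = n at *
  have a1 : n ^ 8 ≤ n ^ 25 * L ^ 17 :=
    (pow_le_pow_right₀ hn (by norm_num)).trans (le_mul_of_one_le_right (by positivity)
      (one_le_pow₀ hL))
  have a2 : n ^ 24 * L ^ 12 ≤ n ^ 25 * L ^ 17 :=
    mul_le_mul (pow_le_pow_right₀ hn (by norm_num)) (pow_le_pow_right₀ hL (by norm_num))
      (by positivity) (by positivity)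
  have a3 : s1 ≤ 2 * n ^ 15 * L ^ 17 * (n ^ 6 * x) :=
    h4.trans (mul_le_mul_of_nonneg_left h6 (by positivity))
  have a4 : 0 ≤ n ^ 25 * L ^ 17 * x := by positivity
  calc n * (n * (2 * z + 50 * n ^ 2 * (s1 + s2)))
      ≤ n * (n * (2 * (n ^ 6 * x) + 50 * n ^ 2 * (2 * n ^ 15 * L ^ 17 * (n ^ 6 * x) +
          4 * n ^ 20 * L ^ 12 * y))) := by gcongr
    _ = 2 * (n ^ 8 * x) + 100 * (n ^ 25 * L ^ 17 * x) + 200 * (n ^ 24 * L ^ 12 * y) := by ring
    _ ≤ 2 * (n ^ 25 * L ^ 17 * x) + 100 * (n ^ 25 * L ^ 17 * x) +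
          200 * (n ^ 25 * L ^ 17 * y) := by gcongr
    _ ≤ _ := by nlinarith

theorem pi_marg (hc : Ker c) (hp : Pos c) (he : Even (Fintype.card V)) (h2 : 2 ≤ Fintype.card V)
    (hm : Marg c (del V / 16)) (f : (V → V) → ℝ) :
    ∑ M ∈ PMon univ, ∑ N ∈ PMon univ, W c M * W c N * (f M - f N) ^ 2 ≤
      (Fintype.card V : ℝ) ^ 764 * (Ecol c f + H c univ * Eloc c f) := by
  have hn : (2 : ℝ) ≤ Fintype.card V := by exact_mod_cast h2
  have hd : 0 < del V / 16 := by unfold del; positivity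
  have hd1 : del V / 16 ≤ 1 := by
    unfold del
    rw [div_le_one (by norm_num), div_le_iff₀ (by positivity)]
    nlinarith
  obtain ⟨blk, τ, h, hl⟩ := exists_lam hc hp he h2 hd hd1 hm
  refine (pi_lam hc hp he hl f).trans (mul_le_mul_of_nonneg_right ?_
    (add_nonneg (Ecol_nonneg c f) (mul_nonneg (H_nonneg c univ) (Eloc_nonneg c f))))
  have e : 24 * (Fintype.card V : ℝ) / (del V / 16) ^ 4 =
      15728640000 * (Fintype.card V : ℝ) ^ 9 := by
    unfold del
    field_simp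
    norm_num
  rw [e]
  generalize (Fintype.card V : ℝ) = n at *
  have a1 : (15728640000 : ℝ) ≤ n ^ 34 :=
    le_trans (by norm_num) (pow_le_pow_left₀ (by norm_num) hn 34)
  have a2 : (200 : ℝ) ≤ n ^ 8 := le_trans (by norm_num) (pow_le_pow_left₀ (by norm_num) hn 8)
  calc 200 * n ^ 25 * (15728640000 * n ^ 9) ^ 17
      ≤ n ^ 8 * n ^ 25 * (n ^ 34 * n ^ 9) ^ 17 := by gcongr
    _ = n ^ 764 := by rw [← pow_add, ← pow_add, ← pow_mul, ← pow_add]

end Vale.Agent.P308
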