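import Vale.Agent.P308.PI
import Vale.Agent.P308.Mark

/-! The perfect matchings as a particle system (job PIS). -/

namespace Vale.Agent.P308

open Finset

variable {V : Type} [Fintype V] [DecidableEq V] {c c' : V → V → ℝ}

/-- the perfect matchings -/
abbrev PMs (V : Type) [Fintype V] [DecidableEq V] : Type := {X : V → V // X ∈ PMon univ}

noncomputable def piK (c : V → V → ℝ) (X : PMs V) : ℝ := W c X.1 / H c univ

/-- a transposition or a collision -/
noncomputable def mvS (θ : Bool × V × V × V) (z : PMs V × PMs V) : PMs V × PMs V :=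
  if θ.1 = true then (⟨cj θ.2.2.1 θ.2.2.2 z.1.1, cj_mem z.1.2 _ _⟩, z.2) else
    (⟨(Col θ.2.1 θ.2.2.1 θ.2.2.2 z.1.1 z.2.1).1, (Col_mem z.1.2 z.2.2 _ _ _).1⟩,
      ⟨(Col θ.2.1 θ.2.2.1 θ.2.2.2 z.1.1 z.2.1).2, (Col_mem z.1.2 z.2.2 _ _ _).2⟩)

/-- the entries agree up to the factor `1 + x` -/
def Near (c c' : V → V → ℝ) (x : ℝ) : Prop :=
  ∀ u v, u ≠ v → c u v ≤ (1 + x) * c' u v ∧ c' u v ≤ (1 + x) * c u v

lemma piK_sum (hc : Ker c) (hp : Pos c) (he : Even (Fintype.card V)) : ∑ X, piK c X = 1 := by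
  have hH : 0 < H c univ := H_pos hc hp (by rwa [card_univ])
  simp only [piK, ← sum_div]
  rw [sum_coe_sort (PMon univ) (W c)]
  exact div_self hH.ne'

lemma sum_piK (c : V → V → ℝ) (g : (V → V) → ℝ) :
    ∑ X, piK c X * g X.1 = (∑ X ∈ PMon univ, W c X * g X) / H c univ := by
  rw [sum_div, ← sum_coe_sort (PMon univ) fun X => W c X * g X / H c univ]
  exact sum_congr rfl fun X _ => by rw [piK, div_mul_eq_mul_div]

theorem sys_piK (hc : Ker c) (hp : Pos c) (he : Even (Fintype.card V)) : Pt.Sys (piK c) mvS := by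
  have hH : 0 < H c univ := H_pos hc hp (by rwa [card_univ])
  refine ⟨fun X => div_pos (W_pos hp _) hH, piK_sum hc hp he, ?_⟩
  rintro ⟨b, k, p, q⟩ ⟨X, Y⟩
  cases b
  · have h := Col_Col k p q X.1 Y.1
    simp only [mvS, Bool.false_eq_true, if_false]
    exact Prod.ext (Subtype.ext (congrArg Prod.fst h)) (Subtype.ext (congrArg Prod.snd h))
  · simp only [mvS, if_true]
    exact Prod.ext (Subtype.ext (cj_cj p q X.1)) rfl

namespace PISA

lemma sum_pair (F : (V → V) → (V → V) → ℝ) :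
    ∑ z : PMs V × PMs V, F z.1.1 z.2.1 = ∑ X ∈ PMon univ, ∑ Y ∈ PMon univ, F X Y := by
  rw [Fintype.sum_prod_type, ← sum_coe_sort (PMon univ) fun X => ∑ Y ∈ PMon univ, F X Y]
  exact sum_congr rfl fun X _ => sum_coe_sort (PMon univ) (F X.1)

lemma Eloc_nonneg (c : V → V → ℝ) (f : (V → V) → ℝ) : 0 ≤ Eloc c f :=
  sum_nonneg fun _ _ => sum_nonneg fun _ _ => sum_nonneg fun _ _ =>
    mul_nonneg (le_min (W_nonneg _ _) (W_nonneg _ _)) (sq_nonneg _)

lemma col_part (hc : Ker c) (hp : Pos c) (he : Even (Fintype.card V)) (g : (V → V) → ℝ)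
    (k p q : V) :
    ∑ z : PMs V × PMs V, piK c z.1 * piK c z.2 * Pt.al (piK c) mvS (false, k, p, q) z *
      (g z.1.1 + g z.2.1 - g (mvS (false, k, p, q) z).1.1 - g (mvS (false, k, p, q) z).2.1) ^ 2 =
    (∑ X ∈ PMon univ, ∑ Y ∈ PMon univ,
      min (W c X * W c Y) (W c (Col k p q X Y).1 * W c (Col k p q X Y).2) *
        (g X + g Y - g (Col k p q X Y).1 - g (Col k p q X Y).2) ^ 2) / H c univ ^ 2 := by
  have hH : 0 < H c univ := H_pos hc hp (by rwa [card_univ])
  rw [← sum_pair, sum_div]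
  refine sum_congr rfl fun z _ => ?_
  rw [Pt.al_min (sys_piK hc hp he)]
  simp only [mvS, Bool.false_eq_true, if_false, piK]
  rw [div_mul_div_comm, div_mul_div_comm, min_div_div_right (by positivity), ← sq]
  ring

lemma loc_part (hc : Ker c) (hp : Pos c) (he : Even (Fintype.card V)) (g : (V → V) → ℝ)
    (k p q : V) :
    ∑ z : PMs V × PMs V, piK c z.1 * piK c z.2 * Pt.al (piK c) mvS (true, k, p, q) z *
      (g z.1.1 + g z.2.1 - g (mvS (true, k, p, q) z).1.1 - g (mvS (true, k, p, q) z).2.1) ^ 2 =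
    H c univ * (∑ X ∈ PMon univ,
      min (W c X) (W c (cj p q X)) * (g X - g (cj p q X)) ^ 2) / H c univ ^ 2 := by
  have hH : 0 < H c univ := H_pos hc hp (by rwa [card_univ])
  have e : H c univ * (∑ X ∈ PMon univ,
      min (W c X) (W c (cj p q X)) * (g X - g (cj p q X)) ^ 2) =
      ∑ X ∈ PMon univ, ∑ Y ∈ PMon univ,
        min (W c X) (W c (cj p q X)) * W c Y * (g X - g (cj p q X)) ^ 2 := by
    rw [mul_sum]
    refine sum_congr rfl fun X _ => ?_
    rw [H, sum_mul]
    exact sum_congr rfl fun Y _ => by ring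
  rw [e, ← sum_pair, sum_div]
  refine sum_congr rfl fun z _ => ?_
  rw [Pt.al_min (sys_piK hc hp he)]
  simp only [mvS, if_true, piK]
  rw [div_mul_div_comm, div_mul_div_comm, min_div_div_right (by positivity), ← sq,
    ← min_mul_of_nonneg _ _ (W_nonneg c z.2.1)]
  ring

end PISA

theorem piab (hc : Ker c) (hp : Pos c) (he : Even (Fintype.card V)) (h2 : 2 ≤ Fintype.card V)
    (hm : Marg c (del V / 16)) : Pt.PIab (piK c) mvS ((Fintype.card V : ℝ) ^ 764) := by
  classical
  intro f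
  have hH : 0 < H c univ := H_pos hc hp (by rwa [card_univ])
  obtain ⟨g, rfl⟩ : ∃ g : (V → V) → ℝ, f = fun X => g X.1 :=
    ⟨fun X => if h : X ∈ PMon univ then f ⟨X, h⟩ else 0, funext fun X => by
      dsimp only
      rw [dif_pos X.2]⟩
  have h := pi_marg hc hp he h2 hm g
  rw [GA.pair_sum] at h
  rw [sum_piK c fun X => g X ^ 2, sum_piK c g, Fintype.sum_prod_type, Fintype.sum_bool]
  simp only [Fintype.sum_prod_type (α₂ := V × V), Fintype.sum_prod_type (α₁ := V) (α₂ := V),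
    PISA.col_part hc hp he, PISA.loc_part hc hp he]
  have e1 : ∑ k : V, ∑ p : V, ∑ q : V, (∑ X ∈ PMon univ, ∑ Y ∈ PMon univ,
      min (W c X * W c Y) (W c (Col k p q X Y).1 * W c (Col k p q X Y).2) *
        (g X + g Y - g (Col k p q X Y).1 - g (Col k p q X Y).2) ^ 2) / H c univ ^ 2 =
      Ecol c g / H c univ ^ 2 := by
    simp only [Ecol, sum_div]
  have e2 : ∑ _k : V, ∑ p : V, ∑ q : V, H c univ * (∑ X ∈ PMon univ,
      min (W c X) (W c (cj p q X)) * (g X - g (cj p q X)) ^ 2) / H c univ ^ 2 =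
      Fintype.card V * (H c univ * Eloc c g) / H c univ ^ 2 := by
    simp only [← sum_div, ← mul_sum, sum_const, card_univ, nsmul_eq_mul, Eloc]
    ring
  rw [e1, e2]
  have n1 : (1 : ℝ) ≤ Fintype.card V := by exact_mod_cast (by omega : 1 ≤ Fintype.card V)
  have l0 := mul_nonneg hH.le (PISA.Eloc_nonneg c g)
  have c0 := Ecol_nonneg c g
  have hZ : ∑ X ∈ PMon univ, W c X = H c univ := rfl
  rw [hZ] at h
  have e3 : ∀ a b : ℝ, a / H c univ - (b / H c univ) ^ 2 = (H c univ * a - b ^ 2) / H c univ ^ 2 :=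
    fun a b => by field_simp
  rw [e3, ← add_div, ← mul_div_assoc]
  refine div_le_div_of_nonneg_right ?_ (by positivity)
  have p0 : (0 : ℝ) ≤ (Fintype.card V : ℝ) ^ 764 := by positivity
  have h3 : (Fintype.card V : ℝ) ^ 764 * (Ecol c g + H c univ * Eloc c g) ≤
      (Fintype.card V : ℝ) ^ 764 * (Fintype.card V * (H c univ * Eloc c g) + Ecol c g) :=
    mul_le_mul_of_nonneg_left (by nlinarith) p0
  have h4 := mul_nonneg p0 (add_nonneg c0 l0)
  linarith

lemma piK_near (hc : Ker c) (hp : Pos c) (hc' : Ker c') (hp' : Pos c') (he : Even (Fintype.card V))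
    {x ξ : ℝ} (hx : 0 ≤ x) (h : Near c c' x) (hξ : (1 + x) ^ (2 * Fintype.card V) ≤ 1 + ξ)
    (X : PMs V) : |piK c X - piK c' X| ≤ ξ * piK c' X := by
  have key : ∀ {a b : V → V → ℝ}, Ker a → Pos a → Ker b → Pos b →
      (∀ u v, u ≠ v → a u v ≤ (1 + x) * b u v) → (∀ u v, u ≠ v → b u v ≤ (1 + x) * a u v) →
      piK a X ≤ (1 + ξ) * piK b X := by
    intro a b ha hpa hb hpb h1 h2
    have hA : 0 < H a univ := H_pos ha hpa (by rwa [card_univ])
    have hB : 0 < H b univ := H_pos hb hpb (by rwa [card_univ])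
    have w := W_le_of_le (by linarith) h1 X.1
    have z := H_le_of_le (by linarith) h2 univ
    have w0 := W_nonneg b X.1
    rw [piK, piK, ← mul_div_assoc, div_le_div_iff₀ hA hB]
    rw [two_mul, pow_add] at hξ
    calc W a X.1 * H b univ ≤ ((1 + x) ^ Fintype.card V * W b X.1) *
          ((1 + x) ^ Fintype.card V * H a univ) :=
          mul_le_mul w z hB.le (by positivity)
      _ = ((1 + x) ^ Fintype.card V * (1 + x) ^ Fintype.card V) * (W b X.1 * H a univ) := by ring
      _ ≤ (1 + ξ) * (W b X.1 * H a univ) := mul_le_mul_of_nonneg_right hξ (by positivity)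
      _ = _ := by ring
  have h1 := key hc hp hc' hp' (fun u v e => (h u v e).1) fun u v e => (h u v e).2
  have h2 := key hc' hp' hc hp (fun u v e => (h u v e).2) fun u v e => (h u v e).1
  have x0 : 0 ≤ ξ := by
    have := one_le_pow₀ (n := 2 * Fintype.card V) (show 1 ≤ 1 + x by linarith)
    linarith
  have p1 := ((sys_piK hc' hp' he).pos X).le
  rw [abs_le]
  refine ⟨?_, by linarith⟩
  rcases le_total (piK c X) (piK c' X) with e | e
  · have := mul_le_mul_of_nonneg_left e x0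
    linarith
  · have := mul_nonneg x0 p1
    linarith

lemma Marg.near (hc' : Ker c') {δ x : ℝ} (hδ : 0 ≤ δ) (hx : 0 ≤ x) (hx1 : x ≤ 1) (h : Near c c' x)
    (h2 : (1 + x) ^ Fintype.card V ≤ 2) (hm : Marg c δ) : Marg c' (δ / 8) := by
  intro u v e
  have h1 := hm u v e
  have z1 : H c' univ ≤ 2 * H c univ :=
    (H_le_of_le (by linarith) (fun u v e => (h u v e).2) univ).trans
      (mul_le_mul_of_nonneg_right h2 (H_nonneg _ _))
  have z2 : Q c u v ≤ 2 * Q c' u v :=
    (H_le_of_le (by linarith) (fun u v e => (h u v e).1) _).trans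
      (mul_le_mul_of_nonneg_right h2 (H_nonneg _ _))
  have c0 := hc'.nonneg u v
  have z3 : c u v ≤ 2 * c' u v := (h u v e).1.trans (mul_le_mul_of_nonneg_right (by linarith) c0)
  have z4 : c u v * Q c u v ≤ 2 * c' u v * (2 * Q c' u v) :=
    mul_le_mul z3 z2 (Q_nonneg _ _ _) (by linarith)
  have z5 := mul_le_mul_of_nonneg_left z1 hδ
  linarith

end Vale.Agent.P308
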