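import Mathlib

/-! Particle systems with binary collisions (definitions). -/

namespace Vale.Agent.P308.Pt

open Finset Function

variable {Ω Θ : Type} [Fintype Ω] [Fintype Θ] {N : ℕ}

/-- a positive probability vector and a family of involutions of the pairs -/
structure Sys (π : Ω → ℝ) (mv : Θ → Ω × Ω → Ω × Ω) : Prop where
  pos : ∀ a, 0 < π a
  sum : ∑ a, π a = 1
  inv : ∀ θ z, mv θ (mv θ z) = z

/-- the acceptance probability -/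
noncomputable def al (π : Ω → ℝ) (mv : Θ → Ω × Ω → Ω × Ω) (θ : Θ) (z : Ω × Ω) : ℝ :=
  min 1 (π (mv θ z).1 * π (mv θ z).2 / (π z.1 * π z.2))

/-- the Poincare inequality for the linearised collision form -/
def PIab (π : Ω → ℝ) (mv : Θ → Ω × Ω → Ω × Ω) (C : ℝ) : Prop :=
  ∀ f : Ω → ℝ, ∑ a, π a * f a ^ 2 - (∑ a, π a * f a) ^ 2 ≤ C * ∑ θ, ∑ z : Ω × Ω,
    π z.1 * π z.2 * al π mv θ z * (f z.1 + f z.2 - f (mv θ z).1 - f (mv θ z).2) ^ 2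

/-- the mean under the product law -/
noncomputable def Ex (π : Ω → ℝ) (F : (Fin N → Ω) → ℝ) : ℝ := ∑ x, (∏ i, π (x i)) * F x

/-- the particles `i`, `j` collide -/
def nx (mv : Θ → Ω × Ω → Ω × Ω) (i j : Fin N) (θ : Θ) (x : Fin N → Ω) : Fin N → Ω :=
  update (update x i (mv θ (x i, x j)).1) j (mv θ (x i, x j)).2

/-- one step of the particle system -/
noncomputable def PN (π : Ω → ℝ) (mv : Θ → Ω × Ω → Ω × Ω) (g : (Fin N → Ω) → ℝ)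
    (x : Fin N → Ω) : ℝ :=
  (∑ i, ∑ j, ∑ θ, if i = j then g x else
    al π mv θ (x i, x j) * g (nx mv i j θ x) + (1 - al π mv θ (x i, x j)) * g x) /
      ((N : ℝ) ^ 2 * Fintype.card Θ)

/-- a uniform number of steps below `L` -/
noncomputable def ces (π : Ω → ℝ) (mv : Θ → Ω × Ω → Ω × Ω) (L : ℕ) (g : (Fin N → Ω) → ℝ)
    (x : Fin N → Ω) : ℝ :=
  (∑ l ∈ range L, (PN π mv)^[l] g x) / L

/-- the energy -/
noncomputable def DN (π : Ω → ℝ) (mv : Θ → Ω × Ω → Ω × Ω) (h : (Fin N → Ω) → ℝ) : ℝ :=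
  ∑ i, ∑ j, ∑ θ, if i = j then 0 else
    Ex π fun x => al π mv θ (x i, x j) * (h x - h (nx mv i j θ x)) ^ 2

def T3 (N : ℕ) : Finset (Fin N × Fin N × Fin N) :=
  univ.filter fun τ => τ.1 ≠ τ.2.1 ∧ τ.1 ≠ τ.2.2 ∧ τ.2.1 ≠ τ.2.2

/-- the conditional mean given three particles, averaged over the triples -/
noncomputable def s3 (π : Ω → ℝ) (h : (Fin N → Ω) → ℝ) (a b d : Ω) : ℝ :=
  (∑ τ ∈ T3 N, Ex π fun x => h (update (update (update x τ.1 a) τ.2.1 b) τ.2.2 d)) / (T3 N).card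

noncomputable def D3 (π : Ω → ℝ) (mv : Θ → Ω × Ω → Ω × Ω) (s : Ω → Ω → Ω → ℝ) : ℝ :=
  ∑ d, π d * ∑ θ, ∑ z : Ω × Ω,
    π z.1 * π z.2 * al π mv θ z * (s z.1 z.2 d - s (mv θ z).1 (mv θ z).2 d) ^ 2

noncomputable def m2 (π : Ω → ℝ) (s : Ω → Ω → Ω → ℝ) (a b : Ω) : ℝ := ∑ d, π d * s a b d
noncomputable def m1 (π : Ω → ℝ) (s : Ω → Ω → Ω → ℝ) (a : Ω) : ℝ := ∑ b, π b * m2 π s a b
noncomputable def m0 (π : Ω → ℝ) (s : Ω → Ω → Ω → ℝ) : ℝ := ∑ a, π a * m1 π s a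

/-- the part of degree three -/
noncomputable def f3 (π : Ω → ℝ) (s : Ω → Ω → Ω → ℝ) (a b d : Ω) : ℝ :=
  s a b d - m2 π s a b - m2 π s a d - m2 π s b d + m1 π s a + m1 π s b + m1 π s d - m0 π s

noncomputable def n3 (π : Ω → ℝ) (u : Ω → Ω → Ω → ℝ) : ℝ :=
  ∑ a, ∑ b, ∑ d, π a * π b * π d * u a b d ^ 2

structure Sym3 (s : Ω → Ω → Ω → ℝ) : Prop where
  s12 : ∀ a b d, s a b d = s b a d
  s23 : ∀ a b d, s a b d = s a d b

end Vale.Agent.P308.Pt
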