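import Vale.Agent.P308.AnoF
import Vale.Agent.P308.AnoA

/-! The product law is transported along a small change of the weights (job Trans). -/

namespace Vale.Agent.P308.Pt

open Finset Function

variable {Ω Θ : Type} [Fintype Ω] [Fintype Θ] {N : ℕ} {π π0 : Ω → ℝ} {mv : Θ → Ω × Ω → Ω × Ω}

lemma prod_rem {ι : Type} (s : Finset ι) {φ : ι → ℝ} {ξ : ℝ} (h : ∀ i, |φ i| ≤ ξ)
    (h1 : s.card * ξ ≤ 1) : |∏ i ∈ s, (1 + φ i) - 1 - ∑ i ∈ s, φ i| ≤ (s.card * ξ) ^ 2 := by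
  classical
  induction s using Finset.induction_on with
  | empty => simp
  | insert i s hi ih =>
    have h0 : 0 ≤ ξ := (abs_nonneg _).trans (h i)
    rw [card_insert_of_notMem hi] at h1 ⊢
    push_cast at h1 ⊢
    have hk : (0 : ℝ) ≤ s.card := Nat.cast_nonneg _
    have h2 : s.card * ξ ≤ 1 := by nlinarith
    have h3 := ih h2
    have h4 : |∑ j ∈ s, φ j| ≤ s.card * ξ := by
      refine (abs_sum_le_sum_abs _ _).trans ?_
      simpa using sum_le_card_nsmul s (fun j => |φ j|) ξ fun j _ => h j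
    rw [prod_insert hi, sum_insert hi]
    have e : (1 + φ i) * ∏ j ∈ s, (1 + φ j) - 1 - (φ i + ∑ j ∈ s, φ j) =
        (∏ j ∈ s, (1 + φ j) - 1 - ∑ j ∈ s, φ j) +
          (φ i * (∏ j ∈ s, (1 + φ j) - 1 - ∑ j ∈ s, φ j) + φ i * ∑ j ∈ s, φ j) := by ring
    rw [e]
    refine (abs_add_le _ _).trans ((add_le_add h3 (abs_add_le _ _)).trans ?_)
    rw [abs_mul, abs_mul]
    have h5 := mul_le_mul (h i) h3 (abs_nonneg _) h0
    have h6 := mul_le_mul (h i) h4 (abs_nonneg _) h0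
    have h7 : ξ * (s.card * ξ) ^ 2 ≤ ξ * (s.card * ξ) :=
      mul_le_mul_of_nonneg_left (by nlinarith [mul_nonneg hk h0]) h0
    nlinarith [sq_nonneg ξ]

namespace TransAux

lemma var_bound [Nonempty Θ] (hs : Sys π mv) {C A : ℝ} (hC : 1 ≤ C) (hP : PIab π mv C)
    (hN : 3 ≤ N) {L : ℕ} (hL : N ^ 5 ≤ L)
    (hA' : 12000 * (C * Fintype.card Θ) ^ 2 ≤ A ^ 2 * N)
    {g : (Fin N → Ω) → ℝ} (hg : ∀ x, |g x| ≤ 1) :
    (N : ℝ) ^ 2 * ∑ a, π a * (m1 π (s3 π (ces π mv L g)) a - m0 π (s3 π (ces π mv L g))) ^ 2 ≤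
      A ^ 2 := by
  have hN0 : 0 < N := by omega
  have hL0 : 0 < L := lt_of_lt_of_le (by positivity) hL
  have n0 : (0 : ℝ) < N := by exact_mod_cast hN0
  have hT : (1 : ℝ) ≤ Fintype.card Θ := by exact_mod_cast Fintype.card_pos
  have v := var_one hs (by linarith) hP (s3_sym π (ces π mv L g))
  have d1 := (D3_le hs hN (ces π mv L g)).trans (DN_ces hs hN0 hL0 hg)
  have d2 := f3_le (fun a => (hs.pos a).le) hs.sum hN (ces_abs hs L hg)
  have d3 : 4 * (N : ℝ) ^ 2 * Fintype.card Θ / L ≤ 4 * Fintype.card Θ / (N : ℝ) ^ 3 := by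
    have : (N : ℝ) ^ 5 ≤ L := by exact_mod_cast hL
    calc 4 * (N : ℝ) ^ 2 * Fintype.card Θ / L ≤ 4 * (N : ℝ) ^ 2 * Fintype.card Θ / (N : ℝ) ^ 5 := by
          gcongr
      _ = _ := by field_simp
  have d4 : (27 : ℝ) / (T3 N).card ≤ 243 / 2 / (N : ℝ) ^ 3 := by
    have : 2 * (N : ℝ) ^ 3 ≤ 9 * (T3 N).card := by exact_mod_cast card_T3_ge hN
    have h3 : (0 : ℝ) < (N : ℝ) ^ 3 := by positivity
    rw [div_le_div_iff₀ (by linarith) h3]
    linarith
  generalize D3 π mv (s3 π (ces π mv L g)) = D at v d1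
  generalize n3 π (f3 π (s3 π (ces π mv L g))) = F at v d2
  generalize (∑ a, π a * (m1 π (s3 π (ces π mv L g)) a - m0 π (s3 π (ces π mv L g))) ^ 2) = W
    at v ⊢
  generalize (Fintype.card Θ : ℝ) = T at *
  have e1 : D * (N : ℝ) ^ 3 ≤ 4 * T := (le_div_iff₀ (by positivity)).1 (d1.trans d3)
  have e2 : F * (N : ℝ) ^ 3 ≤ 243 / 2 := (le_div_iff₀ (by positivity)).1 (d2.trans d4)
  have c0 : 0 ≤ C := by linarith
  have ct : 1 ≤ C * T := one_le_mul_of_one_le_of_one_le hC hT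
  have f1 := mul_le_mul_of_nonneg_right v (by positivity : (0 : ℝ) ≤ (N : ℝ) ^ 3)
  have f2 := mul_le_mul_of_nonneg_left e1 c0
  have f3 := mul_le_mul_of_nonneg_left e1 (by positivity : 0 ≤ C * T * C)
  have f4 := mul_le_mul_of_nonneg_left e2 (by positivity : 0 ≤ (C * T) ^ 2)
  have f5 : C * T ≤ (C * T) ^ 2 := by nlinarith
  refine le_of_mul_le_mul_right ?_ n0
  nlinarith

end TransAux

theorem transport [Nonempty Θ] (hs : Sys π mv) {C ξ A : ℝ} (hC : 1 ≤ C) (hP : PIab π mv C)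
    (h0 : ∑ a, π0 a = 1) (hξ : ∀ a, |π0 a - π a| ≤ ξ * π a) (h1 : N * ξ ≤ 1) (hN : 3 ≤ N)
    {L : ℕ} (hL : N ^ 5 ≤ L) (hA : 0 ≤ A) (hA' : 12000 * (C * Fintype.card Θ) ^ 2 ≤ A ^ 2 * N)
    {g : (Fin N → Ω) → ℝ} (hg : ∀ x, |g x| ≤ 1) :
    |Ex π0 (ces π mv L g) - Ex π g| ≤ ξ * A + (N * ξ) ^ 2 := by
  have hN0 : 0 < N := by omega
  have hL0 : 0 < L := lt_of_lt_of_le (by positivity) hL
  have hv := TransAux.var_bound hs hC hP hN hL hA' hg
  have hb := ces_abs hs L hg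
  rw [← Ex_ces hs hN0 hL0 g]
  generalize ces π mv L g = h at hv hb ⊢
  set φ : Ω → ℝ := fun a => (π0 a - π a) / π a with hφ
  have p1 : ∀ a, π a * φ a = π0 a - π a := fun a => mul_div_cancel₀ _ (hs.pos a).ne'
  have p2 : ∀ a, |φ a| ≤ ξ := fun a => by
    rw [hφ, abs_div, abs_of_pos (hs.pos a), div_le_iff₀ (hs.pos a)]
    exact hξ a
  have p3 : ∑ a, π a * φ a = 0 := by
    simp only [p1, sum_sub_distrib, h0, hs.sum, sub_self]
  have hξ0 : 0 ≤ ξ := by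
    have : (univ : Finset Ω).Nonempty := nonempty_of_sum_ne_zero (by rw [h0]; exact one_ne_zero)
    obtain ⟨a, -⟩ := this
    exact (abs_nonneg _).trans (p2 a)
  have e1 : Ex π0 h - Ex π h = Ex π (fun x => (∑ i, φ (x i)) * h x) +
      Ex π fun x => (∏ i, (1 + φ (x i)) - 1 - ∑ i, φ (x i)) * h x := by
    unfold Ex
    rw [← sum_sub_distrib, ← sum_add_distrib]
    refine sum_congr rfl fun x _ => ?_
    have : ∏ i, π0 (x i) = (∏ i, π (x i)) * ∏ i, (1 + φ (x i)) := by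
      rw [← prod_mul_distrib]
      exact prod_congr rfl fun i _ => by rw [mul_add, p1]; ring
    rw [this]
    ring
  have e2 : |Ex π fun x => (∏ i, (1 + φ (x i)) - 1 - ∑ i, φ (x i)) * h x| ≤ (N * ξ) ^ 2 := by
    refine Ex_abs (fun a => (hs.pos a).le) hs.sum fun x => ?_
    have := prod_rem (univ : Finset (Fin N)) (φ := fun i => φ (x i)) (fun i => p2 _)
      (by simpa using h1)
    rw [card_univ, Fintype.card_fin] at this
    rw [abs_mul]
    exact (mul_le_mul this (hb x) (abs_nonneg _) (sq_nonneg _)).trans (le_of_eq (mul_one _))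
  have e3 : ∑ a, π a * φ a * m1 π (s3 π h) a =
      ∑ a, π a * φ a * (m1 π (s3 π h) a - m0 π (s3 π h)) := by
    simp only [mul_sub, sum_sub_distrib, ← sum_mul, p3, zero_mul, sub_zero]
  have e4 : (∑ a, π a * φ a * (m1 π (s3 π h) a - m0 π (s3 π h))) ^ 2 ≤
      ξ ^ 2 * ∑ a, π a * (m1 π (s3 π h) a - m0 π (s3 π h)) ^ 2 := by
    have j := AnoA.jensen hs fun a => φ a * (m1 π (s3 π h) a - m0 π (s3 π h))
    simp only [← mul_assoc] at j
    refine j.trans ?_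
    rw [mul_sum]
    refine sum_le_sum fun a _ => ?_
    have q1 : φ a ^ 2 ≤ ξ ^ 2 := by
      rw [← sq_abs]
      exact pow_le_pow_left₀ (abs_nonneg _) (p2 a) 2
    have q2 := mul_le_mul_of_nonneg_right q1
      (mul_nonneg (hs.pos a).le (sq_nonneg (m1 π (s3 π h) a - m0 π (s3 π h))))
    rw [mul_pow]
    linarith
  rw [e1, first hs.sum hN, e3]
  refine (abs_add_le _ _).trans (add_le_add ?_ e2)
  refine abs_le_of_sq_le_sq ?_ (mul_nonneg hξ0 hA)
  have q1 := mul_le_mul_of_nonneg_left e4 (sq_nonneg (N : ℝ))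
  have q2 := mul_le_mul_of_nonneg_left hv (sq_nonneg ξ)
  rw [mul_pow, mul_pow]
  linarith

end Vale.Agent.P308.Pt
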