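import Vale.Agent.P308.Sem2
import Vale.Agent.P308.Trans
import Vale.Agent.P308.Final

/-! The copies follow the slowly changing weights (job Samp). -/

namespace Vale.Agent.P308

open Finset P317 P317.Prog P328

variable {n e : ℕ} {P : Prog Unit (List (List ℕ))} {β : ℝ}

namespace SampA

lemma E_abs {γ : Type} (p : Prog Unit γ) {f : γ → ℝ} (h : ∀ x, |f x| ≤ 1) : |E O0 p f| ≤ 1 := by
  rw [abs_le]
  constructor
  · rw [← E_const O0 p (-1)]
    exact E_mono _ _ fun x => (abs_le.1 (h x)).1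
  · exact E_le_one _ _ fun x => (abs_le.1 (h x)).2

lemma TT_pos (h2 : 2 ≤ n) (he : 1 ≤ e) : 0 < TT n e := by
  have : 0 < n := by omega
  have : 0 < e := he
  unfold TT
  positivity

lemma KK_pos (h2 : 2 ≤ n) : 0 < KK n := Nat.pow_pos (by omega)

lemma RR_ge (h2 : 2 ≤ n) (he : 1 ≤ e) : 1000 ≤ RR n e := by
  have h1 := Nat.mul_pos (KK_pos h2) (Nat.mul_pos (TT_pos h2 he) (SemA.GG_pos he h2))
  have h3 : RR n e = 1000 * (KK n * (TT n e * GG n e)) := by rw [RR]; ring
  omega

lemma NP_ge (h2 : 2 ≤ n) (he : 1 ≤ e) : 3 ≤ NP n e := by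
  have h1 := RR_ge h2 he
  rw [NP]
  nlinarith

lemma JJ_ge (h2 : 2 ≤ n) (he : 1 ≤ e) : NP n e ≤ JJ n e := by
  have h1 := Nat.mul_pos (TT_pos h2 he) (SemA.GG_pos he h2)
  have h3 : JJ n e = NP n e ^ 2 * (16 * (TT n e * GG n e)) := by rw [JJ]; ring
  rw [h3]
  exact (Nat.le_self_pow two_ne_zero _).trans (Nat.le_mul_of_pos_right _ (by omega))

lemma KK_ge (h2 : 2 ≤ n) :
    (n : ℝ) ^ 764 * Fintype.card (Bool × Fin n × Fin n × Fin n) ≤ KK n := by
  have n2 : (2 : ℝ) ≤ n := by exact_mod_cast h2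
  have h1 : (2 : ℝ) ≤ (n : ℝ) ^ 33 := n2.trans (le_self_pow₀ (by linarith) (by norm_num))
  have e1 : (Fintype.card (Bool × Fin n × Fin n × Fin n) : ℝ) = 2 * (n : ℝ) ^ 3 := by
    simp only [Fintype.card_prod, Fintype.card_bool, Fintype.card_fin]
    push_cast
    ring
  rw [e1, KK, Nat.cast_pow, show 800 = 764 + (33 + 3) from rfl, pow_add, pow_add]
  exact mul_le_mul_of_nonneg_left (mul_le_mul_of_nonneg_right h1 (by positivity)) (by positivity)

lemma fin_est {K T G R N J : ℝ} (hK : 0 < K) (hT : 0 < T) (hG : 0 < G) (hN : 0 < N)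
    (hR : R = 1000 * K * T * G) (hJ : J = 16 * N ^ 2 * T * G) :
    1 / J * (110 * K / R) + (N * (1 / J)) ^ 2 ≤ 1 / (2 * T * G * J) := by
  have J0 : 0 < J := by rw [hJ]; positivity
  have e1 : 1 / J * (110 * K / R) = 11 / 50 * (1 / (2 * T * G * J)) := by
    rw [hR]; field_simp; ring
  have e2 : (N * (1 / J)) ^ 2 = 1 / 8 * (1 / (2 * T * G * J)) := by
    have : (N * (1 / J)) ^ 2 = N ^ 2 / (16 * N ^ 2 * T * G) * (1 / J) := by
      rw [← hJ]; field_simp
    rw [this]; field_simp; ring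
  have h0 : 0 < 1 / (2 * T * G * J) := by positivity
  rw [e1, e2]
  linarith

lemma mid_le {a b η s t δ : ℝ} (hη : 0 ≤ η) (h1 : a ≤ (1 + η) * b) (h2 : b ≤ (1 + η) * a)
    (t0 : 0 ≤ t) (t1 : t ≤ 1) (h : |s - t| ≤ δ) :
    a + s * (b - a) ≤ (1 + η * δ) * (a + t * (b - a)) := by
  have key : |b - a| ≤ η * (a + t * (b - a)) := by
    rcases le_total a b with e | e
    · rw [abs_of_nonneg (by linarith)]
      have := mul_nonneg hη (mul_nonneg t0 (sub_nonneg.2 e))
      linarith
    · rw [abs_of_nonpos (by linarith)]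
      have := mul_nonneg hη (mul_nonneg (sub_nonneg.2 t1) (sub_nonneg.2 e))
      linarith
  have h3 := le_abs_self ((s - t) * (b - a))
  rw [abs_mul] at h3
  have h4 := mul_le_mul h key (abs_nonneg _) ((abs_nonneg _).trans h)
  linarith

lemma ker_mid (c c' : List (List ℚ)) (J j : ℕ) : ker n (midM n c c' J j) =
    fun u v => ker n c u v + (j : ℝ) / J * (ker n c' u v - ker n c u v) := by
  funext u v
  rw [ker, cent, midM, tab_get _ _ u.2 v.2]
  push_cast
  rfl

end SampA

theorem ces_close (hn : Even n) (h2 : 2 ≤ n) (he : 1 ≤ e) {c : Fin n → Fin n → ℝ}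
    {c' : List (List ℚ)} (hc : Ker c) (hp : Pos c) (hc' : Ker (ker n c')) (hp' : Pos (ker n c'))
    (hm : Marg (ker n c') (del (Fin n) / 16)) (h : Near c (ker n c') (eta (Fin n) / JJ n e))
    (hP : CloseN (NP n e) c P β) :
    CloseN (NP n e) (ker n c') (bind P (cesP n c' (LS n e)))
      (β + 1 / (2 * TT n e * GG n e * JJ n e)) := by
  intro g hg
  have he' : Even (Fintype.card (Fin n)) := by rwa [Fintype.card_fin]
  have hN := SampA.NP_ge h2 he
  have hJ := SampA.JJ_ge h2 he
  have hH : 0 < H (ker n c') univ := H_pos hc' hp' (by rwa [card_univ])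
  have hL : 0 < LS n e := Nat.pow_pos (by omega)
  have h1 := hP (fun xs => E O0 (cesP n c' (LS n e) xs) g) fun xs => SampA.E_abs _ hg
  simp only [E_cesP (by omega) (show 0 < NP n e by omega) hc' hH hL] at h1
  have n2 : (2 : ℝ) ≤ n := by exact_mod_cast h2
  have J1 : (1 : ℝ) ≤ JJ n e := by exact_mod_cast (by omega : 1 ≤ JJ n e)
  have h0 := eta_pos h2
  have K0 : (0 : ℝ) < KK n := by exact_mod_cast SampA.KK_pos h2
  have T0 : (0 : ℝ) < TT n e := by exact_mod_cast SampA.TT_pos h2 he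
  have G0 : (0 : ℝ) < GG n e := by exact_mod_cast SemA.GG_pos he h2
  have N0 : (0 : ℝ) < NP n e := by exact_mod_cast (by omega : 0 < NP n e)
  have R0 : (0 : ℝ) < RR n e := by exact_mod_cast lt_of_lt_of_le (by norm_num) (SampA.RR_ge h2 he)
  have hξ : (1 + eta (Fin n) / JJ n e) ^ (2 * Fintype.card (Fin n)) ≤ 1 + 1 / (JJ n e : ℝ) := by
    refine (pow_le_of (y := 1 / (2 * JJ n e)) (by positivity) ?_ ?_).trans (le_of_eq ?_)
    · have e1 : ((2 * Fintype.card (Fin n) : ℕ) : ℝ) * (eta (Fin n) / JJ n e) =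
          1 / (4 * JJ n e) := by
        simp only [eta, Fintype.card_fin]
        push_cast
        field_simp
        ring
      rw [e1]
      exact one_div_le_one_div_of_le (by positivity) (by linarith)
    · exact one_div_le_one_div_of_le (by positivity) (by linarith)
    · field_simp
  have : Nonempty (Fin n) := ⟨⟨0, by omega⟩⟩
  have h3 := Pt.transport (N := NP n e) (sys_piK hc' hp' he') (ξ := 1 / (JJ n e : ℝ))
    (A := 110 * KK n / RR n e) (one_le_pow₀ (by rw [Fintype.card_fin]; linarith))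
    (piab hc' hp' he' (by rwa [Fintype.card_fin]) hm) (piK_sum hc hp he')
    (piK_near hc hp hc' hp' he' (by positivity) h hξ)
    (by rw [mul_one_div, div_le_one (by linarith)]; exact_mod_cast hJ) hN (L := LS n e) le_rfl
    (by positivity) (by
      have k1 := SampA.KK_ge h2
      have e1 : (110 * (KK n : ℝ) / RR n e) ^ 2 * NP n e = 12100 * (KK n : ℝ) ^ 2 := by
        rw [NP]; push_cast; field_simp; ring
      rw [e1, Fintype.card_fin]
      have k2 := pow_le_pow_left₀ (by positivity) k1 2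
      have k3 := sq_nonneg (KK n : ℝ)
      linarith)
    (g := fun y => g (encN y)) fun y => hg _
  have h4 := SampA.fin_est K0 T0 G0 N0 (R := RR n e) (J := JJ n e) (by rw [RR]; push_cast; rfl)
    (by rw [JJ]; push_cast; rfl)
  rw [E_bind]
  exact (abs_sub_le _ _ _).trans (add_le_add h1 (h3.trans h4))

theorem slow_close (hn : Even n) (h2 : 2 ≤ n) (he : 1 ≤ e) {c c' : List (List ℚ)}
    (hc : Ker (ker n c)) (hp : Pos (ker n c)) (hc' : Ker (ker n c')) (hp' : Pos (ker n c'))
    (hm : Marg (ker n c) (del (Fin n) / 2)) (h : Near (ker n c) (ker n c') (eta (Fin n)))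
    (hP : CloseN (NP n e) (ker n c) P β) :
    CloseN (NP n e) (ker n c') (bind P (slowP n c c' (JJ n e) (LS n e)))
      (β + 1 / (2 * TT n e * GG n e)) := by
  have hN := SampA.NP_ge h2 he
  have hJ := SampA.JJ_ge h2 he
  have J0 : (0 : ℝ) < JJ n e := by exact_mod_cast (by omega : 0 < JJ n e)
  have h0 := eta_pos h2
  have t0 : ∀ j : ℕ, (0 : ℝ) ≤ (j : ℝ) / JJ n e := fun j => by positivity
  have t1 : ∀ j : ℕ, j ≤ JJ n e → (j : ℝ) / JJ n e ≤ 1 := fun j hj =>
    (div_le_one J0).2 (by exact_mod_cast hj)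
  have kr : ∀ j : ℕ, j ≤ JJ n e → Ker (ker n (midM n c c' (JJ n e) j)) := fun j hj => by
    rw [SampA.ker_mid]
    refine ⟨fun u v => by rw [hc.symm u v, hc'.symm u v], fun u v => ?_⟩
    have a1 := mul_nonneg (sub_nonneg.2 (t1 j hj)) (hc.nonneg u v)
    have a2 := mul_nonneg (t0 j) (hc'.nonneg u v)
    linarith
  have ps : ∀ j : ℕ, j ≤ JJ n e → Pos (ker n (midM n c c' (JJ n e) j)) := fun j hj u v uv => by
    rw [SampA.ker_mid]
    have a1 := hp u v uv
    have a2 := hp' u v uv
    rcases le_total (ker n c u v) (ker n c' u v) with k | k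
    · have := mul_nonneg (t0 j) (sub_nonneg.2 k)
      dsimp only
      linarith
    · have := mul_nonneg (sub_nonneg.2 (t1 j hj)) (sub_nonneg.2 k)
      dsimp only
      linarith
  have nr : ∀ i j : ℕ, i ≤ JJ n e → j ≤ JJ n e → ∀ δ : ℝ, |(i : ℝ) / JJ n e - j / JJ n e| ≤ δ →
      Near (ker n (midM n c c' (JJ n e) i)) (ker n (midM n c c' (JJ n e) j)) (eta (Fin n) * δ) := by
    intro i j hi hj δ hδ u v uv
    rw [SampA.ker_mid, SampA.ker_mid]
    exact ⟨SampA.mid_le h0.le (h u v uv).1 (h u v uv).2 (t0 j) (t1 j hj) hδ,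
      SampA.mid_le h0.le (h u v uv).1 (h u v uv).2 (t0 i) (t1 i hi) (by rwa [abs_sub_comm])⟩
  have z0 : ker n (midM n c c' (JJ n e) 0) = ker n c := by
    rw [SampA.ker_mid]; funext u v; simp
  have z1 : ker n (midM n c c' (JJ n e) (JJ n e)) = ker n c' := by
    rw [SampA.ker_mid]; funext u v; rw [div_self J0.ne']; ring
  have key : ∀ j : ℕ, j ≤ JJ n e → CloseN (NP n e) (ker n (midM n c c' (JJ n e) j))
      (bind P (foldP (List.range j) fun xs j => cesP n (midM n c c' (JJ n e) (j + 1)) (LS n e) xs))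
      (β + j * (1 / (2 * TT n e * GG n e * JJ n e))) := by
    intro j
    induction j with
    | zero =>
      intro _ g hg
      rw [z0, E_bind, Nat.cast_zero, zero_mul, add_zero]
      exact hP g hg
    | succ j ih =>
      intro hj g hg
      have m1 : Marg (ker n (midM n c c' (JJ n e) (j + 1))) (del (Fin n) / 16) := by
        have n1 := nr 0 (j + 1) (Nat.zero_le _) hj 1 (by
          rw [Nat.cast_zero, zero_div, zero_sub, abs_neg, abs_of_nonneg (t0 _)]
          exact t1 _ hj)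
        rw [z0, mul_one] at n1
        have m2 := Marg.near (kr _ hj) (by unfold del; positivity) h0.le (eta_le h2) n1
          (kap_pow h2) hm
        rwa [div_div, show (2 : ℝ) * 8 = 16 by norm_num] at m2
      have n2 := nr j (j + 1) (by omega) hj (1 / JJ n e) (by
        rw [← sub_div, abs_div, abs_of_pos J0]
        simp)
      rw [mul_one_div] at n2
      have h3 := ces_close hn h2 he (kr j (by omega)) (ps j (by omega)) (kr _ hj) (ps _ hj) m1 n2
        (ih (by omega)) g hg
      simp only [E_bind, E_foldP_range_succ] at h3 ⊢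
      refine h3.trans (le_of_eq ?_)
      push_cast
      ring
  have h3 := key (JJ n e) le_rfl
  rw [z1] at h3
  have e1 : (JJ n e : ℝ) * (1 / (2 * TT n e * GG n e * JJ n e)) = 1 / (2 * TT n e * GG n e) := by
    rw [mul_one_div, mul_comm _ (JJ n e : ℝ), div_mul_eq_div_div, div_self J0.ne']
  rw [e1] at h3
  exact h3

theorem E_hist_snoc (G : List (List Bool)) (e : ℕ) (hs : Hs) (z : List (List ℕ) × List (List ℕ))
    (g : List (List ℕ) → ℝ) : E O0 (histP G e (hs ++ [z])) g = E O0 (bind (histP G e hs)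
      (slowP G.length (cM G e z.1) (cM G e z.2) (JJ G.length e) (LS G.length e))) g := by
  simp only [histP, E_bind, foldP_append, foldP, E_ret]

theorem samp_close (hn : Even n) {N : ℕ} (hN : 0 < N) {c : Fin n → Fin n → ℝ} (hc : Ker c)
    (hp : Pos c) (hP : CloseN N c P β) : Close c (bind P fun xs => .ret (xs.getD 0 [])) β := by
  intro g hg
  have hs := piK_sum hc hp (by rwa [Fintype.card_fin])
  have h1 := hP (fun xs => g (xs.getD 0 [])) fun _ => hg _
  have e1 : ∀ x : Fin N → PMs (Fin n), (encN x).getD 0 [] = enc (x ⟨0, hN⟩).1 := fun x => by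
    simp [encN, List.getD_eq_getElem?_getD, hN]
  simp only [e1] at h1
  rw [Pt.Ex_upd hs ⟨0, hN⟩] at h1
  simp only [Function.update_self] at h1
  rw [Pt.Ex_const hs, sum_piK c fun X => g (enc X)] at h1
  rw [E_bind]
  exact h1

end Vale.Agent.P308
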