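import Vale.Agent.P308.Algo
import Vale.Agent.P308.Gap
import Vale.Agent.P328.Unif
import Vale.Agent.P328.Chain
import Vale.Agent.P317.Prob

/-! The program simulates the chain (job Sem). -/

namespace Vale.Agent.P308

open Finset P317 P317.Prog P328

variable {n : ℕ} {c c' : List (List ℚ)}

namespace SemA

lemma len_enc (X : Fin n → Fin n) : (enc X).length = n := by simp [enc]

lemma get_enc (X : Fin n → Fin n) (v : Fin n) : (enc X).getD v 0 = X v := by simp [enc]

lemma sw_eq (p q v : Fin n) : sw p q v = (Equiv.swap p q v : Fin n) := by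
  unfold sw
  rw [Equiv.swap_apply_def]
  simp only [Fin.val_inj]
  split_ifs <;> rfl

lemma cjL_enc (p q : Fin n) (X : Fin n → Fin n) : cjL p q (enc X) = enc (cj p q X) := by
  unfold cjL
  rw [len_enc]
  refine List.ext_getElem (by simp [enc]) fun i h1 h2 => ?_
  have hi : i < n := by simpa using h1
  have e := sw_eq p q ⟨i, hi⟩
  simp only at e
  rw [List.getElem_map, List.getElem_range, e, get_enc, sw_eq, min_eq_right (Fin.is_lt _).le]
  simp [enc, cj]

lemma cl_half : cl (1 / 2) = 1 / 2 := by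
  rw [cl_eq (by norm_num) (by norm_num)]; norm_num

lemma cl_of_nonneg {p : ℚ} (h : (0 : ℝ) ≤ p) : cl p = min 1 (p : ℝ) :=
  max_eq_right (le_min zero_le_one h)

/-- the initial matching -/
def X0 (he : Even n) (v : Fin n) : Fin n :=
  ⟨if (v : ℕ) % 2 = 0 then v + 1 else v - 1, by
    obtain ⟨k, hk⟩ := he
    have := v.2
    split_ifs <;> omega⟩

lemma X0_mem (he : Even n) : X0 he ∈ PMon univ := by
  refine mem_PM.2 fun v => ⟨Fin.ext ?_, fun h => ?_⟩
  · simp only [X0]
    split_ifs <;> omega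
  · have := congrArg Fin.val h
    simp only [X0] at this
    split_ifs at this <;> omega

lemma start_eq (he : Even n) : start n = enc (X0 he) := by
  refine List.ext_getElem (by simp [enc, start]) fun i h1 h2 => ?_
  simp [enc, start, X0]

lemma Pr_not {β : Type} (p : Prog Unit β) (G : β → Prop) :
    1 - Pr O0 p (fun b => ¬ G b) ≤ Pr O0 p G := by
  have h := Pr_union (O := O0) ({()} : Finset Unit) p fun _ b => ¬ G b
  rw [sum_singleton] at h
  exact h.trans (Pr_mono p fun b hb => not_not.1 (hb () (mem_singleton_self _)))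

lemma half_pow_le {G : ℕ} (hG : 0 < G) : (1 / 2 : ℝ) ^ G ≤ 1 / G := by
  have h : (G : ℝ) ≤ 2 ^ G := by exact_mod_cast (Nat.lt_two_pow_self (n := G)).le
  rw [one_div_pow]
  exact one_div_le_one_div_of_le (by exact_mod_cast hG) h

lemma est {β : Type} (p : Prog Unit β) (f : β → Bool) {N G : ℕ} (hN : 0 < N) (hG : 0 < G) {m : ℝ}
    (hm : |(Pr O0 p fun b => f b = true) - m| ≤ (1 / 2) ^ G) :
    Pr O0 (rep N p) (fun bs => ¬ |((bs.countP f : ℕ) : ℝ) / N - m| ≤ 2 / G) ≤ (G : ℝ) ^ 2 / N := by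
  have hG' : (0 : ℝ) < G := by exact_mod_cast hG
  have hN' : (0 : ℝ) < N := by exact_mod_cast hN
  have h1 := cheb (O := O0) p f hN (ζ := 1 / G) (by positivity)
  have e : 1 / ((N : ℝ) * (1 / G) ^ 2) = (G : ℝ) ^ 2 / N := by field_simp
  rw [e] at h1
  refine (Pr_mono _ fun bs hb => ?_).trans h1
  by_contra h2
  refine hb ?_
  have h3 := half_pow_le hG
  have h4 := abs_sub_le (((bs.countP f : ℕ) : ℝ) / N) (Pr O0 p fun b => f b = true) m
  have e2 : (2 : ℝ) / G = 1 / G + 1 / G := by ring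
  rw [not_lt] at h2
  linarith

lemma GG_pos {e : ℕ} (he : 1 ≤ e) (h2 : 2 ≤ n) : 0 < GG n e := by
  have : 0 < n := by omega
  have : 0 < e := he
  unfold GG TT
  positivity

lemma NN_pos {e : ℕ} (he : 1 ≤ e) (h2 : 2 ≤ n) : 0 < NN n e := by
  have := GG_pos he h2
  have : 0 < n := by omega
  have : 0 < e := he
  unfold NN TT
  positivity

end SemA

open SemA

lemma wt_enc (hc : Ker (ker n c)) {X : Fin n → Fin n} (hX : X ∈ PMon univ) :
    ((wt c (enc X) : ℚ) : ℝ) = W (ker n c) X := by
  rw [W_eq_prod_lt hc hX, wt, len_enc, ← Fin.prod_univ_eq_prod_range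
    (fun v => if v < (enc X).getD v 0 then cent c v ((enc X).getD v 0) else 1), Rat.cast_prod]
  refine prod_congr rfl fun v _ => ?_
  rw [get_enc]
  simp only [Fin.val_fin_lt]
  split_ifs
  · rfl
  · exact Rat.cast_one

namespace SemA

lemma E_stepP (hn : 0 < n) (hc : Ker (ker n c)) {X : Fin n → Fin n} (hX : X ∈ PMon univ)
    (g : List ℕ → ℝ) :
    E O0 (stepP c (enc X)) g = MH (PMon univ) qm (W (ker n c)) (fun Y => g (enc Y)) X := by
  have key : ∀ p q r s : Fin n, cl (wt c (cjL p q (cjL r s (enc X))) / wt c (enc X)) =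
      min 1 (W (ker n c) (cj p q (cj r s X)) / W (ker n c) X) := by
    intro p q r s
    have e : ((wt c (cjL p q (cjL r s (enc X))) / wt c (enc X) : ℚ) : ℝ) =
        W (ker n c) (cj p q (cj r s X)) / W (ker n c) X := by
      rw [cjL_enc, cjL_enc, Rat.cast_div, wt_enc hc hX, wt_enc hc (cj_mem (cj_mem hX r s) p q)]
    rw [cl_of_nonneg (by rw [e]; exact div_nonneg (W_nonneg _ _) (W_nonneg _ _)), e]
  have hn' : (n : ℝ) ≠ 0 := by positivity
  rw [stepP, E_bind, E_coinP, cl_half, MH, qm_mul hX (fun Y =>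
    min 1 (W (ker n c) Y / W (ker n c) X) * g (enc Y) +
      (1 - min 1 (W (ker n c) Y / W (ker n c) X)) * g (enc X))]
  simp only [if_true, Bool.false_eq_true, if_false, E_ret, E_bind, E_coinP, len_enc, E_unifP hn,
    Finset.sum_range, key]
  simp only [cjL_enc, ← sum_div, Fintype.card_fin]
  field_simp
  ring

lemma E_walkP (he : Even n) (hn : 0 < n) (hc : Ker (ker n c)) (L : ℕ) (g : List ℕ → ℝ) :
    E O0 (walkP n c L) g =
      (MH (PMon univ) qm (W (ker n c)))^[L] (fun Y => g (enc Y)) (X0 he) := by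
  have key : ∀ (l : List ℕ), ∀ X ∈ PMon (univ : Finset (Fin n)),
      E O0 (foldP l (fun X _ => stepP c X) (enc X)) g =
        (MH (PMon univ) qm (W (ker n c)))^[l.length] (fun Y => g (enc Y)) X := by
    intro l
    induction l with
    | nil => intro D _; rfl
    | cons a l ih =>
      intro D hD
      rw [foldP, E_bind, E_stepP hn hc hD, List.length_cons, Function.iterate_succ_apply']
      exact MH_congr ih hD
  rw [walkP, start_eq he, key _ _ (X0_mem he), List.length_range]

end SemA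

/-- what the sampler needs -/
structure Good (n e : ℕ) (c : List (List ℚ)) : Prop where
  even : Even n
  two : 2 ≤ n
  kc : Ker (ker n c)
  bd : ∀ u v, u ≠ v → (1 / 2 : ℝ) ^ bet n e ≤ ker n c u v ∧ ker n c u v ≤ 2 ^ bet n e
  marg : Marg (ker n c) (del (Fin n) / 2)

theorem walk_close {e : ℕ} (h : Good n e c) (g : List ℕ → ℝ) (hg : ∀ X, |g X| ≤ 1) :
    |E O0 (walkP n c (LL n e)) g -
      (∑ X ∈ PMon univ, W (ker n c) X * g (enc X)) / H (ker n c) univ| ≤ (1 / 2) ^ GG n e := by
  have h2 := h.two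
  have hp : Pos (ker n c) := fun u v huv => lt_of_lt_of_le (by positivity) (h.bd u v huv).1
  have : Nonempty (Fin n) := ⟨⟨0, by omega⟩⟩
  have hC : 1 ≤ CC n := Nat.one_le_pow _ _ (by omega)
  have hgap := gap h.kc hp (by rw [Fintype.card_fin]; exact h.even)
    (by rw [Fintype.card_fin]; exact h2) h.marg
  have hd := H_le_two_pow h.bd (X0 h.even)
  rw [Fintype.card_fin] at hgap hd
  rw [E_walkP h.even (by omega) h.kc]
  exact mix_nat (fun X _ => W_pos hp X) (fun X _ Y _ => qm_nonneg X Y) (fun X hX => qm_sum hX)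
    (fun X _ Y _ => qm_symm X Y) hC hgap _ (fun X _ => hg _) (X0_mem h.even) hd

theorem walk_zero (he : Even n) (h2 : 2 ≤ n) (hc : Ker (ker n c)) (hp : Pos (ker n c)) (L : ℕ)
    (g : List ℕ → ℝ) (hg : ∀ X : Fin n → Fin n, X ∈ PMon univ → g (enc X) = 0) :
    E O0 (walkP n c L) g = 0 := by
  have _ := hp
  rw [E_walkP he (by omega) hc]
  have key : ∀ L : ℕ, ∀ X ∈ PMon (univ : Finset (Fin n)),
      (MH (PMon univ) qm (W (ker n c)))^[L] (fun Y => g (enc Y)) X = 0 := by
    intro L
    induction L with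
    | zero => exact hg
    | succ L ih =>
      intro X hX
      rw [Function.iterate_succ_apply', MH_congr (g := fun _ => 0) ih hX]
      simp [MH]
  exact key L _ (X0_mem he)

namespace SemA

lemma Pr_coin (p : Prog Unit (List ℕ)) (f : List ℕ → ℚ) (b0 : Bool) :
    (Pr O0 (bind p fun X => coinP (f X)) fun b => b = b0) =
      E O0 p fun X => if b0 = true then cl (f X) else 1 - cl (f X) := by
  cases b0 <;> simp [Pr, E_coinP]

end SemA

/-- the estimate of a ratio -/
theorem rat_close {e : ℕ} (he : 1 ≤ e) (h : Good n e c) (hc' : Ker (ker n c'))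
    (h1 : ∀ X ∈ PMon univ, W (ker n c') X ≤ 2 * W (ker n c) X)
    (h2 : H (ker n c) univ ≤ 2 * H (ker n c') univ) :
    1 - (GG n e : ℝ) ^ 2 / NN n e ≤ Pr O0 (ratP n c c' (LL n e) (NN n e)) fun r =>
      (1 - 8 / (GG n e : ℝ)) * H (ker n c') univ ≤ r * (2 / (NN n e : ℝ)) * H (ker n c) univ ∧
      r * (2 / (NN n e : ℝ)) * H (ker n c) univ ≤ (1 + 8 / (GG n e : ℝ)) * H (ker n c') univ := by
  have hG := GG_pos he h.two
  have hN := NN_pos he h.two
  have hG' : (0 : ℝ) < GG n e := by exact_mod_cast hG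
  have hN' : (0 : ℝ) < NN n e := by exact_mod_cast hN
  have hp : Pos (ker n c) := fun u v huv => lt_of_lt_of_le (by positivity) (h.bd u v huv).1
  have hH : 0 < H (ker n c) univ := H_pos h.kc hp (by simpa using h.even)
  have h3 := walk_close h (fun X => cl (wt c' X / (2 * wt c X))) fun X =>
    abs_le.2 ⟨by linarith [cl_nonneg (wt c' X / (2 * wt c X))], cl_le_one _⟩
  have e1 : ∑ X ∈ PMon univ, W (ker n c) X * cl (wt c' (enc X) / (2 * wt c (enc X))) =
      H (ker n c') univ / 2 := by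
    rw [H, sum_div]
    refine sum_congr rfl fun X hX => ?_
    have hW := W_pos hp X
    have e : ((wt c' (enc X) / (2 * wt c (enc X)) : ℚ) : ℝ) =
        W (ker n c') X / (2 * W (ker n c) X) := by
      rw [Rat.cast_div, Rat.cast_mul, wt_enc h.kc hX, wt_enc hc' hX, Rat.cast_ofNat]
    rw [cl_of_nonneg (by rw [e]; exact div_nonneg (W_nonneg _ _) (by positivity)), e,
      min_eq_right ((div_le_one (by positivity)).2 (h1 X hX))]
    field_simp
  rw [e1] at h3
  have h4 := est (bind (walkP n c (LL n e)) fun X => coinP (wt c' X / (2 * wt c X))) (fun b => b)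
    hN hG (m := H (ker n c') univ / 2 / H (ker n c) univ) (by rw [Pr_coin]; exact h3)
  rw [ratP, Pr_bind_ret]
  refine le_trans (by linarith) ((Pr_not _ fun bs => |((bs.countP (fun b => b) : ℕ) : ℝ) / NN n e -
    H (ker n c') univ / 2 / H (ker n c) univ| ≤ 2 / GG n e).trans (Pr_mono _ fun bs hb => ?_))
  obtain ⟨h5, h6⟩ := abs_le.1 hb
  generalize ((bs.countP (fun b => b) : ℕ) : ℝ) = r at h5 h6 ⊢
  generalize H (ker n c) univ = A at hH h2 h5 h6 ⊢
  generalize H (ker n c') univ = A' at h2 h5 h6 ⊢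
  have e2 : r * (2 / (NN n e : ℝ)) * A = A' + 2 * A * (r / NN n e - A' / 2 / A) := by
    field_simp
    ring
  have e3 : (8 : ℝ) / GG n e = 4 * (2 / GG n e) := by ring
  have hz : (0 : ℝ) < 2 / GG n e := by positivity
  rw [e2, e3]
  generalize (2 : ℝ) / GG n e = z at h5 h6 hz ⊢
  generalize r / NN n e - A' / 2 / A = y at h5 h6 ⊢
  have h7 := mul_le_mul_of_nonneg_left h5 hH.le
  have h8 := mul_le_mul_of_nonneg_left h6 hH.le
  have h9 := mul_le_mul_of_nonneg_left h2 hz.le
  constructor <;> nlinarith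

theorem rat_zero (he : Even n) (h2 : 2 ≤ n) (hc : Ker (ker n c)) (hp : Pos (ker n c))
    (hc' : Ker (ker n c')) (h0 : H (ker n c') univ = 0) (L N : ℕ) :
    1 ≤ Pr O0 (ratP n c c' L N) fun r => r = 0 := by
  have hW : ∀ X ∈ PMon (univ : Finset (Fin n)), W (ker n c') X = 0 :=
    (sum_eq_zero_iff_of_nonneg fun X _ => W_nonneg _ X).1 h0
  have h1 := walk_zero he h2 hc hp L (fun X => cl (wt c' X / (2 * wt c X))) fun X hX => by
    have e : wt c' (enc X) = 0 := by
      have := wt_enc hc' hX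
      rw [hW X hX] at this
      exact_mod_cast this
    simp [e, cl]
  have h3 : 1 - 0 ≤ Pr O0 (bind (walkP n c L) fun X => coinP (wt c' X / (2 * wt c X)))
      fun b => b = false := by
    rw [Pr_coin]
    simp only [Bool.false_eq_true, if_false]
    rw [E_sub, E_const, h1]
  have h4 := Pr_mapP (O := O0) (List.range N) _ (fun _ b => b = false) le_rfl fun _ _ => h3
  rw [mul_zero, sub_zero] at h4
  rw [ratP, Pr_bind_ret]
  refine h4.trans (Pr_mono _ fun bs hb => ?_)
  rw [List.countP_eq_zero]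
  intro b hb'
  obtain ⟨i, hi, rfl⟩ := List.getElem_of_mem hb'
  have := (List.forall₂_iff_get.1 hb).2 i (by rw [hb.length_eq]; exact hi) hi
  simpa using this

/-- the estimates of all edge probabilities -/
theorem freq_close {e : ℕ} (he : 1 ≤ e) (h : Good n e c) :
    1 - (n : ℝ) ^ 2 * ((GG n e : ℝ) ^ 2 / NN n e) ≤
      Pr O0 (rep (NN n e) (walkP n c (LL n e))) fun Xs => ∀ u v : Fin n, u ≠ v →
        |((Xs.countP fun X => decide (X.getD (min (u : ℕ) v) 0 = max (u : ℕ) v) : ℕ) : ℝ) / NN n e -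
          ker n c u v * Q (ker n c) u v / H (ker n c) univ| ≤ 2 / GG n e := by
  have hG := GG_pos he h.two
  have hN := NN_pos he h.two
  have key : ∀ u v : Fin n, u ≠ v → Pr O0 (rep (NN n e) (walkP n c (LL n e))) (fun Xs => ¬
      |((Xs.countP fun X => decide (X.getD (min (u : ℕ) v) 0 = max (u : ℕ) v) : ℕ) : ℝ) / NN n e -
        ker n c u v * Q (ker n c) u v / H (ker n c) univ| ≤ 2 / GG n e) ≤
      (GG n e : ℝ) ^ 2 / NN n e := by
    intro u v huv
    refine est _ _ hN hG ?_
    have h3 := walk_close h (fun X => if X.getD (min (u : ℕ) v) 0 = max (u : ℕ) v then 1 else 0)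
      fun X => by split_ifs <;> simp
    have e1 : ∀ a b : Fin n, a ≠ b → ∑ X ∈ PMon univ, W (ker n c) X *
        (if (enc X).getD a 0 = b then 1 else 0) = ker n c a b * Q (ker n c) a b := by
      intro a b hab
      rw [Q, ← fib h.kc (mem_univ a) (mem_univ b) hab, sum_filter]
      refine sum_congr rfl fun X _ => ?_
      rw [get_enc]
      simp only [Fin.val_inj]
      split_ifs <;> simp
    have e2 : ∑ X ∈ PMon univ, W (ker n c) X *
        (if (enc X).getD (min (u : ℕ) v) 0 = max (u : ℕ) v then 1 else 0) =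
        ker n c u v * Q (ker n c) u v := by
      rcases le_total (u : ℕ) v with h1 | h1
      · rw [min_eq_left h1, max_eq_right h1, e1 u v huv]
      · rw [min_eq_right h1, max_eq_left h1, e1 v u huv.symm, Q_symm, h.kc.symm]
    rw [e2] at h3
    have e3 : (Pr O0 (walkP n c (LL n e)) fun X =>
        decide (X.getD (min (u : ℕ) v) 0 = max (u : ℕ) v) = true) = E O0 (walkP n c (LL n e))
        fun X => if X.getD (min (u : ℕ) v) 0 = max (u : ℕ) v then 1 else 0 := by
      unfold Pr
      refine congrArg _ (funext fun X => ?_)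
      by_cases hX : X.getD (min (u : ℕ) v) 0 = max (u : ℕ) v
      · rw [if_pos hX, if_pos (decide_eq_true hX)]
      · rw [if_neg hX, if_neg fun h => hX (of_decide_eq_true h)]
    rw [e3]
    exact h3
  have h1 := Pr_union (O := O0) (univ : Finset (Fin n × Fin n))
    (rep (NN n e) (walkP n c (LL n e))) fun t Xs => t.1 ≠ t.2 ∧ ¬
      |((Xs.countP fun X => decide (X.getD (min (t.1 : ℕ) t.2) 0 = max (t.1 : ℕ) t.2) : ℕ) : ℝ) /
        NN n e - ker n c t.1 t.2 * Q (ker n c) t.1 t.2 / H (ker n c) univ| ≤ 2 / GG n e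
  refine le_trans ?_ (h1.trans (Pr_mono _ fun Xs hX u v huv => ?_))
  · refine sub_le_sub_left ((sum_le_card_nsmul _ _ ((GG n e : ℝ) ^ 2 / NN n e) fun t _ => ?_).trans
      (le_of_eq ?_)) _
    · by_cases ht : t.1 = t.2
      · refine (Pr_mono (G' := fun _ => False) _ fun Xs hX => hX.1 ht).trans ?_
        simp only [Pr, if_false, E_const]
        positivity
      · exact (Pr_mono _ fun Xs hX => hX.2).trans (key t.1 t.2 ht)
    · simp [sq]
  · by_contra h2
    exact hX (u, v) (mem_univ _) ⟨huv, h2⟩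

end Vale.Agent.P308
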