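import Vale.Agent.P308.Algo2
import Vale.Agent.P308.Sem
import Vale.Agent.P308.PIS

/-! The program simulates the particle system (job Sem2). -/

namespace Vale.Agent.P308

open Finset P317 P317.Prog P328

variable {n N : ℕ} {c : List (List ℚ)}

def encN (x : Fin N → PMs (Fin n)) : List (List ℕ) := List.ofFn fun i => enc (x i).1

/-- the output of `p` is close to a random matching -/
def Close (c : Fin n → Fin n → ℝ) (p : Prog Unit (List ℕ)) (β : ℝ) : Prop :=
  ∀ g : List ℕ → ℝ, (∀ X, |g X| ≤ 1) →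
    |E O0 p g - (∑ X ∈ PMon univ, W c X * g (enc X)) / H c univ| ≤ β

/-- the output of `P` is close to `N` independent random matchings -/
def CloseN (N : ℕ) (c : Fin n → Fin n → ℝ) (P : Prog Unit (List (List ℕ))) (β : ℝ) : Prop :=
  ∀ g : List (List ℕ) → ℝ, (∀ xs, |g xs| ≤ 1) →
    |E O0 P g - Pt.Ex (piK c) fun x : Fin N → PMs (Fin n) => g (encN x)| ≤ β

namespace Sem2A

open SemA

lemma orbS_get (X Y : Fin n → Fin n) (S : List Bool) (v : Fin n) :
    (orbS (enc X) (enc Y) S).getD v false =
      (S.getD v false || S.getD (X v) false || S.getD (Y v) false) := by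
  unfold orbS
  rw [len_enc, List.getD_eq_getElem _ _ (by simp), List.getElem_map, List.getElem_range, get_enc,
    get_enc]

/-- the marked vertices after `t` steps -/
def SK (X Y : Fin n → Fin n) (k : Fin n) (t : ℕ) : Finset (Fin n) :=
  univ.filter fun v => ((orbS (enc X) (enc Y))^[t]
    ((List.range n).map fun v => decide (v = (k : ℕ)))).getD v false = true

lemma SK_zero (X Y : Fin n → Fin n) (k v : Fin n) : v ∈ SK X Y k 0 ↔ v = k := by
  unfold SK
  rw [mem_filter, Function.iterate_zero, id, List.getD_eq_getElem _ _ (by simp), List.getElem_map,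
    List.getElem_range]
  simp [Fin.val_inj]

lemma SK_succ (X Y : Fin n → Fin n) (k v : Fin n) (t : ℕ) :
    v ∈ SK X Y k (t + 1) ↔ v ∈ SK X Y k t ∨ X v ∈ SK X Y k t ∨ Y v ∈ SK X Y k t := by
  unfold SK
  simp only [mem_filter, mem_univ, true_and]
  rw [Function.iterate_succ_apply', orbS_get, Bool.or_eq_true, Bool.or_eq_true, or_assoc]

lemma SK_grow (X Y : Fin n → Fin n) (k : Fin n) (t : ℕ) :
    (∀ v, X v ∈ SK X Y k t ∨ Y v ∈ SK X Y k t → v ∈ SK X Y k t) ∨ t < (SK X Y k t).card := by
  induction t with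
  | zero => exact Or.inr (card_pos.2 ⟨k, (SK_zero X Y k k).2 rfl⟩)
  | succ t ih =>
    by_cases h : ∀ v, X v ∈ SK X Y k t ∨ Y v ∈ SK X Y k t → v ∈ SK X Y k t
    · have e : SK X Y k (t + 1) = SK X Y k t := by
        ext v
        rw [SK_succ]
        exact ⟨fun h1 => h1.elim id (h v), Or.inl⟩
      left
      rw [e]
      exact h
    · right
      have h1 := ih.resolve_left h
      simp only [not_forall] at h
      obtain ⟨v, h2, h3⟩ := h
      have h4 : SK X Y k t ⊂ SK X Y k (t + 1) :=
        (ssubset_iff_of_subset fun u hu => (SK_succ X Y k u t).2 (Or.inl hu)).2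
          ⟨v, (SK_succ X Y k v t).2 (Or.inr h2), h3⟩
      have := card_lt_card h4
      omega

lemma mixL_enc {S : List Bool} {T : Set (Fin n)} (h : ∀ v : Fin n, S.getD v false = true ↔ v ∈ T)
    (A B : Fin n → Fin n) : mixL S (enc A) (enc B) = enc (mix T A B) := by
  unfold mixL
  rw [len_enc]
  refine List.ext_getElem (by simp [enc]) fun i h1 h2 => ?_
  have hi : i < n := by simpa using h1
  have e1 := get_enc A ⟨i, hi⟩
  have e2 := get_enc B ⟨i, hi⟩
  have e3 := h ⟨i, hi⟩
  simp only at e1 e2 e3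
  rw [List.getElem_map, List.getElem_range, e1, e2]
  simp only [enc, List.getElem_ofFn, mix]
  by_cases h4 : (⟨i, hi⟩ : Fin n) ∈ T
  · rw [if_pos (e3.2 h4), if_pos h4, min_eq_right (Fin.is_lt _).le]
  · rw [if_neg fun h5 => h4 (e3.1 h5), if_neg h4, min_eq_right (Fin.is_lt _).le]

lemma len_encN (x : Fin N → PMs (Fin n)) : (encN x).length = N := by simp [encN]

lemma get_encN (x : Fin N → PMs (Fin n)) (i : Fin N) : (encN x).getD i [] = enc (x i).1 := by
  simp [encN]

lemma set_encN (x : Fin N → PMs (Fin n)) (i : Fin N) (a : PMs (Fin n)) :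
    (encN x).set i (enc a.1) = encN (Function.update x i a) := by
  refine List.ext_getElem (by simp [encN]) fun j h1 h2 => ?_
  have hj : j < N := by simpa [encN] using h2
  rw [List.getElem_set]
  simp only [encN, List.getElem_ofFn]
  by_cases h : (i : ℕ) = j
  · obtain rfl : i = ⟨j, hj⟩ := Fin.ext h
    simp
  · rw [if_neg h, Function.update_of_ne fun e => h (by rw [← e])]

lemma PN_congr {Ω Θ : Type} [Fintype Ω] [Fintype Θ] (π : Ω → ℝ) (mv : Θ → Ω × Ω → Ω × Ω)
    {g g' : (Fin N → Ω) → ℝ} (h : ∀ y, g y = g' y) (x : Fin N → Ω) :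
    Pt.PN π mv g x = Pt.PN π mv g' x := by
  rw [funext h]

end Sem2A

open SemA Sem2A

lemma orbL_enc {X Y : Fin n → Fin n} (hX : X ∈ PMon univ) (hY : Y ∈ PMon univ) (k v : Fin n) :
    (orbL k (enc X) (enc Y)).getD v false = true ↔ v ∈ Orb X Y k := by
  have e : (orbL k (enc X) (enc Y)).getD v false = true ↔ v ∈ SK X Y k n := by
    unfold orbL SK
    rw [len_enc, mem_filter, and_iff_right (mem_univ _)]
  rw [e]
  clear e
  constructor
  · have key : ∀ t u, u ∈ SK X Y k t → u ∈ Orb X Y k := by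
      intro t
      induction t with
      | zero =>
        intro u hu
        rw [(SK_zero X Y k u).1 hu]
        exact PA.orb_self
      | succ t ih =>
        intro u hu
        rcases (SK_succ X Y k u t).1 hu with h | h | h
        · exact ih u h
        · exact (mem_PM.1 hX u).1 ▸ PA.orbM (ih _ h)
        · exact (mem_PM.1 hY u).1 ▸ PA.orbN (ih _ h)
    exact key n v
  · intro hv
    have h0 : ∀ t, k ∈ SK X Y k t := by
      intro t
      induction t with
      | zero => exact (SK_zero X Y k k).2 rfl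
      | succ t ih => exact (SK_succ X Y k k t).2 (Or.inl ih)
    have h1 := (SK_grow X Y k n).resolve_right (by
      have := card_le_univ (SK X Y k n)
      rw [Fintype.card_fin] at this
      omega)
    induction hv with
    | refl => exact h0 n
    | tail _ h ih =>
      rcases h with rfl | rfl
      · exact h1 _ (Or.inl (by rw [(mem_PM.1 hX _).1]; exact ih))
      · exact h1 _ (Or.inr (by rw [(mem_PM.1 hY _).1]; exact ih))

lemma mvL_enc (θ : Bool × Fin n × Fin n × Fin n) (z : PMs (Fin n) × PMs (Fin n)) :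
    mvL θ.1 θ.2.1 θ.2.2.1 θ.2.2.2 (enc z.1.1) (enc z.2.1) =
      (enc (mvS θ z).1.1, enc (mvS θ z).2.1) := by
  obtain ⟨b, k, p, q⟩ := θ
  unfold mvL mvS
  cases b
  · have h := orbL_enc z.1.2 (cj_mem z.2.2 p q) k
    simp only [Bool.false_eq_true, if_false, cjL_enc, mixL_enc h, Col]
  · simp only [if_true, cjL_enc]

namespace Sem2A

lemma E_accP (hc : Ker (ker n c)) (hH : 0 < H (ker n c) univ) (x : Fin N → PMs (Fin n))
    (g : List (List ℕ) → ℝ) (i j : Fin N) (θ : Bool × Fin n × Fin n × Fin n) :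
    E O0 (accP c (encN x) i j (mvL θ.1 θ.2.1 θ.2.2.1 θ.2.2.2 (enc (x i).1) (enc (x j).1))) g =
      Pt.al (piK (ker n c)) mvS θ (x i, x j) * g (encN (Pt.nx mvS i j θ x)) +
        (1 - Pt.al (piK (ker n c)) mvS θ (x i, x j)) * g (encN x) := by
  have h := mvL_enc θ (x i, x j)
  simp only at h
  rw [h, accP, E_bind, E_coinP]
  simp only [E_ret, if_true, Bool.false_eq_true, if_false, get_encN, set_encN]
  have e : ((wt c (enc (mvS θ (x i, x j)).1.1) * wt c (enc (mvS θ (x i, x j)).2.1) /
      (wt c (enc (x i).1) * wt c (enc (x j).1)) : ℚ) : ℝ) =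
      piK (ker n c) (mvS θ (x i, x j)).1 * piK (ker n c) (mvS θ (x i, x j)).2 /
        (piK (ker n c) (x i) * piK (ker n c) (x j)) := by
    rw [Rat.cast_div, Rat.cast_mul, Rat.cast_mul, wt_enc hc (x i).2, wt_enc hc (x j).2,
      wt_enc hc (mvS θ (x i, x j)).1.2, wt_enc hc (mvS θ (x i, x j)).2.2]
    unfold piK
    rw [div_mul_div_comm, div_mul_div_comm, div_div_div_cancel_right₀ (by positivity)]
  have h0 : ∀ a : PMs (Fin n), 0 ≤ piK (ker n c) a := fun a => div_nonneg (W_nonneg _ _) hH.le
  rw [cl_of_nonneg (by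
    rw [e]; exact div_nonneg (mul_nonneg (h0 _) (h0 _)) (mul_nonneg (h0 _) (h0 _))), e]
  rfl

end Sem2A

theorem E_colP (hn : 0 < n) (hN : 0 < N) (hc : Ker (ker n c)) (hH : 0 < H (ker n c) univ)
    (x : Fin N → PMs (Fin n)) (g : List (List ℕ) → ℝ) :
    E O0 (colP n c (encN x)) g = Pt.PN (piK (ker n c)) mvS (fun y => g (encN y)) x := by
  have key : ∀ (i j : Fin N) (b : Bool) (k p q : Fin n),
      E O0 (if (i : ℕ) = j then .ret (encN x) else accP c (encN x) i j
        (mvL b k p q ((encN x).getD i []) ((encN x).getD j []))) g =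
      if i = j then g (encN x) else
        Pt.al (piK (ker n c)) mvS (b, k, p, q) (x i, x j) *
          g (encN (Pt.nx mvS i j (b, k, p, q) x)) +
        (1 - Pt.al (piK (ker n c)) mvS (b, k, p, q) (x i, x j)) * g (encN x) := by
    intro i j b k p q
    by_cases h : i = j
    · rw [if_pos h, if_pos (by rw [h]), E_ret]
    · rw [if_neg h, if_neg fun e => h (Fin.ext e), get_encN, get_encN]
      exact E_accP hc hH x g i j (b, k, p, q)
  have hn' : (n : ℝ) ≠ 0 := by positivity
  have hN' : (N : ℝ) ≠ 0 := by positivity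
  rw [colP, Pt.PN]
  obtain ⟨F, hF⟩ : ∃ F : Fin N → Fin N → Bool × Fin n × Fin n × Fin n → ℝ, ∀ i j θ, F i j θ =
      if i = j then g (encN x) else
        Pt.al (piK (ker n c)) mvS θ (x i, x j) * g (encN (Pt.nx mvS i j θ x)) +
        (1 - Pt.al (piK (ker n c)) mvS θ (x i, x j)) * g (encN x) := ⟨_, fun _ _ _ => rfl⟩
  simp only [← hF] at key ⊢
  simp only [E_bind, E_coinP, cl_half, len_encN, E_unifP hn, E_unifP hN, Finset.sum_range, key,
    Fintype.sum_prod_type, Fintype.sum_bool, Fintype.card_prod, Fintype.card_bool,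
    Fintype.card_fin]
  simp only [← sum_div, sum_add_distrib, ← mul_sum, ← mul_div_assoc, ← add_div]
  push_cast
  field_simp
  ring

theorem E_cesP (hn : 0 < n) (hN : 0 < N) (hc : Ker (ker n c)) (hH : 0 < H (ker n c) univ) {L : ℕ}
    (hL : 0 < L) (x : Fin N → PMs (Fin n)) (g : List (List ℕ) → ℝ) :
    E O0 (cesP n c L (encN x)) g = Pt.ces (piK (ker n c)) mvS L (fun y => g (encN y)) x := by
  have key : ∀ (l : List ℕ) (x : Fin N → PMs (Fin n)),
      E O0 (foldP l (fun xs _ => colP n c xs) (encN x)) g =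
        (Pt.PN (piK (ker n c)) mvS)^[l.length] (fun y => g (encN y)) x := by
    intro l
    induction l with
    | nil => intro D; rfl
    | cons a l ih =>
      intro D
      rw [foldP, E_bind, E_colP hn hN hc hH, List.length_cons, Function.iterate_succ_apply']
      exact PN_congr _ _ ih D
  rw [cesP, E_bind, E_unifP hL, Pt.ces]
  refine congrArg (· / (L : ℝ)) (sum_congr rfl fun l hl => ?_)
  rw [key, List.length_range, min_eq_left (mem_range.1 hl).le]

end Vale.Agent.P308
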