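import Vale.Agent.P308.Star
import Vale.Agent.P308.Samp
import Vale.Agent.P308.Est2

/-! One round, and one run (job Stage2). -/

namespace Vale.Agent.P308

open Finset P317 P317.Prog P328

variable {n : ℕ} {G : SimpleGraph (Fin n)}

/-- the invariant after `t` rounds -/
def Inv2 (G : SimpleGraph (Fin n)) (e t : ℕ) (s : St × Hs) : Prop :=
  Inv G e t s.1 ∧ CloseN (NP n e) (aK G + bK n e s.1.1) (histP (adj G) e s.2)
    (1 / (2 * GG n e) + t * (1 / (2 * TT n e * GG n e)))

namespace Stage2X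

lemma TT_pos {e : ℕ} (h2 : 2 ≤ n) (he : 1 ≤ e) : 0 < TT n e := by
  have : 0 < n := by omega
  have : 0 < e := he
  unfold TT
  positivity

lemma NP_pos {e : ℕ} (h2 : 2 ≤ n) (he : 1 ≤ e) : 0 < NP n e := by
  have : 0 < n := by omega
  have := TT_pos h2 he
  have := SemA.GG_pos he h2
  unfold NP RR KK
  positivity

lemma kp {e : ℕ} (h2 : 2 ≤ n) (he : 1 ≤ e) {k : List (List ℕ)}
    (h : ∀ u v : Fin n, kent k u v = kent k v u) :
    Ker (aK G + bK n e k) ∧ Pos (aK G + bK n e k) :=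
  ⟨(ker_aK G).add (ker_bK h2 he h), Pos.add (ker_aK G) fun u v _ => bK_pos h2 he _ u v⟩

end Stage2X

open Stage2X

theorem Inv2.close {e t : ℕ} (hn : Even n) (h2 : 2 ≤ n) (he : 1 ≤ e) (ht : t ≤ TT n e)
    {s : St × Hs} (h : Inv2 G e t s) :
    Close (aK G + bK n e s.1.1) (sampP (adj G) e s.2) (1 / GG n e) := by
  obtain ⟨k1, k2⟩ := kp (G := G) h2 he h.1.symm
  have h1 := samp_close hn (NP_pos h2 he) k1 k2 h.2
  intro g hg
  refine (h1 g hg).trans ?_
  have T0 : (0 : ℝ) < TT n e := by exact_mod_cast TT_pos h2 he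
  have G0 : (0 : ℝ) < GG n e := by exact_mod_cast SemA.GG_pos he h2
  have ht' : (t : ℝ) ≤ TT n e := by exact_mod_cast ht
  have h3 : (t : ℝ) * (1 / (2 * TT n e * GG n e)) ≤ TT n e * (1 / (2 * TT n e * GG n e)) :=
    mul_le_mul_of_nonneg_right ht' (by positivity)
  have h4 : (TT n e : ℝ) * (1 / (2 * TT n e * GG n e)) = 1 / (2 * GG n e) := by field_simp
  have h5 : (1 : ℝ) / GG n e = 1 / (2 * GG n e) + 1 / (2 * GG n e) := by field_simp; ring
  linarith

theorem round_good2 {e t : ℕ} (hn : Even n) (h2 : 2 ≤ n) (he : 1 ≤ e) (ht : t < TT n e)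
    {s : St × Hs} (h : Inv2 G e t s) :
    1 - ((n : ℝ) ^ 2 + 1) * ((GG n e : ℝ) ^ 2 / NN n e) ≤
      Pr O0 (round2 (adj G) e s) (Inv2 G e (t + 1)) := by
  have hcl := h.close hn h2 he ht.le
  obtain ⟨s, hs⟩ := s
  obtain ⟨h, hN⟩ := h
  dsimp only at h hN hcl
  obtain ⟨k1, k2⟩ := kp (G := G) h2 he h.symm
  have hg := h.good hn h2 he
  have h0 := eta_pos h2
  have n0 : (0 : ℝ) < n := by exact_mod_cast (by omega : 0 < n)
  have G1 : (200 : ℝ) * n ^ 2 ≤ GG n e := by exact_mod_cast GG_ge h2 he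
  have n2 : (2 : ℝ) ≤ n := by exact_mod_cast h2
  have G0 : (0 : ℝ) < GG n e := by nlinarith
  have w0 : 0 ≤ 1 - 8 / (GG n e : ℝ) := by
    rw [sub_nonneg, div_le_one G0]; nlinarith
  rw [round2, adj_length]
  dsimp only
  refine le_trans (le_of_eq (by ring)) (Pr_bind (freq_close2 h2 he k1 hcl) (fun Xs hX => ?_)
    (η' := (GG n e : ℝ) ^ 2 / NN n e) (by positivity))
  obtain ⟨a1, a2, a3, a4, a5⟩ := h.next hn h2 he ht (Xs := Xs) fun u v uv => by
    have b0 := bK_pos h2 he s.1 u v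
    have a0 := (ker_aK G).nonneg u v
    have y1 : bK n e s.1 u v / (aK G u v + bK n e s.1 u v) ≤ 1 :=
      (div_le_one (by linarith)).2 (by linarith)
    have e1 : ((phat (adj G) e s.1 Xs u v : ℚ) : ℝ) - pv (aK G) (bK n e s.1) u v =
        (((Xs.countP fun X => decide (X.getD (min (u : ℕ) v) 0 = max (u : ℕ) v) : ℕ) : ℝ) / NN n e -
          (aK G + bK n e s.1) u v * Q (aK G + bK n e s.1) u v / H (aK G + bK n e s.1) univ) *
          (bK n e s.1 u v / (aK G u v + bK n e s.1 u v)) := by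
      rw [phat, adj_length, pv, Pi.add_apply, Pi.add_apply]
      push_cast
      rw [aent_adj]
      have : aK G u v + bK n e s.1 u v ≠ 0 := by linarith
      simp only [bK] at this ⊢
      field_simp
    have h1 := hX u v uv
    rw [e1, abs_mul, abs_of_nonneg (a := _ / (_ + _)) (by positivity)]
    refine (mul_le_of_le_one_right (abs_nonneg _) y1).trans (h1.trans ?_)
    simp only [del, Fintype.card_fin]
    rw [div_div, div_le_div_iff₀ G0 (by positivity)]
    linarith
  obtain ⟨k3, k4⟩ := kp (G := G) h2 he a1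
  have r := rat_close2 (c := cM (adj G) e s.1) (c' := cM (adj G) e (nxt (adj G) e s Xs))
    (p := sampP (adj G) e hs) hn h2 he (by rw [ker_cM]; exact k1) (by rw [ker_cM]; exact k2)
    (by rw [ker_cM]; exact hcl) (by rw [ker_cM]; exact k3)
    (fun X _ => by
      rw [ker_cM, ker_cM]
      exact (W_le_of_le (by linarith) (fun u v _ => bK_le h2 he (fun u v => (a2 u v).2) u v) X).trans
        (mul_le_mul_of_nonneg_right (kap_pow h2) (W_nonneg _ _)))
    (by
      rw [ker_cM, ker_cM]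
      exact (H_le_of_le (by linarith) (fun u v _ => bK_le h2 he (fun u v => (a2 u v).1) u v) _).trans
        (mul_le_mul_of_nonneg_right (kap_pow h2) (H_nonneg _ _)))
  have sl := slow_close (c := cM (adj G) e s.1) (c' := cM (adj G) e (nxt (adj G) e s Xs))
    (P := histP (adj G) e hs) (β := 1 / (2 * GG n e) + t * (1 / (2 * TT n e * GG n e))) hn h2 he
    (by rw [ker_cM]; exact k1) (by rw [ker_cM]; exact k2) (by rw [ker_cM]; exact k3)
    (by rw [ker_cM]; exact k4) hg.marg
    (by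
      rw [ker_cM, ker_cM]
      exact fun u v _ => ⟨bK_le h2 he (fun u v => (a2 u v).1) u v,
        bK_le h2 he (fun u v => (a2 u v).2) u v⟩)
    (by rw [ker_cM]; exact hN)
  rw [ker_cM] at sl
  rw [Pr_bind_ret]
  refine r.trans (Pr_mono _ fun r hr => ?_)
  rw [ker_cM, ker_cM] at hr
  have f0 : (0 : ℝ) ≤ r * (2 / NN n e) := by positivity
  refine ⟨⟨a1, fun u v => ?_, fun u v => ?_, a3, ?_, ?_, a4, fun k => ?_⟩, fun g hg' => ?_⟩
  · have := (a2 u v).1
    have := h.lo u v
    dsimp only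
    omega
  · have := (a2 u v).2
    have := h.hi u v
    dsimp only
    omega
  · have h1 := mul_le_mul_of_nonneg_left hr.1 (pow_nonneg w0 t)
    have h3 := mul_le_mul_of_nonneg_left h.rlo f0
    dsimp only
    push_cast
    simp only [pow_succ]
    linarith
  · have h1 := mul_le_mul_of_nonneg_left hr.2
      (show 0 ≤ (1 + 8 / (GG n e : ℝ)) ^ t by positivity)
    have h3 := mul_le_mul_of_nonneg_left h.rhi f0
    dsimp only
    push_cast
    simp only [pow_succ]
    linarith
  · have h1 := a5 k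
    have h3 := h.pot (by simpa using (Bool.or_eq_false_iff.1 k).1)
    dsimp only
    push_cast
    linarith
  · dsimp only
    rw [E_hist_snoc, adj_length]
    refine (sl g hg').trans (le_of_eq ?_)
    push_cast
    ring

theorem run_good2 (G : SimpleGraph (Fin n)) (hn : Even n) (h2 : 2 ≤ n) {e : ℕ} {ε : ℚ}
    (hε : ε < 1) (he : 1 ≤ e) (heε : 1 ≤ ε * e) :
    14 / 15 ≤ Pr O0 (run2 (adj G) e) fun v =>
      (1 - ε) * numPM G ≤ v ∧ v ≤ (1 + ε) * numPM G := by
  have _ := hε
  have n2 : (2 : ℝ) ≤ n := by exact_mod_cast h2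
  have e1 : (1 : ℝ) ≤ e := by exact_mod_cast he
  have hT : (TT n e : ℝ) = 3000 * n ^ 5 * e := by rw [TT]; push_cast; rfl
  have T1 : (1 : ℝ) ≤ TT n e := by exact_mod_cast TT_pos h2 he
  have hG : (GG n e : ℝ) = 64 * TT n e * e := by rw [GG]; push_cast; rfl
  have hN : (NN n e : ℝ) = 60 * n ^ 2 * TT n e * GG n e ^ 2 := by rw [NN]; push_cast; rfl
  have hB : (BB n e : ℝ) = 8 * n * e := by rw [BB]; push_cast; rfl
  have G0 : (0 : ℝ) < GG n e := by rw [hG]; positivity
  have N0 : (0 : ℝ) < NN n e := by exact_mod_cast SemA.NN_pos he h2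
  have r0 : (0 : ℝ) ≤ (GG n e : ℝ) ^ 2 / NN n e := by positivity
  have hn' : Even (Fintype.card (Fin n)) := by simpa
  have h1 := Pr_foldP_range (O := O0) (TT n e) (fun s _ => round2 (adj G) e s) (Inv2 G e)
    (by positivity) (fun t ht s hs => round_good2 hn h2 he ht hs) (s0 n e, [])
    ⟨inv_zero hn h2 he, by simpa using hist_nil G hn h2 he⟩
  rw [run2, adj_length]
  refine le_trans ?_ (Pr_bind h1 (fun s hs => ?_) r0)
  · have : (GG n e : ℝ) ^ 2 / NN n e = 1 / (60 * n ^ 2 * TT n e) := by rw [hN]; field_simp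
    rw [this]
    have h3 : (TT n e * (n ^ 2 + 1) + 1) * (1 / (60 * n ^ 2 * TT n e)) ≤ (1 / 15 : ℝ) := by
      rw [mul_one_div, div_le_div_iff₀ (by positivity) (by norm_num)]
      nlinarith [mul_le_mul_of_nonneg_left (show (1 : ℝ) ≤ n ^ 2 by nlinarith)
        (by linarith : (0 : ℝ) ≤ TT n e)]
    linarith
  have hcl := hs.close hn h2 he le_rfl
  obtain ⟨s, hh⟩ := s
  replace hs := hs.1
  dsimp only at hs hcl ⊢
  obtain ⟨k1, k2⟩ := kp (G := G) h2 he hs.symm
  have kb := ker_bK h2 he hs.symm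
  have pb : Pos (bK n e s.1) := fun u v _ => bK_pos h2 he _ u v
  have ka : Ker (ker n (aM (adj G))) := by rw [ker_aM]; exact ker_aK G
  rw [Pr_bind_ret]
  by_cases h0 : H (aK G) univ = 0
  · have hz : numPM G = 0 := by exact_mod_cast (numPM_eq G).trans h0
    have := rat_small (c := cM (adj G) e s.1) (c' := aM (adj G)) (p := sampP (adj G) e hh) h2 he
      (by rw [ker_cM]; exact hcl) ka (by rw [ker_aM, h0])
    refine this.trans (Pr_mono _ fun r hr => ?_)
    simp [hr, hz]
  obtain ⟨M, hM, hM1⟩ := exists_pm G h0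
  have hd : s.2.2 = true := by
    by_contra hd
    have a1 := hs.pot (by simpa using hd)
    have a2 := Phi_nonneg (ker_aK G) kb pb hM fun u v _ h => (h ▸ hM1 u).ge
    have a3 := Phi_init (ker_aK G) (aK_le_one G) hn' (BB_pos h2 he) (bK_s0 e)
    have a4 : (TT n e : ℝ) * (eta (Fin n) * del (Fin n) / 4) = 75 / 8 * (n ^ 2 * e) := by
      simp only [hT, eta, del, Fintype.card_fin]; field_simp; ring
    rw [Fintype.card_fin, hB] at a3
    nlinarith [mul_le_mul_of_nonneg_left e1 (sq_nonneg (n : ℝ))]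
  have le1 : ∀ (b : Fin n → Fin n → ℝ), Ker b → ∀ u v, u ≠ v → aK G u v ≤ 1 * (aK G + b) u v :=
    fun b hb u v _ => by simpa using hb.nonneg u v
  have hh2 := H_half (ker_aK G) kb pb hn' (hs.done hd)
  have r := rat_close2 (c := cM (adj G) e s.1) (c' := aM (adj G)) (p := sampP (adj G) e hh) hn h2 he
    (by rw [ker_cM]; exact k1) (by rw [ker_cM]; exact k2) (by rw [ker_cM]; exact hcl) ka
    (fun X _ => by
      have := W_le_of_le le_rfl (le1 _ kb) X
      rw [ker_cM, ker_aM]
      rw [one_pow, one_mul] at this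
      linarith [W_nonneg (aK G + bK n e s.1) X])
    (by rw [ker_cM, ker_aM]; exact hh2)
  refine r.trans (Pr_mono _ fun r hr => ?_)
  rw [ker_cM, ker_aM] at hr
  have hHp : 0 < H (aK G + bK n e s.1) univ := H_pos k1 k2 (by simpa using hn)
  have y0 : 0 < 1 / (8 * (e : ℝ)) := by positivity
  have y1 : 1 / (8 * (e : ℝ)) ≤ 1 / 8 := one_div_le_one_div_of_le (by norm_num) (by linarith)
  set y := 1 / (8 * (e : ℝ)) with hy
  have w1 : ((TT n e + 1 : ℕ) : ℝ) * (8 / GG n e) ≤ 2 * y := by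
    rw [hG, hy, ← mul_div_assoc, ← mul_div_assoc, div_le_div_iff₀ (by positivity) (by positivity)]
    push_cast
    nlinarith
  have w0 : 0 ≤ 8 / (GG n e : ℝ) := by positivity
  have w5 : 8 / (GG n e : ℝ) ≤ 1 / 2 := by push_cast at w1; nlinarith
  have big : ¬ 8 * r < NN n e := by
    rw [not_lt, ← @Nat.cast_le ℝ]
    push_cast
    have q1 : 1 / 4 * H (aK G + bK n e s.1) univ ≤
        r * (2 / (NN n e : ℝ)) * H (aK G + bK n e s.1) univ := by
      nlinarith [hr.1, mul_le_mul_of_nonneg_right w5 (H_nonneg (aK G) univ)]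
    have q2 := le_of_mul_le_mul_right q1 hHp
    rw [← mul_div_assoc, le_div_iff₀ N0] at q2
    linarith
  rw [if_neg big]
  rw [← numPM_eq] at hr
  obtain ⟨k, hk⟩ := hn
  have z0 : (Z0 n e : ℝ) = H (fun _ _ : Fin n => (BB n e : ℝ)) univ := by
    rw [H_const (k := k) (by positivity) (by simp; omega), Z0, show n / 2 = k by omega]
    push_cast; rfl
  have B1 := BB_pos h2 he
  have z1 : (Z0 n e : ℝ) ≤ H (aK G + bK n e (s0 n e).1) univ := by
    have := H_le_of_le (c := fun _ _ : Fin n => (BB n e : ℝ)) (c' := aK G + bK n e (s0 n e).1) le_rfl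
      (fun u v _ => by simpa [bK_s0] using (ker_aK G).nonneg u v) univ
    rwa [one_pow, one_mul, ← z0] at this
  have z2 : H (aK G + bK n e (s0 n e).1) univ ≤ (1 + 2 * y) * Z0 n e := by
    have := H_le_of_le (c' := fun _ _ : Fin n => (BB n e : ℝ)) (c := aK G + bK n e (s0 n e).1)
      (lam := 1 + 1 / BB n e) (le_add_of_nonneg_right (by positivity)) (fun u v _ => by
        rw [Pi.add_apply, Pi.add_apply, bK_s0, add_mul, one_div_mul_cancel (by linarith)]
        linarith [aK_le_one G u v]) univ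
    rw [← z0, Fintype.card_fin] at this
    refine this.trans (mul_le_mul_of_nonneg_right (pow_le_of (by positivity) (le_of_eq ?_)
      (by linarith)) (by positivity))
    rw [hB, hy]; field_simp
  have w2 := pow_le_of w0 w1 (by linarith)
  have w4 : 8 / (GG n e : ℝ) ≤ 1 := by linarith
  have w3 := one_add_mul_le_pow (a := -(8 / (GG n e : ℝ))) (by linarith) (TT n e + 1)
  have hε' : 8 * y ≤ ε := by
    have : (1 : ℝ) ≤ ε * e := by exact_mod_cast heε
    rw [hy, mul_one_div, div_le_iff₀ (by positivity)]; linarith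
  rw [← sub_eq_add_neg, pow_succ] at w3
  rw [pow_succ] at w2
  have k := numerics (Nat.cast_nonneg _) (by positivity) (by positivity)
    (pow_nonneg (sub_nonneg.2 w4) _) (by positivity) y0.le hr.1 hr.2 hs.rlo hs.rhi z1 z2 w2
    (by linarith) hε'
  rw [← @Rat.cast_le _ _ ℝ, ← @Rat.cast_le _ _ ℝ]
  push_cast
  rw [pow_succ]
  constructor <;> linarith [k.1, k.2]

end Vale.Agent.P308
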