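import Vale.Agent.P308.Sem2
import Vale.Agent.P308.Stage

/-! The first copies (job Star). -/

namespace Vale.Agent.P308

open Finset P317 P317.Prog P328

namespace StarA

open GA in
lemma zero {V : Type} [Fintype V] [DecidableEq V] {c : V → V → ℝ} (hp : Pos c) (U : Finset V)
    (X0 : V → V) (f : (V → V) → ℝ) (hU : U.card ≤ 6) :
    var (Cl U X0) (W c) f ≤ 1 * nearE c (Cl U X0) f := by
  rw [one_mul]
  refine var_le hp _ f (nearE_nonneg _ _ _) (le_trans ?_ (le_mul_of_one_le_left
    (mul_nonneg (sum_nonneg fun _ _ => W_nonneg _ _) (nearE_nonneg _ _ _)) one_le_two))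
  rw [nearE, mul_sum]
  refine sum_le_sum fun X hX => ?_
  rw [mul_sum]
  refine sum_le_sum fun Y hY => ?_
  have h6 : (univ.filter fun v => X v ≠ Y v).card ≤ 6 :=
    (card_le_card fun v hv => mem_of_ne hX hY (mem_filter.1 hv).2).trans hU
  rw [if_pos h6, ← mul_assoc, sub_sq_comm]
  refine mul_le_mul_of_nonneg_right ?_ (sq_nonneg _)
  have s := fun Z hZ => single_le_sum (f := W c) (fun x (_ : x ∈ Cl U X0) => W_nonneg c x)
    (a := Z) hZ
  rcases le_total (W c X) (W c Y) with e | e
  · rw [min_eq_left e, mul_comm]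
    exact mul_le_mul_of_nonneg_right (s Y hY) (W_nonneg _ _)
  · rw [min_eq_right e]
    exact mul_le_mul_of_nonneg_right (s X hX) (W_nonneg _ _)

open GA in
lemma step {V : Type} [Fintype V] [DecidableEq V] {c : V → V → ℝ} (hc : Ker c)
    (hp : Pos c) {K : ℝ} (hK : 1 ≤ K) (b2 : Four c K fun v => {v}) (U : Finset V) (X0 : V → V)
    (f : (V → V) → ℝ) :
    var (Cl U X0) (W c) f ≤ 2 * (Fintype.card V : ℝ) ^ 14 * K * nearE c (Cl U X0) f := by
  have E0 := nearE_nonneg c (Cl U X0) f
  set UU : V × V × V × V → Finset V := fun j =>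
    U.filter fun v => v = j.1 ∨ v = j.2.1 ∨ v = j.2.2.1 ∨ v = j.2.2.2 with hUU
  have cU : ∀ j, (UU j).card ≤ 6 := fun j => by
    have h1 : UU j ⊆ insert j.1 {j.2.1, j.2.2.1, j.2.2.2} := by
      intro v hv
      simp only [hUU, mem_filter, mem_insert, mem_singleton] at hv ⊢
      tauto
    have h2 := (card_le_card h1).trans (card_insert_le _ _)
    have h3 := card_le_three (a := j.2.1) (b := j.2.2.1) (c := j.2.2.2)
    omega
  set r : (V → V) → ℝ := fun X => √(∑ j, (f X - mean c (Cl (UU j) X) f) ^ 2) with hr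
  have r1 : ∀ X j, |f X - mean c (Cl (UU j) X) f| ≤ r X := fun X j =>
    Real.abs_le_sqrt (single_le_sum (f := fun j => (f X - mean c (Cl (UU j) X) f) ^ 2)
      (fun _ _ => sq_nonneg _) (mem_univ j))
  have r2 : ∑ X ∈ Cl U X0, W c X * r X ^ 2 ≤ (Fintype.card V : ℝ) ^ 4 *
      (1 * nearE c (Cl U X0) f) := by
    simp only [hr, Real.sq_sqrt (sum_nonneg fun _ _ => sq_nonneg _), mul_sum]
    rw [sum_comm]
    refine (sum_le_sum fun j _ => blocks hp (filter_subset _ _) X0 f zero_le_one
      fun X => zero hp _ X f (cU j)).trans (le_of_eq ?_)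
    simp only [sum_const, card_univ, Fintype.card_prod, nsmul_eq_mul]
    push_cast
    ring
  have p := path hc hp hK b2 U X0 f r (fun _ => Real.sqrt_nonneg _) fun X hX Y hY u p q t ha => by
    have e : Cl (UU (u, p, q, t)) X = Cl (UU (u, p, q, t)) Y := Cl_eq fun v hv => by
      by_contra hn
      refine hv (mem_filter.2 ⟨mem_of_ne hX hY hn, ?_⟩)
      by_contra h2
      simp only [not_or] at h2
      exact hn (ha v (fun k => h2.1 (singleton_injective k)) h2.2.1 h2.2.2.1 h2.2.2.2)
    have h1 := r1 X (u, p, q, t)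
    have h2 := r1 Y (u, p, q, t)
    rw [e] at h1
    rw [abs_sub_comm] at h2
    exact (abs_sub_le _ _ _).trans (add_le_add h1 h2)
  refine var_le hp _ f (by positivity) ((tele c U X0 f).trans ?_)
  have Z0 : 0 ≤ ∑ X ∈ Cl U X0, W c X := sum_nonneg fun _ _ => W_nonneg _ _
  refine (mul_le_mul_of_nonneg_left (sum_le_sum fun k _ => (p k).trans
    (mul_le_mul_of_nonneg_left r2 (by positivity))) (by positivity)).trans (le_of_eq ?_)
  simp only [sum_const, card_univ, nsmul_eq_mul]
  ring

lemma Ex_succ {Ω : Type} [Fintype Ω] {N : ℕ} (π : Ω → ℝ) (F : (Fin (N + 1) → Ω) → ℝ) :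
    Pt.Ex π F = ∑ a, π a * Pt.Ex π fun x : Fin N → Ω => F (Fin.cons a x) := by
  unfold Pt.Ex
  rw [← (Fin.consEquiv fun _ : Fin (N + 1) => Ω).sum_comp, Fintype.sum_prod_type]
  refine sum_congr rfl fun a _ => ?_
  rw [mul_sum]
  refine sum_congr rfl fun x _ => ?_
  rw [Fin.prod_univ_succ, ← mul_assoc]
  rfl

lemma encN_cons {n N : ℕ} (a : PMs (Fin n)) (x : Fin N → PMs (Fin n)) :
    encN (Fin.cons a x : Fin (N + 1) → PMs (Fin n)) = enc a.1 :: encN x := by
  simp [encN, List.ofFn_succ]

lemma E_abs_sub {β : Type} (p : Prog Unit β) {f g : β → ℝ} {b : ℝ} (h : ∀ x, |f x - g x| ≤ b) :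
    |E O0 p f - E O0 p g| ≤ b := by
  rw [← E_sub, abs_le]
  constructor
  · rw [← E_const O0 p (-b)]
    exact E_mono _ _ fun x => (abs_le.1 (h x)).1
  · rw [← E_const O0 p b]
    exact E_mono _ _ fun x => (abs_le.1 (h x)).2

end StarA

/-- one step of the recursion is enough if all exchanges are cheap -/
theorem gap_star {V : Type} [Fintype V] [DecidableEq V] [Nonempty V] {c : V → V → ℝ} (hc : Ker c)
    (hp : Pos c) {K : ℝ} (hK : 1 ≤ K) (h4 : Four c K fun v => {v}) (f : (V → V) → ℝ) :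
    var (PMon univ) (W c) f ≤ 2 * (Fintype.card V : ℝ) ^ 18 * K *
      ∑ X ∈ PMon univ, ∑ Y ∈ PMon univ, qm X Y * (min (W c X) (W c Y) * (f Y - f X) ^ 2) := by
  have h := StarA.step hc hp hK h4 univ id f
  have e2 : Cl univ (id : V → V) = PMon univ := by ext X; simp [mem_Cl]
  rw [e2] at h
  refine h.trans ((mul_le_mul_of_nonneg_left (nearE_le c f) (by positivity)).trans (le_of_eq ?_))
  ring

variable {n : ℕ}

/-- the hybrid argument -/
theorem close_rep {c : Fin n → Fin n → ℝ} (hc : Ker c) (hp : Pos c) (he : Even n)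
    {p : Prog Unit (List ℕ)} {β : ℝ} (h : Close c p β) (N : ℕ) :
    CloseN N c (rep N p) (N * β) := by
  have hs := sys_piK hc hp (by rwa [Fintype.card_fin])
  have key : ∀ l : List ℕ, CloseN l.length c (mapP l fun _ => p) (l.length * β) := by
    intro l
    induction l with
    | nil =>
      intro g _
      have e : (fun x : Fin 0 → PMs (Fin n) => g (encN x)) = fun _ => g [] := by
        funext x; simp [encN]
      simp only [List.length_nil]
      rw [E_mapP_nil, e, Pt.Ex_const hs.sum]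
      simp
    | cons a l ih =>
      intro g hg
      simp only [List.length_cons]
      rw [E_mapP_cons, StarA.Ex_succ]
      simp only [StarA.encN_cons]
      have h1 := StarA.E_abs_sub p fun b => ih (fun bs => g (b :: bs)) fun _ => hg _
      have h2 := h (fun b => Pt.Ex (piK c) fun x : Fin l.length → PMs (Fin n) => g (b :: encN x))
        fun b => Pt.Ex_abs (fun a => (hs.pos a).le) hs.sum fun _ => hg _
      rw [← sum_piK c fun X => Pt.Ex (piK c) fun x : Fin l.length → PMs (Fin n) =>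
        g (enc X :: encN x)] at h2
      refine (abs_sub_le _ _ _).trans ((add_le_add h1 h2).trans (le_of_eq ?_))
      push_cast
      ring
  have h1 := key (List.range N)
  rw [List.length_range] at h1
  exact h1

theorem hist_nil (G : SimpleGraph (Fin n)) {e : ℕ} (hn : Even n) (h2 : 2 ≤ n) (he : 1 ≤ e) :
    CloseN (NP n e) (aK G + bK n e (s0 n e).1) (histP (adj G) e []) (1 / (2 * GG n e)) := by
  have h := (inv_zero (G := G) hn h2 he).good hn h2 he
  have hp : Pos (ker n (cM (adj G) e (s0 n e).1)) :=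
    fun u v huv => lt_of_lt_of_le (by positivity) (h.bd u v huv).1
  have : Nonempty (Fin n) := ⟨⟨0, by omega⟩⟩
  have hB := BB_pos h2 he
  have h4 : Four (ker n (cM (adj G) e (s0 n e).1)) 4 fun v => {v} := by
    have lo : ∀ u v, (BB n e : ℝ) ≤ ker n (cM (adj G) e (s0 n e).1) u v := fun u v => by
      rw [ker_cM, Pi.add_apply, Pi.add_apply, bK_s0]
      linarith [(ker_aK G).nonneg u v]
    have hi : ∀ u v, ker n (cM (adj G) e (s0 n e).1) u v ≤ 2 * BB n e := fun u v => by
      rw [ker_cM, Pi.add_apply, Pi.add_apply, bK_s0]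
      linarith [aK_le_one G u v]
    intro r b y z _ _ _ _
    have a1 := mul_le_mul (hi r y) (hi b z) (h.kc.nonneg _ _) (by linarith)
    have a2 := mul_le_mul (lo r b) (lo y z) (by linarith) (h.kc.nonneg _ _)
    linarith
  have hC : 1 ≤ 8 * n ^ 18 := Nat.mul_pos (by norm_num) (Nat.pow_pos (by omega))
  have hd := H_le_two_pow h.bd (SemA.X0 hn)
  rw [Fintype.card_fin] at hd
  have hw : Close (ker n (cM (adj G) e (s0 n e).1))
      (walkP n (cM (adj G) e (s0 n e).1) (L0 n e)) ((1 / 2) ^ (GG n e + NP n e)) := by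
    intro g hg
    rw [SemA.E_walkP hn (by omega) h.kc]
    refine mix_nat (fun X _ => W_pos hp X) (fun X _ Y _ => qm_nonneg X Y) (fun X hX => qm_sum hX)
      (fun X _ Y _ => qm_symm X Y) hC (fun f => ?_) _ (fun X _ => hg _) (SemA.X0_mem hn) hd
    refine (gap_star h.kc hp (by norm_num) h4 f).trans (le_of_eq ?_)
    rw [Fintype.card_fin]
    push_cast
    ring
  have h3 := close_rep h.kc hp hn hw (NP n e)
  intro g hg
  have h5 := h3 g hg
  rw [ker_cM] at h5
  have e1 : E O0 (histP (adj G) e []) g =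
      E O0 (rep (NP n e) (walkP n (cM (adj G) e (s0 n e).1) (L0 n e))) g := by
    rw [histP, adj_length, E_bind]
    rfl
  rw [e1]
  refine h5.trans ?_
  have hG := SemA.GG_pos he h2
  generalize GG n e = a at hG ⊢
  generalize NP n e = b
  obtain ⟨k, rfl⟩ : ∃ k, a = k + 1 := ⟨a - 1, by omega⟩
  have a1 : ((k + 1 : ℕ) : ℝ) ≤ 2 ^ k := by exact_mod_cast Nat.lt_two_pow_self
  have a2 : (b : ℝ) ≤ 2 ^ b := by exact_mod_cast Nat.lt_two_pow_self.le
  have a3 : (0 : ℝ) < ((k + 1 : ℕ) : ℝ) := by positivity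
  rw [one_div_pow, mul_one_div, div_le_div_iff₀ (by positivity) (by positivity), pow_add, pow_succ]
  have a4 := mul_le_mul a2 a1 a3.le (by positivity)
  linarith

end Vale.Agent.P308
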