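import Vale.Agent.P308.Rec

/-! The exchange inequality for hafnians (job Wick). -/

namespace Vale.Agent.P308

open Finset

variable {V : Type} [Fintype V] [DecidableEq V] {c : V → V → ℝ}

namespace WickAux

lemma H_insert (hc : Ker c) {T : Finset V} {u : V} (hT : u ∉ T) :
    H c (insert u T) = ∑ w ∈ T, c u w * H c (T.erase w) := by
  rw [H_rec hc (mem_insert_self u T), erase_insert hT]

lemma sum_le (hc : Ker c) {T A : Finset V} {u : V} (hT : u ∉ T) (hA : A ⊆ T) :
    ∑ w ∈ A, c u w * H c (T.erase w) ≤ H c (insert u T) := by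
  rw [H_insert hc hT]
  exact sum_le_sum_of_subset_of_nonneg hA fun w _ _ => mul_nonneg (hc.nonneg _ _) (H_nonneg _ _)

end WickAux

open WickAux

theorem wick (hc : Ker c) (S T : Finset V) (u : V) (hS : u ∈ S) (hT : u ∉ T) :
    H c S * H c T ≤
      ∑ v ∈ (S \ T).erase u, H c ((S.erase u).erase v) * H c (insert u (insert v T)) +
      ∑ v ∈ T \ S, H c (insert v (S.erase u)) * H c (insert u (T.erase v)) := by
  induction hn : S.card + T.card using Nat.strong_induction_on generalizing S T u with
  | _ n ih =>
    have hsplit : S.erase u = (S \ T).erase u ∪ S ∩ T := by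
      ext v
      simp only [mem_erase, mem_union, mem_sdiff, mem_inter]
      constructor
      · intro h
        by_cases hv : v ∈ T <;> simp [h.1, h.2, hv]
      · rintro (h | h)
        · exact ⟨h.1, h.2.1⟩
        · exact ⟨fun e => hT (e ▸ h.2), h.1⟩
    have hdisj : Disjoint ((S \ T).erase u) (S ∩ T) := by
      rw [disjoint_left]
      intro v h1 h2
      exact (mem_sdiff.1 (mem_of_mem_erase h1)).2 (mem_inter.1 h2).2
    have step : ∀ w ∈ S ∩ T, H c ((S.erase u).erase w) * H c T ≤
        ∑ v ∈ T \ S, H c (insert v (S.erase u)) * H c ((T.erase v).erase w) +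
        ∑ v ∈ (S \ T).erase u, H c ((S.erase u).erase v) * H c ((insert v T).erase w) := by
      intro w hw
      obtain ⟨hwS, hwT⟩ := mem_inter.1 hw
      have hwu : w ≠ u := fun e => hT (e ▸ hwT)
      have h1 := card_erase_add_one hS
      have h2 := card_erase_le (s := S.erase u) (a := w)
      have := ih _ (by omega) T ((S.erase u).erase w) w hwT (notMem_erase _ _) rfl
      have e1 : (T \ (S.erase u).erase w).erase w = T \ S := by
        ext v
        simp only [mem_erase, mem_sdiff, not_and]
        constructor
        · exact fun h => ⟨h.2.1, h.2.2 h.1 fun e => hT (e ▸ h.2.1)⟩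
        · exact fun h => ⟨fun e => h.2 (e ▸ hwS), h.1, fun _ _ => h.2⟩
      have e2 : (S.erase u).erase w \ T = (S \ T).erase u := by
        ext v
        simp only [mem_erase, mem_sdiff]
        constructor
        · exact fun h => ⟨h.1.2.1, h.1.2.2, h.2⟩
        · exact fun h => ⟨⟨fun e => h.2.2 (e ▸ hwT), h.1, h.2.1⟩, h.2.2⟩
      rw [e1, e2, mul_comm] at this
      refine this.trans (le_of_eq ?_)
      congr 1
      · refine sum_congr rfl fun v _ => ?_
        rw [mul_comm, insert_comm, insert_erase (mem_erase.2 ⟨hwu, hwS⟩), erase_right_comm]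
      · refine sum_congr rfl fun v hv => ?_
        have hvw : v ≠ w := fun e => (mem_sdiff.1 (mem_of_mem_erase hv)).2 (e ▸ hwT)
        rw [mul_comm, erase_right_comm, insert_erase (mem_erase.2 ⟨hvw.symm,
          mem_erase.2 ⟨hwu, hwS⟩⟩), erase_insert_of_ne hvw]
    have A1 : ∀ v ∈ T \ S, ∑ w ∈ S ∩ T, c u w * H c ((T.erase v).erase w) ≤
        H c (insert u (T.erase v)) := fun v hv =>
      sum_le hc (fun h => hT (mem_of_mem_erase h)) fun w hw => mem_erase.2
        ⟨fun e => (mem_sdiff.1 hv).2 (e ▸ (mem_inter.1 hw).1), (mem_inter.1 hw).2⟩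
    have A2 : ∀ v ∈ (S \ T).erase u, c u v * H c T +
        ∑ w ∈ S ∩ T, c u w * H c ((insert v T).erase w) ≤ H c (insert u (insert v T)) := by
      intro v hv
      have hvT := (mem_sdiff.1 (mem_of_mem_erase hv)).2
      have := sum_le hc (T := insert v T) (A := insert v (S ∩ T)) (u := u)
        (by simp [hT, (ne_of_mem_erase hv).symm]) (insert_subset_insert _ inter_subset_right)
      rwa [sum_insert (fun h => hvT (mem_inter.1 h).2), erase_insert hvT] at this
    calc H c S * H c T
        = ∑ v ∈ (S \ T).erase u, c u v * H c ((S.erase u).erase v) * H c T +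
          ∑ w ∈ S ∩ T, c u w * (H c ((S.erase u).erase w) * H c T) := by
          rw [H_rec hc hS, sum_mul]
          conv_lhs => enter [1]; rw [hsplit]
          rw [sum_union hdisj]
          simp only [mul_assoc]
      _ ≤ ∑ v ∈ (S \ T).erase u, c u v * H c ((S.erase u).erase v) * H c T +
          ∑ w ∈ S ∩ T, c u w *
            (∑ v ∈ T \ S, H c (insert v (S.erase u)) * H c ((T.erase v).erase w) +
            ∑ v ∈ (S \ T).erase u, H c ((S.erase u).erase v) * H c ((insert v T).erase w)) :=
          add_le_add_right (sum_le_sum fun w hw =>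
            mul_le_mul_of_nonneg_left (step w hw) (hc.nonneg _ _)) _
      _ = ∑ v ∈ (S \ T).erase u, H c ((S.erase u).erase v) * (c u v * H c T +
            ∑ w ∈ S ∩ T, c u w * H c ((insert v T).erase w)) +
          ∑ v ∈ T \ S, H c (insert v (S.erase u)) *
            ∑ w ∈ S ∩ T, c u w * H c ((T.erase v).erase w) := by
          simp only [mul_add, mul_sum, sum_add_distrib]
          rw [sum_comm (s := S ∩ T), sum_comm (s := S ∩ T), add_assoc, add_comm (∑ y ∈ T \ S, _)]
          congr 1
          · exact sum_congr rfl fun v _ => by ring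
          congr 1 <;> exact sum_congr rfl fun v _ => sum_congr rfl fun w _ => by ring
      _ ≤ _ := add_le_add
          (sum_le_sum fun v hv => mul_le_mul_of_nonneg_left (A2 v hv) (H_nonneg _ _))
          (sum_le_sum fun v hv => mul_le_mul_of_nonneg_left (A1 v hv) (H_nonneg _ _))

theorem four_point (hc : Ker c) {δ : ℝ} (hδ : 0 < δ) (hm : Marg c δ) {a b x y : V}
    (hab : a ≠ b) (hax : a ≠ x) (hay : a ≠ y) (hbx : b ≠ x) (hby : b ≠ y) (hxy : x ≠ y) :
    Q c a b * Q c x y ≤ Q c a x * Q c b y + (1 + 1 / δ) * (Q c a y * Q c b x) := by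
  have h := wick hc ((univ.erase x).erase y) ((univ.erase a).erase b) a (by simp [hax, hay])
    (by simp)
  have e1 : (((univ.erase x).erase y) \ ((univ.erase a).erase b)).erase a = {b} := by
    ext v
    simp only [mem_erase, mem_sdiff, mem_univ, and_true, mem_singleton]
    constructor
    · intro h; by_contra hv; exact h.2.2 ⟨hv, h.1⟩
    · rintro rfl; exact ⟨hab.symm, ⟨hby, hbx⟩, fun h => h.1 rfl⟩
  have e2 : ((univ.erase a).erase b) \ ((univ.erase x).erase y) = {x, y} := by
    ext v
    simp only [mem_erase, mem_sdiff, mem_univ, and_true, mem_insert, mem_singleton]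
    constructor
    · intro h; by_contra hv; exact h.2 ⟨fun e => hv (Or.inr e), fun e => hv (Or.inl e)⟩
    · rintro (rfl | rfl)
      · exact ⟨⟨hbx.symm, hax.symm⟩, fun h => h.2 rfl⟩
      · exact ⟨⟨hby.symm, hay.symm⟩, fun h => h.1 rfl⟩
  have e3 : insert a (insert b ((univ.erase a).erase b)) = univ := by
    ext v; simp only [mem_insert, mem_erase, mem_univ]; tauto
  have e4 : insert x (((univ.erase x).erase y).erase a) = (univ.erase a).erase y := by
    ext v
    simp only [mem_insert, mem_erase, mem_univ]
    by_cases h : v = x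
    · simp [h, hax.symm, hxy]
    · tauto
  have e5 : insert y (((univ.erase x).erase y).erase a) = (univ.erase a).erase x := by
    ext v
    simp only [mem_insert, mem_erase, mem_univ]
    by_cases h : v = y
    · simp [h, hay.symm, hxy.symm]
    · tauto
  have e6 : insert a (((univ.erase a).erase b).erase x) = (univ.erase b).erase x := by
    ext v
    simp only [mem_insert, mem_erase, mem_univ]
    by_cases h : v = a
    · simp [h, hab, hax]
    · tauto
  have e7 : insert a (((univ.erase a).erase b).erase y) = (univ.erase b).erase y := by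
    ext v
    simp only [mem_insert, mem_erase, mem_univ]
    by_cases h : v = a
    · simp [h, hab, hay]
    · tauto
  rw [e1, e2, sum_singleton, sum_pair hxy, e3, e4, e5, e6, e7] at h
  have h1 := hm b x hbx
  have h2 : c b x * H c ((((univ.erase x).erase y).erase a).erase b) ≤ Q c a y := by
    have hb : b ∈ (univ.erase a).erase y := by simp [hby, hab.symm]
    have hx : x ∈ ((univ.erase a).erase y).erase b := by simp [hxy, hax.symm, hbx.symm]
    have e8 : (((univ.erase x).erase y).erase a).erase b =
        (((univ.erase a).erase y).erase b).erase x := by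
      ext v; simp only [mem_erase, mem_univ]; tauto
    rw [Q, H_rec hc hb, e8]
    exact single_le_sum (f := fun w => c b w * H c ((((univ.erase a).erase y).erase b).erase w))
      (fun w _ => mul_nonneg (hc.nonneg _ _) (H_nonneg _ _)) hx
  have h3 : H c ((((univ.erase x).erase y).erase a).erase b) * H c univ ≤
      1 / δ * (Q c a y * Q c b x) := by
    rw [one_div, ← div_eq_inv_mul, le_div_iff₀ hδ]
    nlinarith [mul_le_mul_of_nonneg_left h1
      (H_nonneg c ((((univ.erase x).erase y).erase a).erase b)),
      mul_le_mul_of_nonneg_right h2 (Q_nonneg c b x)]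
  change Q c x y * Q c a b ≤ _ + (Q c a y * Q c b x + Q c a x * Q c b y) at h
  linarith

end Vale.Agent.P308
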